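import Crest.Agent.N255.Cs.End

/-!
# Row 255 (helper31): the vertex identity before Tougeron
-/

set_option autoImplicit false
open Finset

noncomputable section

namespace Crest.Agent.N255.Cs

open Tw Tp

/-- the sign of a triple of indices -/
def lc3 (i j k : Fin 3) : ℤ :=
  if j = i + 1 ∧ k = i + 2 then 1 else if j = i + 2 ∧ k = i + 1 then -1 else 0

/-- the end of a vertex region with its three tori; `t j = true`: `al` is the meridian class -/
structure Vt (K X : Type) [CommRing K] [TopologicalSpace X] (t : Fin 3 → Bool) where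
  M : Mg (Fin 3) X
  T : Fin 3 → To K X
  e : ℤ
  c : Ch K 3 X
  le : ∀ j, (T j).P.Le M.P
  hx : ∀ j i, ∀ s ∈ (T j).P.S 1, M.x i s = if i = j then (T j).mer (t j) s else 0
  hy : ∀ j i k, ∀ s ∈ (T j).P.S 1, M.y i k s =
    (if i = j ∧ k = j then (T j).mer (t j) s * ((T j).mer (t j) s - 1) / 2 else 0) +
      lc3 i k j * e * (T j).lon (t j) s
  hc : c ∈ M.P.ch K 3
  hb : bd K c + ∑ j, (if t j then (T j).t else -(T j).t) = 0

variable {X : Type} [TopologicalSpace X] {K : Type} [CommRing K] {p : ℕ} [hpp : Fact p.Prime]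
  {O : Type} [CommRing O] [Algebra K O] {G : Gr (Gm p) K O} {m I J H L N : Ideal O}
  {t : Fin 3 → Bool}

namespace Vt

variable (V : Vt K X t)

theorem t_mem (j : Fin 3) : (if t j then (V.T j).t else -(V.T j).t) ∈ (V.T j).P.ch K 2 := by
  split_ifs
  exacts [(V.T j).ht, neg_mem (V.T j).ht]

theorem es_step (j : Fin 3) : V.e • (V.T (j + 2)).s = V.e • (V.T j).s := by
  have h := V.M.massey j (j + 1) (j + 2) V.hc
  rw [eq_neg_of_add_eq_zero_left V.hb, map_neg, map_neg, map_sum, map_sum] at h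
  have h1 : ∀ k, pz (V.M.y j (j + 1)) (V.M.x (j + 2)) (if t k then (V.T k).t else -(V.T k).t) =
      if k = j + 2 then -(V.e • (V.T k).s) else 0 := fun k => by
    rw [pz_congr (α' := (V.T k).lon (t k)) (β' := (V.T k).mer (t k)) (if k = j + 2 then V.e else 0)
      (fun σ hσ => ?_) (V.t_mem k), To.lon_mer]
    · split_ifs <;> simp
    rw [V.hy k _ _ _ (e2_mem _ hσ (by decide)), V.hx k _ _ (e2_mem _ hσ (by decide))]
    fin_cases j <;> fin_cases k <;> simp [lc3, mul_assoc]
  have h2 : ∀ k, pz (V.M.x j) (V.M.y (j + 1) (j + 2)) (if t k then (V.T k).t else -(V.T k).t) =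
      if k = j then V.e • (V.T k).s else 0 := fun k => by
    rw [pz_congr (α' := (V.T k).mer (t k)) (β' := (V.T k).lon (t k)) (if k = j then V.e else 0)
      (fun σ hσ => ?_) (V.t_mem k), To.mer_lon]
    · split_ifs <;> simp
    rw [V.hy k _ _ _ (e2_mem _ hσ (by decide)), V.hx k _ _ (e2_mem _ hσ (by decide))]
    fin_cases j <;> fin_cases k <;> simp [lc3, mul_left_comm]
  simp only [h1, h2, sum_ite_eq', mem_univ, if_true, neg_neg] at h
  exact add_neg_eq_zero.1 h

/-- the signs of the three tori agree -/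
theorem es (j : Fin 3) : V.e • (V.T j).s = V.e • (V.T 0).s := by
  fin_cases j
  exacts [rfl, (V.es_step 1).symm, V.es_step 0]

/-- the longitude minus one -/
def la (x : Fin 3 → (Tw G)ˣ) (j : Fin 3) : Tw G :=
  V.e • (((x (j + 1)).val - 1) * ((x (j + 2)).val - 1) - ((x (j + 2)).val - 1) * ((x (j + 1)).val - 1))

/-- the cubic term -/
def S (x : Fin 3 → (Tw G)ˣ) : O := (V.T 0).s • lam G (((x 0).val - 1) * V.la x 0)

/-- the boundary action -/
def A (x a : Fin 3 → (Tw G)ˣ) : O := -(∑ j, if t j then 0 else (V.T j).CC (a j) (x j)) - V.S x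

variable {x a b : Fin 3 → (Tw G)ˣ}

theorem la_in (hN : G.Id N) (hx : ∀ j, x j ∈ U hN) (j : Fin 3) : In (N * N) (V.la x j) :=
  In.zsmul (In.sub (o_mul_mem hN hN (hx _) (hx _)) (o_mul_mem hN hN (hx _) (hx _))) _

theorem v_wall (x : Fin 3 → (Tw G)ˣ) (j : Fin 3) {s : Sx 1 X} (hs : s ∈ (V.T j).P.S 1) :
    V.M.v (fun i => (x i).val - 1) s = (V.T j).mer (t j) s • ((x j).val - 1) +
      ((V.T j).mer (t j) s * ((V.T j).mer (t j) s - 1) / 2) • (((x j).val - 1) * ((x j).val - 1)) +
        (V.T j).lon (t j) s • V.la x j := by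
  simp only [Mg.v, V.hx j _ s hs, V.hy j _ _ s hs, la]
  fin_cases j <;> simp [Fin.sum_univ_three, lc3, -zsmul_eq_mul] <;> module

/-- the boundary connections are standard -/
theorem g_wall (hN : G.Id N) (hL : G.Id L) (NL : N * N * N ≤ L) (hx : ∀ j, x j ∈ U hN) (j : Fin 3)
    {u w : (Tw G)ˣ} (hu : In L (u.val - if t j then (x j).val else 1 + V.la x j))
    (hw : In L (w.val - if t j then 1 + V.la x j else (x j).val)) {l : (Tw G)ˣ}
    (hl : l.val = 1 + V.la x j) {s : Sx 1 X} (hs : s ∈ (V.T j).P.S 1) :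
    In L (((V.T j).g u w s).val - (1 + V.M.v (fun i => (x i).val - 1) s)) := by
  have hNN := hN.mul hN
  have l2 : l ∈ U hNN := by rw [mem_U, hl, add_sub_cancel_left]; exact V.la_in hN hx j
  have q : V.la x j = l.val - 1 := by rw [hl, add_sub_cancel_left]
  have h1 := NL (zpow_quad hN (hx j) ((V.T j).mer (t j) s))
  have h2 := (Ideal.mul_mono_right Ideal.mul_le_left).trans NL
    (zpow_one_lin hNN l2 ((V.T j).lon (t j) s))
  have h3 := zpow_mem (hx j) ((V.T j).mer (t j) s)
  have h4 := zpow_mem l2 ((V.T j).lon (t j) s)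
  rw [V.v_wall x j hs, q]
  rw [← hl] at hu hw
  revert h1 h2 h3 h4 hu hw
  unfold To.mer To.lon
  split_ifs <;> intro hw hu h1 h2 h3 h4
  · refine In.eq (In.add (In.add (In.add ((V.T j).g_dif hL hu hw _ s hs) h1) h2)
      (NL (mul_assoc N N N ▸ o_mul_mem hN hNN h3 h4))) ?_
    simp only [dif, To.g, Units.val_mul]
    noncomm_ring
  · refine In.eq (In.add (In.add (In.add ((V.T j).g_dif hL hu hw _ s hs) h1) h2)
      (NL (o_mul_mem hNN hN h4 h3))) ?_
    simp only [dif, To.g, Units.val_mul]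
    noncomm_ring

theorem S_eq (x : Fin 3 → (Tw G)ˣ) (j : Fin 3) :
    V.S x = (V.T j).s • lam G (((x j).val - 1) * V.la x j) := by
  have h : ∀ j, (V.T j).s • lam G (((x j).val - 1) * V.la x j) = (V.e • (V.T 0).s) •
      (lam G (((x j).val - 1) * (((x (j + 1)).val - 1) * ((x (j + 2)).val - 1))) -
        lam G (((x j).val - 1) * (((x (j + 2)).val - 1) * ((x (j + 1)).val - 1)))) := fun j => by
    rw [la, mul_smul_comm, map_zsmul, ← V.es j, smul_comm, smul_assoc, mul_sub, map_sub]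
  have c : ∀ u v w : Tw G, lam G (u * (v * w)) = lam G (v * (w * u)) := fun u v w => by
    rw [lam_comm, mul_assoc]
  rw [S, h, h]
  fin_cases j
  · rfl
  · exact congrArg _ (congrArg₂ _ (c _ _ _) (c _ _ _).symm)
  · exact congrArg _ (congrArg₂ _ (c _ _ _).symm (c _ _ _))

variable [Fact ((p : O) = 0)]

theorem sum_B (x : Fin 3 → (Tw G)ˣ) :
    ∑ j, (V.T j).s • lam G (D G ((x j).val - 1) * V.la x j) = V.S x := by
  have h : ∀ j u, (V.T j).s • lam G (u * V.la x j) = (V.e • (V.T 0).s) •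
      (lam G (u * (((x (j + 1)).val - 1) * ((x (j + 2)).val - 1))) -
        lam G (u * (((x (j + 2)).val - 1) * ((x (j + 1)).val - 1)))) := fun j u => by
    rw [la, mul_smul_comm, map_zsmul, ← V.es j, smul_comm, smul_assoc, mul_sub, map_sub]
  have c : ∀ u v w : Tw G, lam G (u * (v * w)) =
      lam G (D G u * (v * w)) + lam G (D G v * (w * u)) + lam G (D G w * (u * v)) := fun u v w => by
    rw [← lam_D, D_mul', D_mul', mul_add, map_add, map_add, lam_comm (x := u), lam_comm (x := D G w),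
      mul_assoc, mul_assoc, add_assoc]
  simp only [S, h, ← smul_sum, Fin.sum_univ_three]
  rw [c ((x 0).val - 1), c ((x 0).val - 1)]
  congr 1
  simp only [Fin.reduceAdd]
  abel

/-- the Chern-Simons term of the end -/
theorem end_eq (hm : G.Id m) (hn : IsNilpotent m) (hN : G.Id N) (hL : G.Id L) (Nm : N ≤ m)
    (Lm : L ≤ m) (NL : N * N * N ≤ L) (hx : ∀ j, x j ∈ U hN) (hM : ∀ j, t j = true → a j = x j)
    (ha : ∀ j, t j = false → In L ((a j).val - (1 + V.la x j)))
    (hb : ∀ j, In L ((b j).val - if t j then 1 + V.la x j else (x j).val)) {g : Cn G X}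
    (h : ∀ s ∈ V.M.P.S 1, In L ((g s).val - (1 + V.M.v (fun i => (x i).val - 1) s)))
    (e : ∀ j, (V.T j).Bc g (a j) (b j)) :
    ev K (CS g) V.c - (∑ j, if t j then (V.T j).cap (a j) ((b j).val - 1) else
      -(V.T j).cap (a j) ((b j).val - 1)) - V.A x a ∈ L * L ⊔ m * (N * N * N) := by
  have hN3 := (hN.mul hN).mul hN
  set g₁ := V.M.gst hm hn (μ := fun i => (x i).val - 1) fun i => Nm (hx i) with hg₁
  have u₁ : ∀ s, g₁ s ∈ U hN := V.M.gst_U hm hn _ hN hx
  have f₁ : CI V.M.P (N * N * N) (cur g₁) := V.M.cur_gst hm hn _ hN hx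
  have k : CI V.M.P L (dif g g₁) := fun s hs => by rw [dif, hg₁, Mg.val_gst]; exact h s hs
  have u : CU V.M.P hm g := fun s hs => by
    rw [mem_U, ← sub_add_sub_cancel (g s).val (g₁ s).val 1]
    exact In.add (Lm (k s hs)) (Nm (u₁ s))
  have f : CI V.M.P L (cur g) := fun σ hσ => by
    simpa using In.add (cur_sub_mem' hL k σ hσ) (NL (f₁ σ hσ))
  have e1 := CS_var hL hL (fun s _ => Nm (u₁ s)) u (fun σ hσ => NL (f₁ σ hσ)) f k V.hc
  have e2 : ev K (cup (lB G) 3 (dif g g₁) (cur g)) V.c + ev K (cup (lB G) 3 (cur g₁) (dif g g₁)) V.c ∈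
      L * L := add_mem
    (ev_ideal (fun σ hσ => by
      rw [cup12, lB_apply]
      exact lam_mem (hL.mul hL) (o_mul_mem hL hL (D_mem hL (k.df hσ 0 1))
        (f _ (e3_mem _ hσ (by decide) (by decide))))) V.hc)
    (ev_ideal (fun σ hσ => by
      rw [cup21, lB_apply]
      exact lam_mem (hL.mul hL) (o_mul_mem hL hL (D_mem hL (NL (f₁ _ (e3_mem _ hσ (by decide)
        (by decide))))) (k.df hσ 2 3))) V.hc)
  have e3 := CS_mem (hm := hm) hN3 (fun s _ => Nm (u₁ s)) f₁ V.hc
  have e4 : ∀ j, ev K (BE g₁ (dif g g₁)) (if t j then (V.T j).t else -(V.T j).t) -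
      ((if t j then (V.T j).cap (a j) ((b j).val - 1) else -(V.T j).cap (a j) ((b j).val - 1)) -
        (if t j then 0 else (V.T j).CC (a j) (x j)) -
          (V.T j).s • lam G (D G ((x j).val - 1) * V.la x j)) ∈ L * L ⊔ m * (N * N * N) := fun j => by
    have NN : N * N ≤ m := Ideal.mul_le_left.trans Nm
    let l := un hm hn _ (NN (V.la_in hN hx j))
    have hl : l.val = 1 + V.la x j := val_un _ _ _ _
    have l2 : l ∈ U (hN.mul hN) := un_mem _ _ _ _ _ (V.la_in hN hx j)
    have q : V.la x j = l.val - 1 := by rw [hl, add_sub_cancel_left]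
    have sh : ∀ u' w : (Tw G)ˣ, u' ∈ U hm → w ∈ U hm →
        u'.val = (if t j then (x j).val else 1 + V.la x j) →
        w.val = (if t j then 1 + V.la x j else (x j).val) → ev K (BE g₁ (dif g g₁)) (V.T j).t -
        ev K (BE ((V.T j).g u' w) (dif ((V.T j).g (a j) (b j)) ((V.T j).g u' w))) (V.T j).t ∈
          m * (N * N * N) := fun u' w hu hw h1 h2 => by
      rw [← BE_congr _ (e j) (V.T j).ht]
      refine BE_shift hN3 (fun s hs => u s (V.le j 1 hs)) ((V.T j).g_CU hm hu hw _)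
        (fun s _ => Nm (u₁ s)) (fun s hs => ?_) (V.T j).ht
      rw [dif, hg₁, Mg.val_gst, ← neg_sub]
      exact In.neg (V.g_wall hN hN3 le_rfl hx j (by rw [h1, sub_self]; exact in_zero)
        (by rw [h2, sub_self]; exact in_zero) hl hs)
    have hb' := hb j
    rcases ht : t j with _ | _
    · simp only [ht, Bool.false_eq_true, if_false] at hb' sh ⊢
      convert neg_mem (add_mem (Ideal.mem_sup_right (sh l (x j) (NN l2) (Nm (hx j)) hl rfl))
        ((V.T j).slotL hm hN hL Nm Lm (hx j) l2 (hl ▸ ha j ht) hb')) using 1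
      rw [map_neg, q]; abel
    · simp only [ht, if_true] at hb' sh ⊢
      rw [hM j ht] at sh ⊢
      convert add_mem (Ideal.mem_sup_right (sh (x j) l (Nm (hx j)) (NN l2) rfl hl))
        ((V.T j).slotM hm hN hL Nm Lm (hx j) l2 (hl ▸ hb')) using 1
      rw [q]; abel
  have e5 := sum_mem fun j (_ : j ∈ univ) => e4 j
  rw [sup_idem, eq_neg_of_add_eq_zero_left V.hb, map_neg, map_sum] at e1
  rw [sum_sub_distrib, sum_sub_distrib, sum_sub_distrib, sum_B] at e5
  convert add_mem (add_mem (Ideal.mem_sup_left (add_mem (Ideal.mul_le_right e1) e2))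
    (Ideal.mem_sup_right e3)) e5 using 1
  rw [A]; abel

/-- the vertex identity modulo `L ^ 2 + m N ^ 3` -/
theorem vertex (hm : G.Id m) (hn : IsNilpotent m) (hN : G.Id N) (hL : G.Id L) (Nm : N ≤ m)
    (Lm : L ≤ m) (NL : N * N * N ≤ L) (hx : ∀ j, x j ∈ U hN) (hM : ∀ j, t j = true → a j = x j)
    (ha : ∀ j, t j = false → In L ((a j).val - (1 + V.la x j)))
    (hb : ∀ j, In L ((b j).val - if t j then 1 + V.la x j else (x j).val)) {g : Cn G X}
    (h : ∀ s ∈ V.M.P.S 1, In L ((g s).val - (1 + V.M.v (fun i => (x i).val - 1) s)))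
    (e : ∀ j, (V.T j).Bc g (a j) (b j)) {P : Sb X} (f : CI P L (cur g)) {r : Ch K 4 X}
    (hr : r ∈ P.ch K 4) {σ : Fin 3 → Ch K 3 X}
    (hσ : bd K r = V.c + ∑ j, if t j then σ j else -σ j) :
    (∑ j, if t j then (V.T j).W (σ j) g (a j) (b j) else -(V.T j).W (σ j) g (a j) (b j)) + V.A x a ∈
      L * L ⊔ m * (N * N * N) := by
  have e1 := CS_bd_mem hL f hr
  rw [hσ, map_add, map_sum] at e1
  convert sub_mem (Ideal.mem_sup_left e1) (V.end_eq hm hn hN hL Nm Lm NL hx hM ha hb h e) using 1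
  have : ∀ j, (if t j then (V.T j).W (σ j) g (a j) (b j) else -(V.T j).W (σ j) g (a j) (b j)) =
      ev K (CS g) (if t j then σ j else -σ j) + if t j then (V.T j).cap (a j) ((b j).val - 1) else
        -(V.T j).cap (a j) ((b j).val - 1) := fun j => by
    split_ifs
    · rfl
    · rw [map_neg, To.W, neg_add]
  simp only [this, sum_add_distrib]
  abel

end Vt

end Crest.Agent.N255.Cs

end
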