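import Crest.Agent.N255.Cs.Vt

/-!
# Row 255 (helper31): the boundary action at a vertex, derivatives and cubic coefficient
-/

set_option autoImplicit false
open Finset

noncomputable section

namespace Crest.Agent.N255.Cs

open Tw Tp

variable {X : Type} [TopologicalSpace X] {K : Type} [CommRing K] {p : ℕ} [hpp : Fact p.Prime]
  {O : Type} [CommRing O] [Algebra K O] {G : Gr (Gm p) K O} {m I J H L N Na : Ideal O}
  {t : Fin 3 → Bool} {γ : Gm p} {δ : Derivation K O O}

theorem pr_tm (a : Gm p) (x y : Tw G) :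
    G.pr a (o G (x * y)) = ∑ b, sg b (a - b) • (G.pr b (o G x) * G.pr (a - b) (o G y)) := by
  rw [o_mul, tm_apply, map_sum]
  refine sum_congr rfl fun b _ => ?_
  rw [map_sum, sum_eq_single (a - b) (fun c _ hc => ?_) (by simp), map_zsmul]
  · exact congrArg _ (((G.hg_pr _ _).mul (G.hg_pr _ _)).cast (add_sub_cancel b a))
  · rw [map_zsmul, ((G.hg_pr _ _).mul (G.hg_pr _ _)).ne, smul_zero]
    exact fun e => hc (by rw [e, add_sub_cancel_left])

theorem der_pr_left (h : G.Dg γ δ) {x y : Tw G} {c : K} (hx : δ (o G x) = algebraMap K O c)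
    (hy : δ (o G y) = 0) (a : Gm p) :
    δ (G.pr a (o G (x * y))) = sg γ (a - γ) • c • G.pr (a - γ) (o G y) := by
  rw [pr_tm, map_sum, sum_eq_single γ (fun b _ hb => ?_) (by simp)]
  · rw [map_zsmul, δ.leibniz, h.pr, h.pr, hx, hy, sub_self, G.hg_alg c, map_zero, smul_zero, zero_add,
      smul_eq_mul, mul_comm, Algebra.smul_def c]
  · rw [map_zsmul, δ.leibniz, h.pr, h.pr, hx, hy, (G.hg_alg c).ne (sub_ne_zero.2 hb), map_zero,
      smul_zero, smul_zero, add_zero, smul_zero]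

theorem der_pr_right (h : G.Dg γ δ) {x y : Tw G} {c : K} (hx : δ (o G x) = 0)
    (hy : δ (o G y) = algebraMap K O c) (a : Gm p) :
    δ (G.pr a (o G (x * y))) = sg (a - γ) γ • c • G.pr (a - γ) (o G x) := by
  rw [pr_tm, map_sum, sum_eq_single (a - γ) (fun b _ hb => ?_) (by simp)]
  · rw [map_zsmul, δ.leibniz, h.pr, h.pr, hx, hy, sub_sub_cancel, sub_self, G.hg_alg c, map_zero,
      smul_zero, add_zero, smul_eq_mul, mul_comm, Algebra.smul_def c]
  · rw [map_zsmul, δ.leibniz, h.pr, h.pr, hx, hy, (G.hg_alg c).ne, map_zero,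
      smul_zero, smul_zero, add_zero, smul_zero]
    exact fun e => hb (by rw [← sub_eq_zero.1 e, sub_sub_cancel])

theorem der_mul_zero (h : G.Dg γ δ) {x y : Tw G} (hx : δ (o G x) = 0) (hy : δ (o G y) = 0) :
    δ (o G (x * y)) = 0 := by
  rw [← G.sum (o G (x * y)), map_sum]
  exact sum_eq_zero fun a _ => by
    rw [der_pr_left h (c := 0) (hx.trans (map_zero _).symm) hy, zero_smul, smul_zero]

theorem der_sub_one (u : Tw G) : δ (o G (u - 1)) = δ (o G u) := by
  rw [map_sub, map_sub, o_one, δ.map_one_eq_zero, sub_zero]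

/-- the pairing `q` in components -/
theorem lam_sum {ι : Type*} (s : Finset ι) {d : ι → Gm p} (hd : Set.InjOn d s) {u v : ι → O}
    (hu : ∀ i ∈ s, G.Hg (d i) (u i)) (hv : ∀ i ∈ s, G.Hg (g0 p - d i) (v i)) :
    lam G (up G (∑ i ∈ s, u i) * up G (∑ i ∈ s, v i)) =
      ∑ i ∈ s, sg (d i) (g0 p - d i) • (u i * v i) := by
  simp only [map_sum, sum_mul_sum]
  refine sum_congr rfl fun i hi => ?_
  have e : ∀ j ∈ s, lam G (up G (u i) * up G (v j)) =
      sg (d i) (g0 p - d j) • G.pr (g0 p) (u i * v j) := fun j hj => by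
    rw [up_mul_hg (hu i hi) (hv j hj), map_zsmul]; rfl
  rw [sum_eq_single i (fun j hj hne => ?_) (fun h => absurd hi h), e i hi]
  · exact congrArg _ (((hu i hi).mul (hv i hi)).cast (add_sub_cancel _ _))
  · rw [e j hj, ((hu i hi).mul (hv j hj)).ne, smul_zero]
    exact fun e => hne (hd hj hi (by rw [← add_sub_assoc, eq_sub_iff_add_eq, add_comm] at e; simpa using e))

omit hpp in
theorem sg_anti {a b : Gm p} (ha : a.1 ≠ 0) (hb : b.1 ≠ 0) (h : a.1 ≠ b.1) : sg b a = -sg a b := by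
  have : ∀ x y : ZMod 2 × ZMod 2, x ≠ 0 → y ≠ 0 → x ≠ y → (if y.2 * x.1 = 0 then (1 : ℤ) else -1) =
    -if x.2 * y.1 = 0 then 1 else -1 := by decide
  exact this _ _ ha hb h

namespace Vt

variable (V : Vt K X t) {x a : Fin 3 → (Tw G)ˣ}

/-- the quadratic part of the boundary action -/
def Q (x a : Fin 3 → (Tw G)ˣ) : O :=
  ∑ j, if t j then 0 else (V.T j).s • lam G (((a j).val - 1) * ((x j).val - 1))

/-- the cubic part of the boundary action -/
def Ps (x a : Fin 3 → (Tw G)ˣ) : O := V.A x a - V.Q x a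

theorem S_hg (x : Fin 3 → (Tw G)ˣ) : G.Hg (g0 p) (V.S x) := (lam_hg _).smul _

theorem A_hg (x a : Fin 3 → (Tw G)ˣ) : G.Hg (g0 p) (V.A x a) :=
  (Gr.Hg.sum fun j _ => by
    split_ifs
    exacts [G.hg_zero _, (V.T j).CC_hg _ _]).neg.sub (V.S_hg x)

theorem Ps_hg (x a : Fin 3 → (Tw G)ˣ) : G.Hg (g0 p) (V.Ps x a) :=
  (V.A_hg x a).sub (Gr.Hg.sum fun j _ => by
    split_ifs
    exacts [G.hg_zero _, (lam_hg _).smul _])

theorem Ps_eq (x a : Fin 3 → (Tw G)ˣ) : V.Ps x a = -(∑ j, if t j then 0 else ((V.T j).CC (a j) (x j) +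
    (V.T j).s • lam G (((a j).val - 1) * ((x j).val - 1)))) - V.S x := by
  rw [Ps, A, Q, sub_right_comm, ← neg_add', ← sum_add_distrib]
  congr 3
  funext j
  split_ifs <;> simp

theorem S_mem {N : Fin 3 → Ideal O} (hN : ∀ j, G.Id (N j)) (hx : ∀ j, x j ∈ U (hN j)) :
    V.S x ∈ N 0 * N 1 * N 2 := by
  have h := (hN 1).mul (hN 2)
  rw [mul_assoc]
  exact Submodule.smul_of_tower_mem _ _ (lam_mem ((hN 0).mul h) (o_mul_mem (hN 0) h (hx 0) (In.zsmul
    (In.sub (o_mul_mem (hN 1) (hN 2) (hx 1) (hx 2)) (mul_comm (N 2) (N 1) ▸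
      o_mul_mem (hN 2) (hN 1) (hx 2) (hx 1))) _)))

section map

variable {O' : Type} [CommRing O'] [Algebra K O'] {G' : Gr (Gm p) K O'} {φ : O →ₐ[K] O'}

theorem la_mp (h : G.Hom G' φ) (x : Fin 3 → (Tw G)ˣ) (j : Fin 3) :
    V.la (fun i => um h (x i)) j = Tw.map h (V.la x j) := by simp [la, -zsmul_eq_mul]

theorem S_mp (h : G.Hom G' φ) (x : Fin 3 → (Tw G)ˣ) : V.S (fun i => um h (x i)) = φ (V.S x) := by
  rw [S, S, la_mp, map_smul, ← lam_map h, map_mul (Tw.map h), map_sub (Tw.map h), map_one, val_um]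

theorem A_mp (h : G.Hom G' φ) (x a : Fin 3 → (Tw G)ˣ) :
    V.A (fun i => um h (x i)) (fun i => um h (a i)) = φ (V.A x a) := by
  simp only [A, S_mp, To.CC_mp, map_sub, map_neg, map_sum, apply_ite φ, map_zero]

end map

theorem der_la (h : G.Dg γ δ) (j : Fin 3) (z : ∀ i, i ≠ j → δ (o G (x i)) = 0) :
    δ (o G (V.la x j)) = 0 := by
  have h1 : δ (o G ((x (j + 1)).val - 1)) = 0 := by rw [der_sub_one, z _ (by simp)]
  have h2 : δ (o G ((x (j + 2)).val - 1)) = 0 := by
    rw [der_sub_one, z _ (by fin_cases j <;> decide)]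
  rw [la, map_zsmul, map_zsmul, map_sub, map_sub, der_mul_zero h h1 h2, der_mul_zero h h2 h1,
    sub_self, smul_zero]

theorem der_S (h : G.Dg γ δ) (j : Fin 3) (z : ∀ i, i ≠ j → δ (o G (x i)) = 0) {c : K}
    (hc : δ (o G (x j)) = algebraMap K O c) :
    δ (V.S x) = (V.T j).s • sg γ (g0 p - γ) • c • G.pr (g0 p - γ) (o G (V.la x j)) := by
  rw [V.S_eq x j, δ.map_smul, lam_eq, der_pr_left h ((der_sub_one _).trans hc) (V.der_la h j z)]

theorem der_CC (h : G.Dg γ δ) (j : Fin 3) (ht : t j = false) (z : ∀ i, i ≠ j → δ (o G (x i)) = 0)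
    (z' : ∀ i, i ≠ j → t i = false → δ (o G (a i)) = 0) :
    δ (V.A x a) = -δ ((V.T j).CC (a j) (x j)) - δ (V.S x) := by
  rw [A, map_sub, map_neg, map_sum, sum_eq_single j (fun i _ hi => ?_) (by simp), ht]
  · rfl
  rcases hi' : t i with _ | _
  · exact ((V.T i).dC_eq h _ (z i hi)).symm.trans ((V.T i).dC_zero h (z' i hi hi') _)
  · exact map_zero _

/-- derivative of the action in a direction `y` of a longitude slot -/
theorem der_A_y (h : G.Dg γ δ) (j : Fin 3) (ht : t j = false) (z : ∀ i, δ (o G (x i)) = 0)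
    (z' : ∀ i, i ≠ j → t i = false → δ (o G (a i)) = 0) :
    δ (V.A x a) = -δ ((V.T j).CC (a j) (x j)) := by
  rw [V.der_CC h j ht (fun i _ => z i) z', V.der_S h j (fun i _ => z i) (c := 0)
    ((z j).trans (map_zero _).symm), zero_smul, smul_zero, smul_zero, sub_zero]

/-- derivative of the action in a direction `y` of a meridian slot -/
theorem der_A_M (h : G.Dg γ δ) (j : Fin 3) (ht : t j = true) (z : ∀ i, i ≠ j → δ (o G (x i)) = 0)
    (z' : ∀ i, t i = false → δ (o G (a i)) = 0) {c : K} (hc : δ (o G (x j)) = algebraMap K O c) :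
    δ (V.A x a) = -((V.T j).s • sg γ (g0 p - γ) • c • G.pr (g0 p - γ) (o G (V.la x j))) := by
  rw [A, map_sub, map_neg, map_sum, sum_eq_zero fun i _ => ?_, neg_zero, zero_sub, V.der_S h j z hc]
  rcases hi' : t i with _ | _
  · exact ((V.T i).dC_eq h _ (z i fun e => by simp [e, ht] at hi')).symm.trans
      ((V.T i).dC_zero h (z' i hi') _)
  · exact map_zero _

variable [Fact ((p : O) = 0)]

/-- derivative of the action in a direction `m` of a longitude slot -/
theorem der_A_m (h : G.Dg γ δ) (j : Fin 3) (ht : t j = false) (z : ∀ i, i ≠ j → δ (o G (x i)) = 0)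
    (z' : ∀ i, t i = false → δ (o G (a i)) = 0) {c : K} (hc : δ (o G (x j)) = algebraMap K O c)
    (hN : G.Id N) (hNa : G.Id Na) (aN : Na ≤ N) (ha : a j ∈ U hNa) (hx : x j ∈ U hN) :
    δ (V.A x a) - (V.T j).s • sg γ (g0 p - γ) • c •
      G.pr (g0 p - γ) (o G ((a j).val - (1 + V.la x j))) ∈ N * Na := by
  convert neg_mem ((V.T j).CC_der h hN hNa aN ha hx (z' j ht) (c := c) (by simp [hc])) using 1
  rw [V.der_CC h j ht z (fun i _ => z' i), V.der_S h j z hc, ← _root_.sub_sub]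
  simp only [map_sub (o G) (_ - 1), map_sub (G.pr _), smul_sub]
  abel

theorem Ps_mem (hN : G.Id N) (hx : ∀ j, x j ∈ U hN) (ha : ∀ j, t j = false → a j ∈ U hN) :
    V.Ps x a ∈ N * N * N := by
  rw [Ps_eq]
  refine sub_mem (neg_mem (sum_mem fun j _ => ?_)) (V.S_mem (N := fun _ => N) (fun _ => hN) hx)
  rcases ht : t j with _ | _
  · exact (V.T j).CC_q hN hN hN le_rfl le_rfl (ha j ht) (hx j)
  · exact zero_mem _

omit [Fact ((p : O) = 0)] in
theorem der_Q_y (h : G.Dg γ δ) (j : Fin 3) (ht : t j = false) (z : ∀ i, δ (o G (x i)) = 0)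
    (z' : ∀ i, i ≠ j → t i = false → δ (o G (a i)) = 0) {c : K}
    (hc : δ (o G (a j)) = algebraMap K O c) :
    δ (V.Q x a) = (V.T j).s • sg γ (g0 p - γ) • c • G.pr (g0 p - γ) (o G ((x j).val - 1)) := by
  rw [Q, map_sum, sum_eq_single j (fun i _ hi => ?_) (by simp), ht, if_neg (by simp), δ.map_smul,
    lam_eq, der_pr_left h ((der_sub_one _).trans hc) ((der_sub_one _).trans (z j))]
  rcases hi' : t i with _ | _
  · rw [if_neg (by simp), δ.map_smul, lam_eq, h.pr, der_mul_zero h ((der_sub_one _).trans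
      (z' i hi hi')) ((der_sub_one _).trans (z i)), map_zero, smul_zero]
  · exact map_zero _

omit [Fact ((p : O) = 0)] in
theorem der_Q_m (h : G.Dg γ δ) (j : Fin 3) (z : ∀ i, i ≠ j → δ (o G (x i)) = 0)
    (z' : ∀ i, t i = false → δ (o G (a i)) = 0) {c : K} (hc : δ (o G (x j)) = algebraMap K O c) :
    δ (V.Q x a) = if t j then 0 else
      (V.T j).s • sg γ (g0 p - γ) • c • G.pr (g0 p - γ) (o G ((a j).val - 1)) := by
  rw [Q, map_sum, sum_eq_single j (fun i _ hi => ?_) (by simp)]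
  · rcases ht : t j with _ | _
    · rw [if_neg (by simp), if_neg (by simp), δ.map_smul, lam_comm, lam_eq,
        der_pr_left h ((der_sub_one _).trans hc) ((der_sub_one _).trans (z' j ht))]
    · exact map_zero _
  rcases hi' : t i with _ | _
  · rw [if_neg (by simp), δ.map_smul, lam_eq, h.pr, der_mul_zero h ((der_sub_one _).trans
      (z' i hi')) ((der_sub_one _).trans (z i hi)), map_zero, smul_zero]
  · exact map_zero _

/-- the derivative of the cubic part in a direction `y` of a longitude slot -/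
theorem der_Ps_y (h : G.Dg γ δ) (j : Fin 3) (ht : t j = false) (z : ∀ i, δ (o G (x i)) = 0)
    (z' : ∀ i, i ≠ j → t i = false → δ (o G (a i)) = 0) {c : K}
    (hc : δ (o G (a j)) = algebraMap K O c) (hN : G.Id N) (hNa : G.Id Na) (aN : Na ≤ N)
    (ha : a j ∈ U hN) (hx : x j ∈ U hNa) : δ (V.Ps x a) ∈ N * Na := by
  convert neg_mem ((V.T j).dC_lead h hN hNa aN ha hx (c := c) (by simp [hc])) using 1
  rw [Ps, map_sub, V.der_A_y h j ht z z', V.der_Q_y h j ht z z' hc, (V.T j).dC_eq h _ (z j)]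
  abel

/-- the derivative of the cubic part in a direction `m` of a longitude slot -/
theorem der_Ps_m (h : G.Dg γ δ) (j : Fin 3) (ht : t j = false) (z : ∀ i, i ≠ j → δ (o G (x i)) = 0)
    (z' : ∀ i, t i = false → δ (o G (a i)) = 0) {c : K} (hc : δ (o G (x j)) = algebraMap K O c)
    (hN : G.Id N) (hNa : G.Id Na) (aN : Na ≤ N) (ha : a j ∈ U hNa) (hx : x j ∈ U hN) :
    δ (V.Ps x a) + (V.T j).s • sg γ (g0 p - γ) • c • G.pr (g0 p - γ) (o G (V.la x j)) ∈ N * Na := by
  convert V.der_A_m h j ht z z' hc hN hNa aN ha hx using 1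
  rw [Ps, map_sub, V.der_Q_m h j z z' hc, ht, if_neg (by simp), ← _root_.sub_sub]
  simp only [map_sub (o G) (_ - 1), map_sub (G.pr _), smul_sub]
  abel

omit [Fact ((p : O) = 0)] in
/-- the trilinear coefficient of the cubic part -/
theorem cub {γ : Fin 3 → Gm p} {δ : Fin 3 → Derivation K O O} (h : ∀ i, G.Dg (γ i) (δ i))
    (hγ : γ 0 + γ 1 + γ 2 = g0 p) (hc : ∀ f, δ 1 (δ 2 f) = δ 2 (δ 1 f))
    (z : ∀ i j, δ i (o G (x j)) = if i = j then 1 else 0)
    (z' : ∀ i j, t j = false → δ i (o G (a j)) = 0) :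
    δ 0 (δ 1 (δ 2 (V.Ps x a))) =
      -algebraMap K O ((sg (γ 2) (γ 0 + γ 1) * (sg (γ 0) (γ 1) - sg (γ 1) (γ 0)) * V.e) • (V.T 0).s) := by
  have z0 : ∀ i j, j ≠ i → δ i (o G (x j)) = 0 := fun i j e => by rw [z, if_neg e.symm]
  have z1 : ∀ i, δ i (o G (x i)) = algebraMap K O 1 := fun i => by rw [z, if_pos rfl, map_one]
  have own : ∀ j, δ 1 (δ 2 (if t j then 0 else ((V.T j).CC (a j) (x j) +
      (V.T j).s • lam G (((a j).val - 1) * ((x j).val - 1))))) = 0 := fun j => by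
    have k : ∀ i, i ≠ j → δ i (if t j then 0 else ((V.T j).CC (a j) (x j) +
        (V.T j).s • lam G (((a j).val - 1) * ((x j).val - 1)))) = 0 := fun i e => by
      rcases ht : t j with _ | _
      · rw [if_neg (by simp), map_add, ← (V.T j).dC_eq (h i) _ (z0 i j e.symm),
          (V.T j).dC_zero (h i) (z' i j ht), Derivation.map_smul, lam_eq, (h i).pr, der_mul_zero (h i)
          ((der_sub_one _).trans (z' i j ht)) ((der_sub_one _).trans (z0 i j e.symm)), map_zero,
          smul_zero, add_zero]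
      · exact map_zero _
    by_cases e : j = 2
    · rw [hc, k 1 (by rw [e]; decide), map_zero]
    · rw [k 2 (Ne.symm e), map_zero]
  have e1 : g0 p - γ 2 = γ 0 + γ 1 := by rw [← hγ, add_sub_cancel_right]
  have e2 : δ 0 (G.pr (γ 0) (o G ((x 0).val - 1))) = 1 := by
    rw [(h 0).pr, der_sub_one, z1, sub_self, map_one]; exact G.hg_one
  rw [Ps_eq, map_sub, map_sub, map_neg, map_neg, map_sum, map_sum, sum_eq_zero fun j _ => own j,
    neg_zero, zero_sub, V.der_S (h 2) 2 (z0 2) (z1 2), e1, la, mul_smul, V.es 2 |>.symm]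
  simp only [Fin.reduceAdd, map_zsmul, map_sub (o G) (_ * _), map_sub (G.pr _), one_smul, map_neg,
    Derivation.map_smul, map_sub (δ _),
    der_pr_right (h 1) ((der_sub_one _).trans (z0 1 0 (by decide))) ((der_sub_one _).trans (z1 1)),
    der_pr_left (h 1) ((der_sub_one _).trans (z1 1)) ((der_sub_one _).trans (z0 1 0 (by decide))),
    add_sub_cancel_right, e2, Algebra.algebraMap_eq_smul_one]
  module

end Vt

end Crest.Agent.N255.Cs

end
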