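import Mathlib

/-!
# Row 255 (helper31): the off-shell Chern-Simons cochain, exact identities
-/

set_option autoImplicit false

namespace Crest.Agent.N255.Cs

/-- a ring with a derivation and a trace of weight one -/
structure TD (R A : Type*) [Ring R] [AddCommGroup A] where
  D : R →+ R
  lam : R →+ A
  D_mul : ∀ x y, D (x * y) = D x * y + x * D y
  lam_comm : ∀ x y, lam (x * y) = lam (y * x)
  lam_D : ∀ x, lam (D x) = lam x

variable {R A V : Type*} [Ring R] [AddCommGroup A]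

/-- curvature -/
def fc (g : V → V → Rˣ) (a b c : V) : R := g a b * g b c - g a c

/-- twisted coboundary of a variation -/
def dg (g : V → V → Rˣ) (h : V → V → R) (a b c : V) : R := h a b * g b c + g a b * h b c - h a c

/-- coboundary of a 1-cochain -/
def d1 {B : Type*} [AddCommGroup B] (h : V → V → B) (a b c : V) : B := h b c - h a c + h a b

/-- coboundary of a 2-cochain -/
def d2 {B : Type*} [AddCommGroup B] (h : V → V → V → B) (a b c d : V) : B :=
  h b c d - h a c d + h a b d - h a b c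

/-- coboundary of a 3-cochain -/
def d3 {B : Type*} [AddCommGroup B] (h : V → V → V → V → B) (a b c d e : V) : B :=
  h b c d e - h a c d e + h a b d e - h a b c e + h a b c d

/-- gauge transformation -/
def gau (γ : V → Rˣ) (g : V → V → Rˣ) (a b : V) : Rˣ := γ a * g a b * (γ b)⁻¹

/-- difference of two connections -/
def df (g' g : V → V → Rˣ) (a b : V) : R := g' a b - g a b

theorem bianchi (g : V → V → Rˣ) (a b c d : V) :
    g a b * fc g b c d - fc g a c d + fc g a b d - fc g a b c * g c d = 0 := by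
  unfold fc; noncomm_ring

theorem d2_fc (g : V → V → Rˣ) (a b c d : V) :
    d2 (fc g) a b c d = fc g a b c * (g c d - 1) - (g a b - 1) * fc g b c d := by
  unfold d2 fc; noncomm_ring

theorem inv_fc (g : V → V → Rˣ) (a c d : V) :
    ↑(g a c)⁻¹ * fc g a c d * ↑(g a d)⁻¹ = (g c d : R) * ↑(g a d)⁻¹ - ↑(g a c)⁻¹ := by
  rw [fc, mul_sub, sub_mul, Units.inv_mul_cancel_left, Units.mul_inv_cancel_right]

theorem inv_fc' (g : V → V → Rˣ) (a c d : V) :
    ↑(g a d)⁻¹ * fc g a c d * ↑(g c d)⁻¹ = ↑(g a d)⁻¹ * (g a c : R) - ↑(g c d)⁻¹ := by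
  rw [fc, mul_sub, sub_mul, Units.inv_mul, one_mul, ← mul_assoc, Units.mul_inv_cancel_right]

theorem inv_df (g' g : V → V → Rˣ) (a b : V) :
    ↑(g a b)⁻¹ * df g' g a b * ↑(g' a b)⁻¹ = (↑(g a b)⁻¹ : R) - ↑(g' a b)⁻¹ := by
  rw [df, mul_sub, sub_mul, Units.inv_mul, one_mul, Units.mul_inv_cancel_right]

theorem fc_sub (g' g : V → V → Rˣ) (a b c : V) :
    fc g' a b c = fc g a b c + dg g (df g' g) a b c + df g' g a b * df g' g b c := by
  unfold fc dg df; noncomm_ring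

theorem dg_eq (g : V → V → Rˣ) (h : V → V → R) (a b c : V) :
    dg g h a b c = d1 h a b c + h a b * (g b c - 1) + (g a b - 1) * h b c := by
  unfold dg d1; noncomm_ring

theorem fc_eq (g : V → V → Rˣ) (a b c : V) : fc g a b c =
    d1 (fun x y => (g x y : R) - 1) a b c + (g a b - 1) * (g b c - 1) := by
  unfold fc d1; noncomm_ring

theorem fc_gau (γ : V → Rˣ) (g : V → V → Rˣ) (a b c : V) :
    fc (gau γ g) a b c = γ a * fc g a b c * ↑(γ c)⁻¹ := by
  simp only [fc, gau, Units.val_mul, mul_sub, sub_mul, mul_assoc, Units.inv_mul_cancel_left]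

theorem fc_map {R' F : Type*} [Ring R'] [FunLike F R R'] [RingHomClass F R R'] (φ : F)
    (g : V → V → Rˣ) (a b c : V) :
    fc (fun x y => Units.map (φ : R →* R') (g x y)) a b c = φ (fc g a b c) := by
  simp [fc]

namespace TD

variable (T : TD R A)

/-- the Chern-Simons cochain -/
def cs (g : V → V → Rˣ) (a b c d : V) : A := T.lam (T.D (g a b) * fc g b c d * ↑(g a d)⁻¹)

/-- its coboundary -/
def P (g : V → V → Rˣ) (a b c d e : V) : A :=
  T.lam (T.D (fc g a b c) * fc g c d e * ↑(g a e)⁻¹)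
    - T.lam (T.D (g a b) * fc g b c d * (↑(g a d)⁻¹ * fc g a d e * ↑(g a e)⁻¹))
    - T.lam (T.D (g b c) * fc g c d e * (↑(g a e)⁻¹ * fc g a b e * ↑(g b e)⁻¹))

/-- boundary term of the variation -/
def be (g : V → V → Rˣ) (h : V → V → R) (a b c : V) : A :=
  T.lam (T.D (g a b) * h b c * ↑(g a c)⁻¹)

/-- cup-one term -/
def ka (f : V → V → V → R) (h : V → V → R) (a b c : V) : A := T.lam (h a c * T.D (f a b c))

/-- boundary term of a gauge transformation -/
def th (γ : V → Rˣ) (g : V → V → Rˣ) (a b c : V) : A :=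
  T.lam (↑(γ a)⁻¹ * T.D (γ a) * fc g a b c * ↑(g a c)⁻¹)

theorem D_one : T.D 1 = 0 := by simpa using T.D_mul 1 1

theorem D_inv (u : Rˣ) : T.D ↑u⁻¹ = -(↑u⁻¹ * T.D u * ↑u⁻¹) := by
  have h := T.D_mul ↑u⁻¹ u
  rw [Units.inv_mul, T.D_one] at h
  have h2 : T.D ↑u⁻¹ * u = -(↑u⁻¹ * T.D u) := eq_neg_of_add_eq_zero_left h.symm
  rw [← neg_mul, ← h2, Units.mul_inv_cancel_right]

theorem D_fc (g : V → V → Rˣ) (a b c : V) :
    T.D (g a c) = T.D (g a b) * g b c + g a b * T.D (g b c) - T.D (fc g a b c) := by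
  rw [fc, map_sub, T.D_mul]; abel

theorem lam_DD (x y : R) : T.lam (T.D x * y) + T.lam (x * T.D y) = T.lam (x * y) := by
  rw [← map_add, ← T.D_mul, T.lam_D]

theorem lam_cyc (u x : R) {y : R} (h : y = u * x - x * u) : T.lam y = 0 := by
  rw [h, map_sub, T.lam_comm, sub_self]

/-- (P) -/
theorem d3_cs (g : V → V → Rˣ) (a b c d e : V) : d3 (T.cs g) a b c d e = T.P g a b c d e := by
  rw [← sub_eq_zero]
  simp only [d3, cs, P, inv_fc, inv_fc', T.D_fc g a b c, ← map_sub, ← map_add]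
  refine T.lam_cyc (T.D (g b c) * fc g c d e * ↑(g a e)⁻¹) (g a b) ?_
  generalize T.D (fc g a b c) = x
  unfold fc
  noncomm_ring

theorem d2_be (g : V → V → Rˣ) (h : V → V → R) (a b c d : V) : d2 (T.be g h) a b c d =
    T.lam (T.D (fc g a b c) * h c d * ↑(g a d)⁻¹) - T.lam (T.D (g a b) * dg g h b c d * ↑(g a d)⁻¹)
      - T.lam (T.D (g b c) * h c d * (↑(g a d)⁻¹ * fc g a b d * ↑(g b d)⁻¹))
      + T.lam (T.D (g a b) * h b c * (↑(g a c)⁻¹ * fc g a c d * ↑(g a d)⁻¹)) := by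
  rw [← sub_eq_zero]
  simp only [d2, be, inv_fc, inv_fc', T.D_fc g a b c, ← map_sub, ← map_add]
  refine T.lam_cyc (T.D (g b c) * h c d * ↑(g a d)⁻¹) (g a b) ?_
  unfold dg
  noncomm_ring

/-- the error of the variation formula -/
def Ve (g' g : V → V → Rˣ) (a b c d : V) : A :=
  T.lam (T.D (g a b) * (df g' g b c * df g' g c d) * ↑(g a d)⁻¹)
    - T.lam (T.D (g a b) * fc g' b c d * (↑(g a d)⁻¹ * df g' g a d * ↑(g' a d)⁻¹))
    - T.lam (T.D (g b c) * df g' g c d * (↑(g a d)⁻¹ * fc g a b d * ↑(g b d)⁻¹))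
    + T.lam (T.D (g a b) * df g' g b c * (↑(g a c)⁻¹ * fc g a c d * ↑(g a d)⁻¹))

/-- (V) -/
theorem var (g' g : V → V → Rˣ) (a b c d : V) :
    T.cs g' a b c d - T.cs g a b c d + d2 (T.be g (df g' g)) a b c d =
      T.lam (T.D (df g' g a b) * fc g' b c d * ↑(g' a d)⁻¹)
        + T.lam (T.D (fc g a b c) * df g' g c d * ↑(g a d)⁻¹) + T.Ve g' g a b c d := by
  have h1 : T.D (g' a b) = T.D (g a b) + T.D (df g' g a b) := by rw [df, map_sub]; abel
  rw [← sub_eq_zero, d2_be]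
  simp only [cs, Ve, inv_df, h1, ← map_sub T.lam, ← map_add T.lam]
  rw [fc_sub g' g]
  refine T.lam_cyc 0 0 ?_
  noncomm_ring

theorem d2_ka (f : V → V → V → R) (h : V → V → R) (a b c d : V) : d2 (T.ka f h) a b c d =
    T.lam (T.D (f a b c) * h c d) - T.lam (h a b * T.D (f b c d))
      + T.lam (d1 h a b d * T.D (f b c d)) - T.lam (d1 h a c d * T.D (f a b c))
      + T.lam (h a d * T.D (d2 f a b c d)) := by
  rw [← sub_eq_zero, T.lam_comm]
  simp only [d2, ka, d1, map_sub T.D, map_add T.D, ← map_sub T.lam, ← map_add T.lam]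
  refine T.lam_cyc 0 0 ?_
  noncomm_ring

/-- the symbol of the variation -/
theorem swap (f : V → V → V → R) (h : V → V → R) (a b c d : V) :
    T.lam (T.D (h a b) * f b c d) + T.lam (T.D (f a b c) * h c d) =
      T.lam (h a b * f b c d) + d2 (T.ka f h) a b c d
        - T.lam (d1 h a b d * T.D (f b c d)) + T.lam (d1 h a c d * T.D (f a b c))
        - T.lam (h a d * T.D (d2 f a b c d)) := by
  rw [d2_ka, ← T.lam_DD (h a b)]; abel

/-- the error of the gauge formula -/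
def Ge (γ : V → Rˣ) (g : V → V → Rˣ) (a b c d : V) : A :=
  T.lam (↑(γ a)⁻¹ * T.D (γ a) * fc g a b c * (↑(g a c)⁻¹ * fc g a c d * ↑(g a d)⁻¹))
    - T.lam (↑(γ b)⁻¹ * T.D (γ b) * fc g b c d * (↑(g a d)⁻¹ * fc g a b d * ↑(g b d)⁻¹))

theorem cs_gau (γ : V → Rˣ) (g : V → V → Rˣ) (a b c d : V) :
    T.cs (gau γ g) a b c d = T.cs g a b c d
      + T.lam (↑(γ a)⁻¹ * T.D (γ a) * g a b * fc g b c d * ↑(g a d)⁻¹)
      - T.lam (↑(γ b)⁻¹ * T.D (γ b) * fc g b c d * ↑(g a d)⁻¹ * g a b) := by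
  have h1 : T.D (gau γ g a b) * fc (gau γ g) b c d * ↑(gau γ g a d)⁻¹ =
      (T.D (γ a) * g a b * fc g b c d * ↑(g a d)⁻¹) * ↑(γ a)⁻¹ +
      γ a * ((T.D (g a b) * fc g b c d * ↑(g a d)⁻¹) * ↑(γ a)⁻¹) -
      (γ a * g a b) * ((↑(γ b)⁻¹ * T.D (γ b) * fc g b c d * ↑(g a d)⁻¹) * ↑(γ a)⁻¹) := by
    rw [fc_gau]
    simp only [gau, Units.val_mul, mul_inv_rev, inv_inv, T.D_mul, T.D_inv, add_mul, mul_neg, neg_mul,
      mul_assoc, Units.inv_mul_cancel_left, sub_eq_add_neg, mul_add, add_assoc]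
  rw [cs, h1, map_sub, map_add, T.lam_comm _ ↑(γ a)⁻¹, T.lam_comm (γ a), T.lam_comm (γ a * g a b),
    Units.inv_mul_cancel_right, cs]
  simp only [mul_assoc, Units.inv_mul_cancel_left]
  abel

/-- (G) -/
theorem gauge (γ : V → Rˣ) (g : V → V → Rˣ) (a b c d : V) :
    T.cs (gau γ g) a b c d - T.cs g a b c d + d2 (T.th γ g) a b c d = T.Ge γ g a b c d := by
  rw [cs_gau, ← sub_eq_zero]
  have hb := bianchi g a b c d
  have h1 : fc g a b d = fc g a c d + fc g a b c * g c d - g a b * fc g b c d := by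
    rw [← sub_eq_zero, ← hb]; abel
  simp only [d2, th, Ge, cs, inv_fc, inv_fc', ← map_sub T.lam, ← map_add T.lam]
  conv_lhs => rw [← sub_zero (T.lam _), ← T.lam_cyc 0 0 (y := ↑(γ a)⁻¹ * T.D (γ a) *
    (fc g a b d - (fc g a c d + fc g a b c * g c d - g a b * fc g b c d)) * ↑(g a d)⁻¹)
    (by rw [← h1]; simp), ← map_sub]
  refine T.lam_cyc 0 0 ?_
  noncomm_ring

end TD

end Crest.Agent.N255.Cs
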