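import Crest.Agent.N255.Cs.Cap0

/-!
# Row 255 (helper31): torus capping on chains
-/

set_option autoImplicit false
open Finset

noncomputable section

namespace Crest.Agent.N255.Cs

open Tw Tp

variable {X : Type} [TopologicalSpace X] {K : Type} [CommRing K]

theorem z_add {P : Sb X} {α : Co ℤ 1 X} (h : α ∈ P.Z ℤ ℤ 1) {σ : Sx 2 X} (hσ : σ ∈ P.S 2) :
    α (e2 σ 0 2) = α (e2 σ 0 1) + α (e2 σ 1 2) := by
  have := h σ hσ
  rw [cob_d1, d1] at this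
  linarith

theorem ev_d1 {A : Type} [AddCommGroup A] [Module K A] (ψ : Co A 1 X) {t : Ch K 2 X}
    (h : bd K t = 0) : ev K (fun σ => ψ (e2 σ 1 2) - ψ (e2 σ 0 2) + ψ (e2 σ 0 1)) t = 0 := by
  have := ev_bd ψ t
  rw [h, map_zero] at this
  rw [this]
  exact congrArg (fun φ => ev K φ t) (funext fun σ => (cob_d1 K ψ σ).symm)

/-- the pairing of two integral cochains on a two-chain -/
def pz (α β : Co ℤ 1 X) : Ch K 2 X →ₗ[K] K :=
  ev K fun σ => ((α (e2 σ 0 1) * β (e2 σ 1 2) : ℤ) : K)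

theorem ev_pz {A : Type} [AddCommGroup A] [Module K A] (α β : Co ℤ 1 X) (t : Ch K 2 X) (x : A) :
    ev K (fun σ => (α (e2 σ 0 1) * β (e2 σ 1 2)) • x) t = pz α β t • x := by
  rw [pz, show ev K _ t • x = _ from map_ev (LinearMap.toSpanSingleton K A x) _ t]
  simp only [LinearMap.toSpanSingleton_apply, Int.cast_smul_eq_zsmul]

/-- a two-cycle with two integral cocycles -/
structure To (K X : Type) [CommRing K] [TopologicalSpace X] where
  P : Sb X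
  t : Ch K 2 X
  al : Co ℤ 1 X
  be : Co ℤ 1 X
  ht : t ∈ P.ch K 2
  cy : bd K t = 0
  ha : al ∈ P.Z ℤ ℤ 1
  hb : be ∈ P.Z ℤ ℤ 1

variable {p : ℕ} [hpp : Fact p.Prime] {O : Type} [CommRing O] [Algebra K O]
  {G : Gr (Gm p) K O} {m I J H Na Nb E : Ideal O}

theorem U_mono (hI : G.Id I) (hJ : G.Id J) (h : I ≤ J) {a : (Tw G)ˣ} (ha : a ∈ U hI) : a ∈ U hJ :=
  h ha

theorem U_sub (hI : G.Id I) {a b : (Tw G)ˣ} (ha : a ∈ U hI) (hb : b ∈ U hI) :
    In I ((a : Tw G) - (b : Tw G)) := by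
  simpa only [sub_sub_sub_cancel_right] using In.sub ha hb

theorem zpow_lin' (hm : G.Id m) (hI : G.Id I) {a' a : (Tw G)ˣ} (h : In I ((a' : Tw G) - (a : Tw G)))
    (ha : a ∈ U hm) (ha' : a' ∈ U hm) (n : ℤ) : In (m * I) (((a' ^ n : (Tw G)ˣ) : Tw G) -
      ((a ^ n : (Tw G)ˣ) : Tw G) - n • ((a' : Tw G) - (a : Tw G))) := by
  refine In.mono (zpow_lin (hI.inf hm) hm ⟨h, U_sub hm ha' ha⟩ ha n) ?_
  rw [mul_comm]
  exact Ideal.mul_mono (sup_le le_rfl inf_le_right) inf_le_left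

theorem zinv_sub (hH : G.Id H) {b l : (Tw G)ˣ} (h : In H ((b : Tw G) - (l : Tw G))) (n : ℤ) :
    In H ((((b ^ n)⁻¹ : (Tw G)ˣ) : Tw G) - (((l ^ n)⁻¹ : (Tw G)ˣ) : Tw G)) := by
  simpa only [zpow_neg] using zpow_sub hH h (-n)

theorem mul_sub_in (hH : G.Id H) {x x' y y' : Tw G} (h : In H (x' - x)) (h' : In H (y' - y)) :
    In H (x' * y' - x * y) :=
  In.eq (In.add (mem_right hH y' h) (mem_left hH x h')) (by noncomm_ring)

namespace To

variable (T : To K X)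

/-- the intersection number -/
def s : K := pz T.al T.be T.t

theorem ba : pz T.be T.al T.t = -T.s := by
  rw [eq_neg_iff_add_eq_zero, s, pz, pz, ← ev_add, ← neg_eq_zero, ← ev_neg,
    ← ev_d1 (fun e => ((T.al e * T.be e : ℤ) : K)) T.cy]
  refine T.P.ev_congr (fun σ hσ => ?_) T.ht
  simp only [Pi.sub_apply, Pi.neg_apply, Pi.add_apply, z_add T.ha hσ, z_add T.hb hσ]
  push_cast
  ring

/-- the boundary connection -/
def g {R : Type} [Ring R] (a b : Rˣ) : Sx 1 X → Rˣ := fun e => a ^ T.al e * b ^ T.be e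

/-- the cap -/
def cap (a : (Tw G)ˣ) (w : Tw G) : O :=
  ev K (fun σ => lam G (D G (a ^ T.al (e2 σ 0 1) : (Tw G)ˣ) *
    ((a ^ T.al (e2 σ 1 2) : (Tw G)ˣ) * T.be (e2 σ 1 2) • w) *
      ((a ^ T.al (e2 σ 0 2))⁻¹ : (Tw G)ˣ))) T.t

/-- first part of the boundary action -/
def C0 (a b : (Tw G)ˣ) : O :=
  ev K (fun σ => lam G (D G (b ^ T.be (e2 σ 0 1) : (Tw G)ˣ) *
    (((a ^ T.al (e2 σ 1 2) : (Tw G)ˣ) : Tw G) - 1) * ((b ^ T.be (e2 σ 1 2) : (Tw G)ˣ) *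
      ((b ^ T.be (e2 σ 0 2))⁻¹ : (Tw G)ˣ)))) T.t

/-- the boundary action -/
def CC (a b : (Tw G)ˣ) : O := T.C0 a b - T.cap a ((b : Tw G) - 1)

theorem g_CU (hm : G.Id m) {a b : (Tw G)ˣ} (ha : a ∈ U hm) (hb : b ∈ U hm) (P : Sb X) :
    CU P hm (T.g a b) := fun _ _ => mul_mem (zpow_mem ha _) (zpow_mem hb _)

theorem g_dif (hH : G.Id H) {a b a' b' : (Tw G)ˣ} (h : In H ((a' : Tw G) - (a : Tw G)))
    (h' : In H ((b' : Tw G) - (b : Tw G))) (P : Sb X) : CI P H (dif (T.g a' b') (T.g a b)) :=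
  fun _ _ => mul_sub_in hH (zpow_sub hH h _) (zpow_sub hH h' _)

theorem cap_sub (a : (Tw G)ˣ) (w w' : Tw G) : T.cap a (w - w') = T.cap a w - T.cap a w' := by
  simp only [cap, smul_sub, mul_sub, sub_mul, map_sub]
  exact ev_sub _ _ _

theorem cap_zero (a : (Tw G)ˣ) : T.cap a 0 = 0 := by simpa using T.cap_sub a 0 0

theorem cap_one (w : Tw G) : T.cap 1 w = 0 := by
  simp only [cap, one_zpow, Units.val_one, D_one, zero_mul, map_zero]
  exact ev_zero _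

theorem C0_one (a : (Tw G)ˣ) : T.C0 a 1 = 0 := by
  simp only [C0, one_zpow, Units.val_one, D_one, zero_mul, map_zero]
  exact ev_zero _

theorem one_C0 (a : (Tw G)ˣ) : T.C0 1 a = 0 := by
  simp only [C0, one_zpow, Units.val_one, sub_self, mul_zero, zero_mul, map_zero]
  exact ev_zero _

theorem CC_one (a : (Tw G)ˣ) : T.CC a 1 = 0 := by simp [CC, C0_one, cap_zero]

theorem one_CC (a : (Tw G)ˣ) : T.CC 1 a = 0 := by simp [CC, one_C0, cap_one]

theorem ev_hg {n : ℕ} (φ : Co (Tw G) n X) (c : Ch K n X) :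
    G.Hg (g0 p) (ev K (fun σ => lam G (φ σ)) c) := map_ev (lam G) φ c ▸ lam_hg _

theorem cap_hg (a : (Tw G)ˣ) (w : Tw G) : G.Hg (g0 p) (T.cap a w) := ev_hg _ _

theorem CC_hg (a b : (Tw G)ˣ) : G.Hg (g0 p) (T.CC a b) := (ev_hg _ _).sub (T.cap_hg _ _)

theorem cap_mem (hI : G.Id I) (hH : G.Id H) {a : (Tw G)ˣ} (ha : a ∈ U hI) {w : Tw G}
    (hw : In H w) : T.cap a w ∈ I * H :=
  ev_ideal (fun _ _ => lam2 hI hH (D_mem_U hI (zpow_mem ha _)) (mem_left hH _ (hw.zsmul _)) _) T.ht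

section map

variable {O' : Type} [CommRing O'] [Algebra K O'] {G' : Gr (Gm p) K O'} {φ : O →ₐ[K] O'}

theorem g_mp (h : G.Hom G' φ) (a b : (Tw G)ˣ) : mp h (T.g a b) = T.g (um h a) (um h b) := by
  funext e; simp only [mp, g, map_mul, map_zpow]

theorem cap_mp (h : G.Hom G' φ) (a : (Tw G)ˣ) (w : Tw G) :
    T.cap (um h a) (Tw.map h w) = φ (T.cap a w) := by
  rw [cap, cap, show φ (ev K _ T.t) = _ from map_ev φ.toLinearMap _ _]
  simp only [← map_zpow, ← map_inv, val_um, ← map_D, ← map_zsmul, ← map_mul, lam_map,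
    AlgHom.toLinearMap_apply]

theorem C0_mp (h : G.Hom G' φ) (a b : (Tw G)ˣ) : T.C0 (um h a) (um h b) = φ (T.C0 a b) := by
  have e : ∀ x : Tw G, Tw.map h x - 1 = Tw.map h (x - 1) := fun x => by rw [map_sub, map_one]
  rw [C0, C0, show φ (ev K _ T.t) = _ from map_ev φ.toLinearMap _ _]
  simp only [← map_zpow, ← map_inv, val_um, ← map_D, e, ← map_mul, lam_map,
    AlgHom.toLinearMap_apply]

theorem CC_mp (h : G.Hom G' φ) (a b : (Tw G)ˣ) : T.CC (um h a) (um h b) = φ (T.CC a b) := by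
  rw [CC, CC, map_sub, ← T.cap_mp h, C0_mp, map_sub, map_one, val_um]

end map

/-- second difference of the cap -/
theorem cap_two (hm : G.Id m) (hI : G.Id I) (hH : G.Id H) {a a' : (Tw G)ˣ} (ha : a ∈ U hm)
    (ha' : a' ∈ U hm) (h : In I ((a' : Tw G) - (a : Tw G))) {w : Tw G} (hw : In H w) :
    T.cap a' w - T.cap a w - T.s • lam G (D G ((a' : Tw G) - (a : Tw G)) * w) ∈ m * I * H := by
  rw [s, ← ev_pz, cap, cap, ← ev_sub, ← ev_sub]
  refine ev_ideal (fun σ _ => ?_) T.ht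
  have := cap_pt hm hI hH (zpow_mem ha (T.al (e2 σ 0 1))) (zpow_mem ha' (T.al (e2 σ 1 2)))
    (inv_mem (zpow_mem ha' (T.al (e2 σ 0 2)))) (zpow_sub hI h _) (zpow_sub hI h _) (zinv_sub hI h _)
    (zpow_lin' hm hI h ha ha' _) (hw.zsmul (T.be (e2 σ 1 2)))
  rwa [map_zsmul, smul_mul_smul_comm, map_zsmul] at this

/-- second difference of the boundary action -/
theorem CC_two (hm : G.Id m) (hI : G.Id I) (hH : G.Id H) [Fact ((p : O) = 0)] {a a' b b' : (Tw G)ˣ}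
    (ha : a ∈ U hm) (ha' : a' ∈ U hm) (hb : b ∈ U hm) (hb' : b' ∈ U hm)
    (h : In I ((a' : Tw G) - (a : Tw G))) (h' : In H ((b' : Tw G) - (b : Tw G))) :
    T.CC a' b' - T.CC a b' - T.CC a' b + T.CC a b +
      T.s • lam G (((a' : Tw G) - (a : Tw G)) * ((b' : Tw G) - (b : Tw G))) ∈ m * I * H := by
  have e1 : T.C0 a' b' - T.C0 a b' - (T.C0 a' b - T.C0 a b) -
      (-T.s) • lam G (D G ((b' : Tw G) - (b : Tw G)) * ((a' : Tw G) - (a : Tw G))) ∈ m * I * H := by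
    rw [← ba, ← ev_pz]
    simp only [C0, ← ev_sub]
    refine ev_ideal (fun σ _ => ?_) T.ht
    have := c0_pt hm hI hH (zpow_mem hb (T.be (e2 σ 0 1)))
      (mul_mem (zpow_mem hb' (T.be (e2 σ 1 2))) (inv_mem (zpow_mem hb' (T.be (e2 σ 0 2)))))
      (zpow_sub hH h' _) (mul_sub_in hH (zpow_sub hH h' (T.be (e2 σ 1 2))) (zinv_sub hH h' _))
      (zpow_lin' hm hH h' hb hb' _) (zpow_sub hI h (T.al (e2 σ 1 2))) (zpow_lin' hm hI h ha ha' _)
      (h'.zsmul _)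
    rw [map_zsmul, smul_mul_smul_comm, map_zsmul] at this
    convert this using 2
    simp only [Pi.sub_apply, ← map_sub (lam G), Units.val_mul]
    congr 2; noncomm_ring
  have e2 := T.cap_two hm hI hH ha ha' h h'
  have e3 := (td G).lam_DD ((a' : Tw G) - (a : Tw G)) ((b' : Tw G) - (b : Tw G))
  simp only [td_D, td_lam] at e3
  rw [lam_comm] at e1
  convert sub_mem e1 e2 using 1
  simp only [← e3, CC, smul_add, neg_smul, cap_sub]
  abel

variable [Fact ((p : O) = 0)]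

theorem ev_psi (hm : G.Id m) (hH : G.Id H) {b' b : (Tw G)ˣ} (hb : b ∈ U hm)
    (h : In H ((b' : Tw G) - (b : Tw G))) (β : Co ℤ 1 X) (hβ : β ∈ T.P.Z ℤ ℤ 1) :
    ev K (fun σ => lam G (D G (b ^ β (e2 σ 0 1) : (Tw G)ˣ) * (((b' ^ β (e2 σ 1 2) : (Tw G)ˣ) : Tw G) -
      ((b ^ β (e2 σ 1 2) : (Tw G)ˣ) : Tw G)) * ((b ^ β (e2 σ 0 2))⁻¹ : (Tw G)ˣ))) T.t ∈
      m * (H * H) := by
  obtain ⟨ψ, hψ⟩ := psi_cob hm hH hb h
  rw [← sub_zero (ev K _ _), ← ev_d1 (fun e => ψ (β e)) T.cy, ← ev_sub]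
  refine ev_ideal (fun σ hσ => ?_) T.ht
  simp only [Pi.sub_apply, z_add hβ hσ]
  exact hψ _ _

/-- the master formula for the boundary term -/
theorem BE_g (hm : G.Id m) (hNa : G.Id Na) (hNb : G.Id Nb) (hH : G.Id H) (am : Na ≤ m) (bm : Nb ≤ m)
    {a a' b b' : (Tw G)ˣ} (ha : a ∈ U hNa) (hb : b ∈ U hNb) (h : In H ((a' : Tw G) - (a : Tw G)))
    (h' : In H ((b' : Tw G) - (b : Tw G))) :
    ev K (BE (T.g a b) (dif (T.g a' b') (T.g a b))) T.t -
      (T.cap a ((b' : Tw G) - (b : Tw G)) + (T.C0 a' b - T.C0 a b)) ∈ Na * Nb * H ⊔ m * (H * H) := by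
  refine (Submodule.sub_mem_iff_left _ (Ideal.mem_sup_right (add_mem
    (T.ev_psi hm hH (U_mono hNa hm am ha) h _ T.ha) (T.ev_psi hm hH (U_mono hNb hm bm hb) h' _ T.hb)))).1 ?_
  simp only [cap, C0, ← ev_sub, ← ev_add]
  refine ev_ideal (fun σ _ => ?_) T.ht
  have := be_pt hm hNa hNb hH am bm (zpow_mem ha (T.al (e2 σ 0 1))) (zpow_mem ha (T.al (e2 σ 1 2)))
    (inv_mem (zpow_mem ha (T.al (e2 σ 0 2)))) (zpow_mem hb (T.be (e2 σ 0 1)))
    (zpow_mem hb (T.be (e2 σ 1 2))) (inv_mem (zpow_mem hb (T.be (e2 σ 0 2)))) (zpow_sub hH h _)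
    (zpow_sub hH h' _) (zpow_lin hH hNb h' hb _)
  convert this using 1
  simp only [Pi.sub_apply, Pi.add_apply, BE, TD.be, td_D, td_lam, gs, dif, g, Units.val_mul,
    mul_inv_rev, mul_sub, sub_mul, map_sub]
  abel

end To

end Crest.Agent.N255.Cs

end
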