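import Crest.Agent.N255.Cs.Sing

/-!
# Row 255 (helper31): torus capping, pointwise expansions
-/

set_option autoImplicit false
open Finset

noncomputable section

namespace Crest.Agent.N255.Cs

open Tw

/-- a normalised two-cocycle on `ℤ` is a coboundary -/
theorem int_cocycle {A : Type*} [AddCommGroup A] (S : AddSubgroup A) (Φ : ℤ → ℤ → A)
    (h0 : ∀ x, Φ x 0 = 0)
    (h : ∀ x y, Φ y 1 - Φ (x + y) 1 + Φ x (y + 1) - Φ x y ∈ S) :
    ∃ ψ : ℤ → A, ∀ x y, Φ x y - (ψ y - ψ (x + y) + ψ x) ∈ S := by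
  obtain ⟨ψ, z, hs⟩ : ∃ ψ : ℤ → A, ψ 0 = 0 ∧ ∀ n, ψ (n + 1) = ψ n - Φ n 1 := by
    refine ⟨fun n => ∑ k ∈ range (-n).toNat, Φ (-(k + 1 : ℕ)) 1 - ∑ k ∈ range n.toNat, Φ k 1,
      by simp, fun n => ?_⟩
    rcases le_or_gt 0 n with hn | hn
    · obtain ⟨k, rfl⟩ := Int.eq_ofNat_of_zero_le hn
      have e1 : (-((k : ℤ) + 1)).toNat = 0 := by omega
      have e2 : (-(k : ℤ)).toNat = 0 := by omega
      have e3 : ((k : ℤ) + 1).toNat = k + 1 := by omega
      simp only [e1, e2, e3, Int.toNat_natCast, sum_range_succ]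
      abel
    · obtain ⟨k, rfl⟩ : ∃ k : ℕ, n = -(k + 1 : ℕ) := ⟨(-n - 1).toNat, by omega⟩
      have e1 : (-(-((k + 1 : ℕ) : ℤ) + 1)).toNat = k := by omega
      have e2 : (-(-((k + 1 : ℕ) : ℤ))).toNat = k + 1 := by omega
      have e3 : (-((k + 1 : ℕ) : ℤ) + 1).toNat = 0 := by omega
      have e4 : (-((k + 1 : ℕ) : ℤ)).toNat = 0 := by omega
      simp only [e1, e2, e3, e4, sum_range_succ]
      abel
  refine ⟨ψ, fun x y => ?_⟩
  have step : ∀ y, Φ x (y + 1) - (ψ (y + 1) - ψ (x + (y + 1)) + ψ x) -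
      (Φ x y - (ψ y - ψ (x + y) + ψ x)) ∈ S := fun y => by
    convert h x y using 1
    rw [← add_assoc x, hs, hs]; abel
  induction y using Int.induction_on with
  | zero => simp [h0, z]
  | succ n ih => simpa using add_mem (step n) ih
  | pred n ih =>
    have := step (-(n : ℤ) - 1)
    rw [sub_add_cancel] at this
    simpa using sub_mem ih this

variable {p : ℕ} [hpp : Fact p.Prime] {K O : Type} [CommRing K] [CommRing O] [Algebra K O]
  {G : Gr (Gm p) K O} {m I J H Na Nb E : Ideal O}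

theorem In.zsmul {x : Tw G} (hx : In I x) (n : ℤ) : In I (n • x) := by
  rw [In, map_zsmul]; exact zsmul_mem hx n

theorem In.eq {x y : Tw G} (hx : In I x) (h : y = x) : In I y := h ▸ hx

theorem in_zero : In I (0 : Tw G) := by rw [In, map_zero]; exact zero_mem _

theorem in2 (hI : G.Id I) (hJ : G.Id J) (h : I * J ≤ E) {x y : Tw G} (hx : In I x) (hy : In J y)
    (u0 u1 u2 : Tw G) : In E (u0 * x * u1 * y * u2) :=
  h (mem_right (hI.mul hJ) _ (o_mul_mem hI hJ (in_conj hI hx _ _) hy))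

theorem in3 (hI : G.Id I) (hJ : G.Id J) (hH : G.Id H) (h : I * J * H ≤ E) {x y z : Tw G}
    (hx : In I x) (hy : In J y) (hz : In H z) (u1 u2 u3 : Tw G) :
    In E (x * u1 * y * u2 * z * u3) :=
  h (mem_right ((hI.mul hJ).mul hH) _ (o_mul_mem (hI.mul hJ) hH
    (mem_right (hI.mul hJ) _ (o_mul_mem hI hJ (mem_right hI _ hx) hy)) hz))

theorem D_mem' (hI : G.Id I) {x : Tw G} (hx : In I (x - 1)) : In I (D G x) := by
  have := D_mem hI hx
  rwa [map_sub, D_one, sub_zero] at this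

theorem zpow_sub (hH : G.Id H) {b l : (Tw G)ˣ} (h : In H ((b : Tw G) - (l : Tw G))) (n : ℤ) :
    In H (((b ^ n : (Tw G)ˣ) : Tw G) - ((l ^ n : (Tw G)ˣ) : Tw G)) := by
  induction n using Int.induction_on with
  | zero => simpa using in_zero
  | succ n ih =>
    rw [zpow_add_one, zpow_add_one, Units.val_mul, Units.val_mul]
    convert In.add (mem_right hH (b : Tw G) ih) (mem_left hH (l ^ (n : ℤ) : (Tw G)ˣ) h) using 1
    noncomm_ring
  | pred n ih =>
    rw [zpow_sub_one, zpow_sub_one, Units.val_mul, Units.val_mul]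
    convert In.sub (mem_right hH (b⁻¹ : (Tw G)ˣ) ih) (mem_left hH (l ^ (-n : ℤ) : (Tw G)ˣ)
      (in_conj hH h (l⁻¹ : (Tw G)ˣ) (b⁻¹ : (Tw G)ˣ))) using 1
    rw [mul_sub (↑l⁻¹ : Tw G), sub_mul (↑l⁻¹ * ↑b : Tw G), Units.inv_mul, one_mul,
      Units.mul_inv_cancel_right]
    noncomm_ring

theorem zpow_lin (hH : G.Id H) (hJ : G.Id J) {b l : (Tw G)ˣ} (h : In H ((b : Tw G) - (l : Tw G)))
    (hl : l ∈ U hJ) (n : ℤ) :
    In (H * (J ⊔ H)) (((b ^ n : (Tw G)ˣ) : Tw G) - ((l ^ n : (Tw G)ˣ) : Tw G) - n • ((b : Tw G) - (l : Tw G))) := by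
  have hb : In (J ⊔ H) ((b : Tw G) - 1) := by
    rw [← sub_add_sub_cancel (b : Tw G) l 1]
    exact In.add (In.mono h le_sup_right) (In.mono hl le_sup_left)
  have step : ∀ n : ℤ, In (H * (J ⊔ H)) ((((b ^ (n + 1) : (Tw G)ˣ) : Tw G) - ((l ^ (n + 1) : (Tw G)ˣ) : Tw G)
      - (n + 1) • ((b : Tw G) - (l : Tw G))) - (((b ^ n : (Tw G)ˣ) : Tw G) - ((l ^ n : (Tw G)ˣ) : Tw G) -
        n • ((b : Tw G) - (l : Tw G)))) := fun n => by
    have h1 := o_mul_mem hH (hJ.sup hH) (zpow_sub hH h n) hb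
    have h2 := o_mul_mem (hJ.sup hH) hH (In.mono (zpow_mem hl n) le_sup_left) h
    rw [mul_comm (J ⊔ H)] at h2
    convert In.add h1 h2 using 1
    rw [zpow_add_one, zpow_add_one, Units.val_mul, Units.val_mul, add_smul, one_smul]
    noncomm_ring
  induction n using Int.induction_on with
  | zero => simpa using in_zero
  | succ n ih => simpa only [sub_add_cancel] using In.add (step n) ih
  | pred n ih =>
    have := step (-(n : ℤ) - 1)
    rw [sub_add_cancel] at this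
    simpa only [sub_sub_cancel] using In.sub ih this

variable [Fact ((p : O) = 0)]

theorem D_mul' (x y : Tw G) : D G (x * y) = D G x * y + x * D G y := D_mul Fact.out x y

/-- the master expansion -/
theorem be_pt (hm : G.Id m) (ha : G.Id Na) (hb : G.Id Nb) (hH : G.Id H) (am : Na ≤ m) (bm : Nb ≤ m)
    {A0 A1 A1' A2 B0 B1 B1' B2 d : Tw G} (a0 : In Na (A0 - 1)) (a1 : In Na (A1 - 1))
    (a2 : In Na (A2 - 1)) (b0 : In Nb (B0 - 1)) (b1 : In Nb (B1 - 1)) (b2 : In Nb (B2 - 1))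
    (hu : In H (A1' - A1)) (hv : In H (B1' - B1)) (hd : In (H * (Nb ⊔ H)) (B1' - B1 - d)) :
    lam G (D G (A0 * B0) * (A1' * B1' - A1 * B1) * (B2 * A2))
      - (lam G (D G A0 * (A1 * d) * A2) + lam G (D G B0 * (A1' - A1) * (B1 * B2))
        + lam G (D G A0 * (A1' - A1) * A2) + lam G (D G B0 * (B1' - B1) * B2)) ∈
      Na * Nb * H ⊔ m * (H * H) := by
  have hE := ((ha.mul hb).mul hH).sup (hm.mul (hH.mul hH))
  have p' := D_mem' ha a0
  have q' := D_mem' hb b0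
  have b12 : In Nb (B1 * B2 - 1) := by
    convert In.add (mem_right hb B2 b1) b2 using 1; noncomm_ring
  have pq : In m (D G A0 * B0 + A0 * D G B0) :=
    In.add (mem_right hm _ (am p')) (mem_left hm _ (bm q'))
  have l1 : Na * Nb * H ≤ Na * Nb * H ⊔ m * (H * H) := le_sup_left
  have l2 : Na * H * Nb ≤ Na * Nb * H ⊔ m * (H * H) := by rwa [mul_right_comm]
  have l3 : Nb * H * Na ≤ Na * Nb * H ⊔ m * (H * H) := by rwa [mul_right_comm, mul_comm Nb]
  have l4 : Nb * Na * H ≤ Na * Nb * H ⊔ m * (H * H) := by rwa [mul_comm Nb]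
  have l5 : m * H * H ≤ Na * Nb * H ⊔ m * (H * H) := by rw [mul_assoc]; exact le_sup_right
  have l6 : Na * (H * (Nb ⊔ H)) ≤ Na * Nb * H ⊔ m * (H * H) := by
    rw [Ideal.mul_sup, Ideal.mul_sup, ← mul_assoc]
    exact sup_le l2 (le_sup_of_le_right (Ideal.mul_mono_left am))
  simp only [← map_add, ← map_sub]
  refine lam_mem hE ?_
  have e1 := in3 hm hH hH l5 pq hu hv 1 1 (B2 * A2)
  have e2 := In.add (in3 ha hb hH l1 p' b0 hu 1 1 (B1 * B2 * A2)) (in3 ha hH hb l2 p' hu b12 1 1 A2)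
  have e3 := In.add (in3 ha hb hH l1 a0 q' hu 1 1 (B1 * B2 * A2))
    (in3 hb hH ha l3 q' hu a2 1 (B1 * B2) 1)
  have e4 := In.add (In.add (in3 ha hb hH l1 p' b0 hv 1 A1 (B2 * A2))
    (in3 ha hH hb l2 p' hv b2 A1 1 A2)) (in2 ha (hH.mul (hb.sup hH)) l6 p' hd 1 A1 A2)
  have e5 := In.add (In.add (in3 ha hb hH l1 a0 q' hv 1 A1 (B2 * A2))
    (in3 hb ha hH l4 q' a1 hv 1 1 (B2 * A2))) (in3 hb hH ha l3 q' hv a2 1 B2 1)
  refine In.eq (In.add (In.add (In.add (In.add e1 e2) e3) e4) e5) ?_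
  rw [D_mul']
  noncomm_ring

omit [Fact ((p : O) = 0)] in
/-- second difference of the first part of the boundary action -/
theorem c0_pt (hm : G.Id m) (hI : G.Id I) (hH : G.Id H) {B0 B0' B1 B1' u x y : Tw G}
    (b0 : In m (B0 - 1)) (b1 : In m (B1' - 1)) (h0 : In H (B0' - B0)) (h1 : In H (B1' - B1))
    (hy : In (m * H) (B0' - B0 - y)) (hu : In I u) (hx : In (m * I) (u - x)) (hy' : In H y) :
    lam G (D G B0' * u * B1') - lam G (D G B0 * u * B1) - lam G (D G y * x) ∈ m * I * H := by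
  have l1 : H * I * m ≤ m * I * H := le_of_eq (by ac_rfl)
  have l2 : m * H * I ≤ m * I * H := le_of_eq (by ac_rfl)
  have l3 : H * (m * I) ≤ m * I * H := le_of_eq (by ac_rfl)
  simp only [← map_sub (lam G)]
  refine lam_mem ((hm.mul hI).mul hH) ?_
  have e1 := in3 hH hI hm l1 (D_mem hH h0) hu b1 1 1 1
  have e2 := in3 hm hI hH le_rfl (D_mem' hm b0) hu h1 1 1 1
  have e3 := in2 (hm.mul hH) hI l2 (D_mem (hm.mul hH) hy) hu 1 1 1
  have e4 := in2 hH (hm.mul hI) l3 (D_mem hH hy') hx 1 1 1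
  refine In.eq (In.add (In.add (In.add e1 e2) e3) e4) ?_
  simp only [map_sub]
  noncomm_ring

omit [Fact ((p : O) = 0)] in
/-- second difference of the cap -/
theorem cap_pt (hm : G.Id m) (hI : G.Id I) (hH : G.Id H) {A0 A0' A1 A1' A2 A2' w x : Tw G}
    (a0 : In m (A0 - 1)) (a1 : In m (A1' - 1)) (a2 : In m (A2' - 1)) (h0 : In I (A0' - A0))
    (h1 : In I (A1' - A1)) (h2 : In I (A2' - A2)) (hx : In (m * I) (A0' - A0 - x)) (hw : In H w) :
    lam G (D G A0' * (A1' * w) * A2') - lam G (D G A0 * (A1 * w) * A2) - lam G (D G x * w) ∈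
      m * I * H := by
  have l1 : I * m * H ≤ m * I * H := le_of_eq (by ac_rfl)
  have l2 : I * H * m ≤ m * I * H := le_of_eq (by ac_rfl)
  have l3 : m * H * I ≤ m * I * H := le_of_eq (by ac_rfl)
  simp only [← map_sub (lam G)]
  refine lam_mem ((hm.mul hI).mul hH) ?_
  have e1 := in3 hI hm hH l1 (D_mem hI h0) a1 hw 1 1 A2'
  have e2 := in3 hI hH hm l2 (D_mem hI h0) hw a2 1 1 1
  have e3 := in2 (hm.mul hI) hH le_rfl (D_mem (hm.mul hI) hx) hw 1 1 1
  have e4 := in3 hm hI hH le_rfl (D_mem' hm a0) h1 hw 1 1 A2'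
  have e5 := in3 hm hH hI l3 (D_mem' hm a0) hw h2 A1 1 1
  refine In.eq (In.add (In.add (In.add (In.add e1 e2) e3) e4) e5) ?_
  simp only [map_sub]
  noncomm_ring

/-- the boundary form of a flat abelian family -/
def psi (b' b : (Tw G)ˣ) (x y : ℤ) : O :=
  lam G (D G (b ^ x : (Tw G)ˣ) * (((b' ^ y : (Tw G)ˣ) : Tw G) - ((b ^ y : (Tw G)ˣ) : Tw G)) *
    ((b ^ (x + y))⁻¹ : (Tw G)ˣ))

theorem psi_cob (hm : G.Id m) (hH : G.Id H) {b' b : (Tw G)ˣ} (hb : b ∈ U hm)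
    (h : In H ((b' : Tw G) - (b : Tw G))) :
    ∃ ψ : ℤ → O, ∀ x y, psi b' b x y - (ψ y - ψ (x + y) + ψ x) ∈ m * (H * H) := by
  refine int_cocycle (m * (H * H)).toAddSubgroup _ (fun x => by simp [psi])
    fun x y => ?_
  have fl : ∀ (u : (Tw G)ˣ) (a c d : ℤ), fc (fun s t : ℤ => u ^ (t - s)) a c d = 0 := fun u a c d => by
    rw [fc, ← Units.val_mul, ← zpow_add, sub_eq_zero]; congr 2; abel
  have := (td G).var (fun s t : ℤ => b' ^ (t - s)) (fun s t : ℤ => b ^ (t - s)) 0 x (x + y) (x + y + 1)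
  simp only [TD.cs, TD.Ve, fl, mul_zero, zero_mul, map_zero, sub_zero, zero_add, add_zero, d2, TD.be,
    df, td_D, td_lam, add_sub_cancel_left] at this
  have e1 : x + y + 1 - x = y + 1 := by abel
  rw [e1] at this
  simp only [psi, ← add_assoc]
  rw [this]
  exact lam2 hm (hH.mul hH) (D_mem_U hm (zpow_mem hb x))
    (o_mul_mem hH hH (zpow_sub hH h _) (zpow_sub hH h _)) _

end Crest.Agent.N255.Cs

end
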