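import Crest.Agent.N255.Cs.Cap

/-!
# Row 255 (helper31): the capped potential, variation and derivatives
-/

set_option autoImplicit false
open Finset

noncomputable section

namespace Crest.Agent.N255.Cs

open Tw Tp TrivSqZeroExt

variable {X : Type} [TopologicalSpace X] {K : Type} [CommRing K] {p : ℕ} [hpp : Fact p.Prime]
  {O : Type} [CommRing O] [Algebra K O] {G : Gr (Gm p) K O} {m I J H Na Nb E : Ideal O}

theorem in_lin (f : ℤ → Tw G) (c : Tw G) (h0 : f 0 = 0) (h : ∀ n, In I (f (n + 1) - f n - c))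
    (n : ℤ) : In I (f n - n • c) := by
  induction n using Int.induction_on with
  | zero => simpa [h0] using in_zero
  | succ n ih => exact In.eq (In.add (h n) ih) (by rw [add_smul, one_smul]; abel)
  | pred n ih =>
    have := h (-(n : ℤ) - 1)
    rw [sub_add_cancel] at this
    exact In.eq (In.sub ih this) (by rw [sub_smul, one_smul]; abel)

/-- units commuting with `x` modulo `J` -/
def cmS (hJ : G.Id J) (x : Tw G) : Subgroup (Tw G)ˣ where
  carrier := {u | In J (u.val * x - x * u.val)}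
  one_mem' := by simpa using in_zero
  mul_mem' {u v} hu hv := In.eq (In.add (mem_left hJ (u : Tw G) hv) (mem_right hJ (v : Tw G) hu))
    (by rw [Units.val_mul]; noncomm_ring)
  inv_mem' {u} hu := In.eq (In.neg (in_conj hJ hu (u⁻¹ : (Tw G)ˣ) (u⁻¹ : (Tw G)ˣ))) (by
    rw [mul_sub, sub_mul, Units.inv_mul_cancel_left, ← mul_assoc, Units.mul_inv_cancel_right]; abel)

theorem cm_zpow (hJ : G.Id J) {a b : (Tw G)ˣ} (h : In J (a.val * b.val - b.val * a.val)) (i j : ℤ) :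
    In J ((b ^ j).val * (a ^ i).val - (a ^ i).val * (b ^ j).val) :=
  zpow_mem (K := cmS hJ (a ^ i : (Tw G)ˣ)) (x := b)
    (In.eq (In.neg (zpow_mem (K := cmS hJ b) (x := a) h i)) (neg_sub _ _).symm) j

theorem cm_lin (hm : G.Id m) (hJ : G.Id J) {u : (Tw G)ˣ} (hu : u ∈ U hm) {x : Tw G}
    (h : In J (u.val * x - x * u.val)) (n : ℤ) :
    In (m * J) ((u ^ n).val * x - x * (u ^ n).val - n • (u.val * x - x * u.val)) := by
  refine in_lin (fun n => (u ^ n).val * x - x * (u ^ n).val) _ (by simp)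
    (fun n => ?_) n
  have h1 := o_mul_mem hJ hm (zpow_mem (K := cmS hJ x) (x := u) h n) hu
  rw [mul_comm J] at h1
  refine In.eq (In.add (o_mul_mem hm hJ (zpow_mem hu n) h) h1) ?_
  simp only [zpow_add_one, Units.val_mul]
  noncomm_ring

theorem cm_U (hNa : G.Id Na) (hNb : G.Id Nb) {a b : (Tw G)ˣ} (ha : a ∈ U hNa) (hb : b ∈ U hNb) :
    In (Na * Nb) (a.val * b.val - b.val * a.val) := by
  have := o_mul_mem hNb hNa hb ha
  rw [mul_comm Nb] at this
  exact In.eq (In.sub (o_mul_mem hNa hNb ha hb) this) (by noncomm_ring)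

section dual

variable {O' : Type} [CommRing O'] [Algebra K O'] {G' : Gr (Gm p) K O'}

/-- substitution in dual numbers -/
def dmap (φ : O →ₐ[K] O') : TrivSqZeroExt O O →ₐ[K] TrivSqZeroExt O' O' :=
  AlgHom.ofLinearMap (φ.toLinearMap.prodMap φ.toLinearMap)
    (TrivSqZeroExt.ext (map_one φ) (map_zero φ)) fun x y => TrivSqZeroExt.ext (map_mul φ _ _) (by
      change φ (x.fst * y.snd + x.snd * y.fst) = φ x.fst * φ y.snd + φ x.snd * φ y.fst
      rw [map_add, map_mul, map_mul])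

theorem hom_dmap {φ : O →ₐ[K] O'} (h : G.Hom G' φ) (γ : Gm p) :
    (G.dual γ).Hom (G'.dual γ) (dmap φ) := fun _ _ => TrivSqZeroExt.ext (h _ _) (h _ _)

theorem snd_ev {n : ℕ} (φ : Co (TrivSqZeroExt O O) n X) (c : Ch K n X) :
    (ev K φ c).snd = ev K (fun σ => (φ σ).snd) c := map_ev (LinearMap.snd K O O) φ c

variable {γ : Gm p} {δ : Derivation K O O}

theorem um_jet (h : G.Dg γ δ) {u : (Tw G)ˣ} (e : δ (o G u) = 0) :
    um (hom_jet h) u = um (hom_inl G γ) u := Units.ext (TrivSqZeroExt.ext rfl e)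

theorem jet_sub (h : G.Dg γ δ) (u : (Tw G)ˣ) : In (pid ⊥ ⊤ le_top)
    ((um (hom_jet h) u : Tw (G.dual γ)) - (um (hom_inl G γ) u : Tw (G.dual γ))) :=
  ⟨sub_self (o G u), trivial⟩

theorem jet_U (h : G.Dg γ δ) (hm : G.Id m) {u : (Tw G)ˣ} (hu : u ∈ U hm) :
    um (hom_jet h) u ∈ U (id_pid le_top hm G.id_top γ) :=
  um_mem (hom_jet h) hm (id_pid le_top hm G.id_top γ) (fun _ hz => ⟨hz, trivial⟩) hu

theorem inl_U (hm : G.Id m) (hI : G.Id I) (e : m ≤ I) {u : (Tw G)ˣ} (hu : u ∈ U hm) :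
    um (hom_inl G γ) u ∈ U (id_pid e hm hI γ) :=
  um_mem (hom_inl G γ) hm (id_pid e hm hI γ) (fun _ hz => ⟨hz, zero_mem _⟩) hu

/-- the pairing with the derivative of a unit -/
theorem lam_jet (h : G.Dg γ δ) (hm : G.Id m) (hH : G.Id H) {u : (Tw G)ˣ} {c : K}
    (hc : δ (o G u) - algebraMap K O c ∈ m) {w : Tw G} (hw : In H w) :
    (lam (G.dual γ) (((um (hom_jet h) u : Tw (G.dual γ)) - (um (hom_inl G γ) u : Tw (G.dual γ))) *
      Tw.map (hom_inl G γ) w)).snd - sg γ (g0 p - γ) • c • G.pr (g0 p - γ) (o G w) ∈ m * H := by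
  let x : Tw (G.dual γ) := up _ (inr (algebraMap K O c))
  rw [← lam_eps (G := G) (γ := γ) c x rfl w, ← snd_sub, ← map_sub, ← sub_mul]
  have h1 := id_pid bot_le G.id_bot hm γ
  have h2 := id_pid le_rfl hH hH γ
  have h3 : In (pid H H le_rfl) (Tw.map (hom_inl G γ) w) := ⟨hw, zero_mem _⟩
  refine (pid_mul (I'' := ⊥) bot_le (by simp) (by simp) le_rfl (lam_mem (h1.mul h2)
    (o_mul_mem h1 h2 ⟨?_, ?_⟩ h3))).2
  · exact (sub_zero _).trans (sub_self (o G u))
  · change δ (o G u) - 0 - algebraMap K O c ∈ m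
    rwa [sub_zero]

end dual

variable [Fact ((p : O) = 0)] {γ : Gm p} {δ : Derivation K O O} {P : Sb X} {g g' k k' : Cn G X}

theorem BK_congr (h : ∀ σ ∈ P.S 1, g σ = k σ) (h' : ∀ σ ∈ P.S 1, g' σ = k' σ) {c : Ch K 2 X}
    (hc : c ∈ P.ch K 2) : ev K (BK g' g) c = ev K (BK k' k) c :=
  P.ev_congr (fun _ hσ => sub_eq_zero.2 (bk_congr (gs_congr h hσ (by decide))
    (gs_congr h hσ (by decide)) (gs_congr h hσ (by decide)) (gs_congr h' hσ (by decide))
    (gs_congr h' hσ (by decide)))) hc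

theorem BD_congr (hδ : G.Dg γ δ) (h : ∀ σ ∈ P.S 1, g σ = k σ) {c : Ch K 2 X}
    (hc : c ∈ P.ch K 2) : ev K (BD hδ g) c = ev K (BD hδ k) c :=
  P.ev_congr (fun _ hσ => sub_eq_zero.2 (bD_congr hδ (gs_congr h hσ (by decide))
    (gs_congr h hσ (by decide)) (gs_congr h hσ (by decide)))) hc

theorem BD_eq (hδ : G.Dg γ δ) (g : Cn G X) (c : Ch K 2 X) :
    ev K (BD hδ g) c = (ev K (BK (mp (hom_jet hδ) g) (mp (hom_inl G γ) g)) c).snd :=
  (snd_ev _ c).symm

theorem BK_sub_BE (hI : G.Id I) (hH : G.Id H) (f : CI P I (cur g)) (k : CI P H (dif g' g))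
    {c : Ch K 2 X} (hc : c ∈ P.ch K 2) : ev K (BE g (dif g' g)) c - ev K (BK g' g) c ∈ H * I := by
  rw [← ev_sub]
  refine ev_ideal (fun σ hσ => ?_) hc
  have := ka_mem hI hH (f := fc (gs g σ)) (k := df (gs g' σ) (gs g σ)) (f.fc hσ 0 1 2) (k.df hσ 0 2)
  rwa [← sub_sub_cancel ((td G).be (gs g σ) (df (gs g' σ) (gs g σ)) 0 1 2) ((td G).ka _ _ _ _ _)]
    at this

/-- the derivative of the potential, no hypothesis on the direction -/
theorem CS_der0 (hδ : G.Dg γ δ) {hm : G.Id m} (hI : G.Id I) (h : CU P hm g) (f : CI P I (cur g))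
    {c : Ch K 3 X} (hc : c ∈ P.ch K 3) : δ (ev K (CS g) c) + ev K (BD hδ g) (bd K c) ∈ I := by
  have hI' := id_pid le_rfl hI hI γ
  have hH' := id_pid (le_top (a := ⊥)) G.id_bot G.id_top γ
  have f' : CI P (pid I I le_rfl) (cur (mp (hom_inl G γ) g)) :=
    f.mp (hom_inl G γ) fun _ hz => ⟨hz, zero_mem _⟩
  have k' : CI P (pid ⊥ ⊤ le_top) (dif (mp (hom_jet hδ) g) (mp (hom_inl G γ) g)) :=
    fun σ _ => jet_sub hδ (g σ)
  have e := CS_var_q (hm := id_pid le_top hm G.id_top γ) (g := mp (hom_inl G γ) g) hI' hH' hH' (pid_mono _ bot_le le_rfl)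
    (fun σ hσ => inl_U hm G.id_top le_top (h σ hσ)) f' k' (fun σ hσ => by
      rw [cob_d1]
      exact In.add (In.sub (k'.df hσ 1 2) (k'.df hσ 0 2)) (k'.df hσ 0 1)) hc
  have l0 : pid ⊥ ⊤ le_top * (pid I I le_rfl ⊔ pid ⊥ ⊤ le_top) ≤ pid ⊥ I bot_le :=
    (Ideal.mul_mono_right (sup_le (pid_mono (le_top (a := I)) le_rfl le_top)
      (pid_mono _ bot_le le_rfl))).trans (pid_mul _ (by simp) (by simp) (by simp))
  have e2 : ev K (cup (lq (G.dual γ)) 3 (dif (mp (hom_jet hδ) g) (mp (hom_inl G γ) g))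
      (cur (mp (hom_inl G γ) g))) c ∈ pid ⊥ I bot_le := ev_ideal (fun σ hσ => by
    rw [cup12, lq_apply]
    exact l0 (Ideal.mul_mono_right le_sup_left (lam_mem (hH'.mul hI') (o_mul_mem hH' hI'
      (k'.df hσ 0 1) (f' _ (e3_mem P hσ (by decide) (by decide))))))) hc
  have := (add_mem (sup_le (Ideal.mul_le_right.trans l0) l0 e) e2).2
  rwa [sub_add_cancel, CS_mp, CS_mp, snd_add, ← BD_eq, snd_sub, inlAlgHom_apply, snd_inl,
    sub_zero] at this

namespace To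

variable (T : To K X) {a a' b b' : (Tw G)ˣ}

omit [Fact ((p : O) = 0)] in
theorem cur_g (hJ : G.Id J) (h : In J (a.val * b.val - b.val * a.val)) : CI T.P J (cur (T.g a b)) :=
  fun σ hσ => In.eq (in_conj hJ (cm_zpow hJ h (T.al (e2 σ 1 2)) (T.be (e2 σ 0 1)))
    (a ^ T.al (e2 σ 0 1) : (Tw G)ˣ) (b ^ T.be (e2 σ 1 2) : (Tw G)ˣ)) (by
      simp only [cur, fc, gs, g, z_add T.ha hσ, z_add T.hb hσ, zpow_add, Units.val_mul]
      noncomm_ring)

omit [Fact ((p : O) = 0)] in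
/-- the curvature on the torus is the commutator -/
theorem ev_cur_g (hm : G.Id m) (hJ : G.Id J) (ha : a ∈ U hm) (hb : b ∈ U hm)
    (h : In J (a.val * b.val - b.val * a.val)) :
    In (m * J) (ev K (cur (T.g a b)) T.t - T.s • (a.val * b.val - b.val * a.val)) := by
  rw [← neg_sub (b.val * a.val), smul_neg, ← neg_smul, ← ba, ← ev_pz, ← ev_sub]
  refine CI.ev (fun σ hσ => ?_) T.ht
  have h0 := cm_zpow hJ h (T.al (e2 σ 1 2)) (T.be (e2 σ 0 1))
  have h1 := o_mul_mem hJ hm h0 (zpow_mem hb (T.be (e2 σ 1 2)))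
  rw [mul_comm J] at h1
  have h2 := cm_lin hm hJ hb (x := (a ^ T.al (e2 σ 1 2) : (Tw G)ˣ))
    (by simpa using cm_zpow hJ h (T.al (e2 σ 1 2)) 1) (T.be (e2 σ 0 1))
  refine In.eq (In.sub (In.add (In.add (mem_right (hm.mul hJ) (b ^ T.be (e2 σ 1 2) : (Tw G)ˣ)
    (o_mul_mem hm hJ (zpow_mem ha (T.al (e2 σ 0 1))) h0)) h1) h2)
    ((cm_lin hm hJ ha h (T.al (e2 σ 1 2))).zsmul (T.be (e2 σ 0 1)))) ?_
  simp only [Pi.sub_apply, cur, fc, gs, g, z_add T.ha hσ, z_add T.hb hσ, zpow_add, Units.val_mul,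
    mul_smul, smul_sub]
  noncomm_ring

omit [Fact ((p : O) = 0)] in
theorem cap_sub_mem (hI : G.Id I) (hH : G.Id H) (h : In I ((a' : Tw G) - (a : Tw G))) {w : Tw G}
    (hw : In H w) : T.cap a' w - T.cap a w ∈ I * H := by
  have := add_mem (T.cap_two G.id_top hI hH (a := a) (a' := a') trivial trivial h hw)
    (Submodule.smul_of_tower_mem _ T.s (by
      rw [Ideal.top_mul]; exact lam_mem (hI.mul hH) (o_mul_mem hI hH (D_mem hI h) hw)))
  rwa [sub_add_cancel, Ideal.top_mul] at this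

/-- variation of the cap -/
theorem cap_var (hm : G.Id m) (hNa : G.Id Na) (hNb : G.Id Nb) (hH : G.Id H) (hI : G.Id I)
    (am : Na ≤ m) (bm : Nb ≤ m) (ha : a ∈ U hNa) (hb : b ∈ U hNb)
    (h : In H ((a' : Tw G) - (a : Tw G))) (h' : In H ((b' : Tw G) - (b : Tw G)))
    (h'' : In I ((a' : Tw G) - (a : Tw G))) :
    T.cap a' ((b' : Tw G) - 1) - T.cap a ((b : Tw G) - 1) - ev K (BK (T.g a' b') (T.g a b)) T.t +
      (T.CC a' b - T.CC a b) ∈ Na * Nb * H ⊔ m * (H * H) ⊔ I * H := by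
  have e1 := T.BE_g hm hNa hNb hH am bm ha hb h h'
  have e2 := BK_sub_BE (hNa.mul hNb) hH (T.cur_g (hNa.mul hNb) (cm_U hNa hNb ha hb))
    (T.g_dif hH h h' _) T.ht
  rw [mul_comm] at e2
  convert add_mem (Ideal.mem_sup_left (sub_mem (Ideal.mem_sup_left e2) e1))
    (Ideal.mem_sup_right (T.cap_sub_mem hI hH h'' h')) using 1
  simp only [CC, cap_sub]
  abel

/-- the derivative of the boundary action in its first argument -/
def dC (h : G.Dg γ δ) (a b : (Tw G)ˣ) : O := (T.CC (um (hom_jet h) a) (um (hom_inl G γ) b)).snd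

omit [Fact ((p : O) = 0)] in
theorem dC_zero (h : G.Dg γ δ) (e : δ (o G a) = 0) (b : (Tw G)ˣ) : T.dC h a b = 0 := by
  rw [dC, um_jet h e, CC_mp]; rfl

omit [Fact ((p : O) = 0)] in
theorem dC_one (h : G.Dg γ δ) (a : (Tw G)ˣ) : T.dC h a 1 = 0 := by
  rw [dC, map_one, CC_one]; rfl

omit [Fact ((p : O) = 0)] in
theorem dC_eq (h : G.Dg γ δ) (a : (Tw G)ˣ) (e : δ (o G b) = 0) : T.dC h a b = δ (T.CC a b) := by
  rw [dC, ← um_jet h e, CC_mp]; rfl

omit [Fact ((p : O) = 0)] in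
theorem dC_mp {O' : Type} [CommRing O'] [Algebra K O'] {G' : Gr (Gm p) K O'} {φ : O →ₐ[K] O'}
    (hφ : G.Hom G' φ) {δ' : Derivation K O' O'} (h : G.Dg γ δ) (h' : G'.Dg γ δ')
    (e : φ (δ (o G a)) = δ' (φ (o G a))) (b : (Tw G)ˣ) :
    T.dC h' (um hφ a) (um hφ b) = φ (T.dC h a b) := by
  have e1 : um (hom_jet h') (um hφ a) = um (hom_dmap hφ γ) (um (hom_jet h) a) :=
    Units.ext (TrivSqZeroExt.ext rfl e.symm)
  have e2 : um (hom_inl G' γ) (um hφ b) = um (hom_dmap hφ γ) (um (hom_inl G γ) b) :=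
    Units.ext (TrivSqZeroExt.ext rfl (map_zero φ).symm)
  rw [dC, e1, e2, CC_mp]; rfl

/-- derivative of the cap -/
theorem cap_der (h : G.Dg γ δ) (hNa : G.Id Na) (hNb : G.Id Nb) (ha : a ∈ U hNa) (hb : b ∈ U hNb) :
    δ (T.cap a ((b : Tw G) - 1)) - ev K (BD h (T.g a b)) T.t + T.dC h a b ∈ Na * Nb := by
  have hH' := id_pid (le_top (a := ⊥)) G.id_bot G.id_top γ
  have e := T.cap_var (G.dual γ).id_top (id_pid le_rfl hNa hNa γ) (id_pid le_rfl hNb hNb γ) hH' hH'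
    le_top le_top (inl_U hNa hNa le_rfl ha) (inl_U hNb hNb le_rfl hb) (jet_sub h a) (jet_sub h b)
    (jet_sub h a)
  have l0 : pid (⊥ : Ideal O) ⊤ le_top * pid ⊥ ⊤ le_top ≤ pid ⊥ (Na * Nb) bot_le :=
    pid_mul _ (by simp) (by simp) (by simp)
  have e' := (sup_le (sup_le ((Ideal.mul_mono_left (pid_mul (I'' := Na * Nb) le_rfl le_rfl le_rfl
    le_rfl)).trans (pid_mul _ (by simp) (by simp) (by simp))) (Ideal.mul_le_right.trans l0)) l0 e).2
  have q : ∀ {φ} (k : G.Hom (G.dual γ) φ), (um k b : Tw (G.dual γ)) - 1 = Tw.map k (b - 1) :=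
    fun k => by rw [map_sub, map_one, val_um]
  rwa [q, q, cap_mp, cap_mp, CC_mp _ (hom_inl G γ), ← g_mp, ← g_mp, snd_add, snd_sub, snd_sub,
    snd_sub, ← BD_eq, inlAlgHom_apply, inlAlgHom_apply, snd_inl, snd_inl, sub_zero, sub_zero] at e'

theorem dC_two (h : G.Dg γ δ) (hm : G.Id m) (hH : G.Id H) (ha : a ∈ U hm) (hb : b ∈ U hm)
    (hb' : b' ∈ U hm) {c : K} (hc : δ (o G a) - algebraMap K O c ∈ m)
    (h' : In H ((b' : Tw G) - (b : Tw G))) : T.dC h a b' - T.dC h a b +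
      T.s • sg γ (g0 p - γ) • c • G.pr (g0 p - γ) (o G ((b' : Tw G) - (b : Tw G))) ∈ m * H := by
  have e := T.CC_two (id_pid le_top hm G.id_top γ) (id_pid le_top G.id_bot G.id_top γ)
    (id_pid le_rfl hH hH γ) (inl_U hm G.id_top le_top ha) (jet_U h hm ha)
    (inl_U hm G.id_top le_top hb) (inl_U hm G.id_top le_top hb') (jet_sub h a)
    ⟨h', sub_mem (zero_mem H) (zero_mem H)⟩
  have e' := ((Ideal.mul_mono_left (pid_mul (I'' := ⊥) (J'' := m) bot_le (by simp) (by simp)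
    (by simp))).trans (pid_mul (I'' := ⊥) bot_le (by simp) (by simp) le_rfl) e).2
  rw [CC_mp _ (hom_inl G γ), CC_mp _ (hom_inl G γ), val_um (hom_inl G γ) b', val_um (hom_inl G γ) b,
    ← map_sub] at e'
  convert sub_mem e' (Submodule.smul_of_tower_mem _ T.s (lam_jet h hm hH hc h')) using 1
  simp only [dC, snd_add, snd_sub, snd_smul, inlAlgHom_apply, snd_inl, smul_sub]
  abel

/-- derivative of the boundary action in its second argument -/
theorem CC_der (h : G.Dg γ δ) (hm : G.Id m) (hNa : G.Id Na) (am : Na ≤ m) (ha : a ∈ U hNa)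
    (hb : b ∈ U hm) (e : δ (o G a) = 0) {c : K} (hc : δ (o G b) - algebraMap K O c ∈ m) :
    δ (T.CC a b) + T.s • sg γ (g0 p - γ) • c • G.pr (g0 p - γ) (o G ((a : Tw G) - 1)) ∈ m * Na := by
  have e0 := T.CC_two (id_pid le_top hm G.id_top γ) (id_pid le_rfl hNa hNa γ)
    (id_pid le_top G.id_bot G.id_top γ) (one_mem _) (inl_U hm G.id_top le_top (am ha))
    (inl_U hm G.id_top le_top hb) (jet_U h hm hb) (inl_U hNa hNa le_rfl ha) (jet_sub h b)
  have e' := ((Ideal.mul_mono_left (pid_mul (I'' := m * Na) (J'' := Na) Ideal.mul_le_right le_rfl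
    Ideal.mul_le_right (by simp))).trans (pid_mul (I'' := ⊥) (J'' := m * Na) bot_le (by simp) (by simp)
      (by simp)) e0).2
  rw [one_CC, one_CC, CC_mp _ (hom_inl G γ), lam_comm, val_um (hom_inl G γ) a, Units.val_one,
    ← map_one (Tw.map (hom_inl G γ)), ← map_sub, ← um_jet h e, CC_mp] at e'
  convert sub_mem e' (Submodule.smul_of_tower_mem _ T.s (lam_jet h hm hNa hc ha)) using 1
  have : (jet δ (T.CC a b)).snd = δ (T.CC a b) := rfl
  simp only [this, snd_add, snd_sub, snd_smul, inlAlgHom_apply, snd_inl, smul_sub, snd_zero]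
  abel

/-- the leading term of the boundary action -/
theorem CC_q (hm : G.Id m) (hNa : G.Id Na) (hNb : G.Id Nb) (am : Na ≤ m) (bm : Nb ≤ m)
    (ha : a ∈ U hNa) (hb : b ∈ U hNb) :
    T.CC a b + T.s • lam G (((a : Tw G) - 1) * ((b : Tw G) - 1)) ∈ m * Na * Nb := by
  simpa only [one_CC, CC_one, sub_zero, add_zero, Units.val_one] using
    T.CC_two hm hNa hNb (one_mem _) (am ha) (one_mem _) (bm hb) ha hb

end To

end Crest.Agent.N255.Cs

end
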