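import Crest.Agent.N255.Cs.CapD

/-!
# Row 255 (helper31): the capped potential `W = CS + cap`
-/

set_option autoImplicit false
open Finset

noncomputable section

namespace Crest.Agent.N255.Cs

open Tw Tp

variable {X : Type} [TopologicalSpace X] {K : Type} [CommRing K] {p : ℕ} [hpp : Fact p.Prime]
  {O : Type} [CommRing O] [Algebra K O] {G : Gr (Gm p) K O} {m I J H Na Nb E : Ideal O}
  [Fact ((p : O) = 0)] {γ : Gm p} {δ : Derivation K O O} {P : Sb X} {g g' : Cn G X}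

theorem TH_zero {u : Sx 0 X → (Tw G)ˣ} (h : ∀ v ∈ P.S 0, u v = 1) (g : Cn G X) {c : Ch K 2 X}
    (hc : c ∈ P.ch K 2) : ev K (TH u g) c = 0 :=
  P.ev_eq_zero (fun σ hσ => by simp [TH, TD.th, h _ (e1_mem P hσ 0), TD.D_one]) hc

omit hpp [Fact ((p : O) = 0)] in
theorem gag_one {R : Type} [Ring R] {u : Sx 0 X → Rˣ} (h : ∀ v ∈ P.S 0, u v = 1) (g : Sx 1 X → Rˣ)
    {e : Sx 1 X} (he : e ∈ P.S 1) : gag u g e = g e := by
  simp [gag, h _ (e1_mem P he 0), h _ (e1_mem P he 1)]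

namespace To

variable (T : To K X) {a a' b b' : (Tw G)ˣ} {σ σ' : Ch K 3 X}

/-- the capped potential -/
def W (σ : Ch K 3 X) (g : Cn G X) (a b : (Tw G)ˣ) : O := ev K (CS g) σ + T.cap a ((b : Tw G) - 1)

/-- `g` has the boundary values `a ^ α b ^ β` -/
def Bc {R : Type} [Ring R] (g : Sx 1 X → Rˣ) (a b : Rˣ) : Prop := ∀ e ∈ T.P.S 1, g e = T.g a b e

theorem W_hg (σ : Ch K 3 X) (g : Cn G X) (a b : (Tw G)ˣ) : G.Hg (g0 p) (T.W σ g a b) :=
  (CS_hg g σ).add (T.cap_hg _ _)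

theorem W_mem {hm : G.Id m} (hI : G.Id I) (hNa : G.Id Na) (hNb : G.Id Nb) (h : CU P hm g)
    (f : CI P I (cur g)) (hσ : σ ∈ P.ch K 3) (ha : a ∈ U hNa) (hb : b ∈ U hNb) :
    T.W σ g a b ∈ m * I ⊔ Na * Nb :=
  add_mem (Ideal.mem_sup_left (CS_mem hI h f hσ)) (Ideal.mem_sup_right (T.cap_mem hNa hNb ha hb))

theorem W_sq {hm : G.Id m} (h : CU P hm g) (hσ : σ ∈ P.ch K 3) (ha : a ∈ U hm) (hb : b ∈ U hm) :
    T.W σ g a b ∈ m ^ 2 := by
  have := T.W_mem hm hm hm h (fun _ hτ => fc_mem_of_U hm (h.gs hτ 0 1) (h.gs hτ 1 2) (h.gs hτ 0 2))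
    hσ ha hb
  rwa [sup_idem, ← sq] at this

theorem W_congr (h : ∀ e ∈ P.S 1, g e = g' e) (hσ : σ ∈ P.ch K 3) (a b : (Tw G)ˣ) :
    T.W σ g a b = T.W σ g' a b := by rw [W, W, CS_congr h hσ]

theorem W_bd (hI : G.Id I) (f : CI P I (cur g)) {r : Ch K 4 X} (hr : r ∈ P.ch K 4)
    (e : σ' - σ = bd K r) (a b : (Tw G)ˣ) : T.W σ' g a b - T.W σ g a b ∈ I * I := by
  rw [W, W, add_sub_add_right_eq_sub, ← map_sub, e]
  exact CS_bd_mem hI f hr

section map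

variable {O' : Type} [CommRing O'] [Algebra K O'] [Fact ((p : O') = 0)] {G' : Gr (Gm p) K O'}
  {φ : O →ₐ[K] O'}

theorem W_mp (h : G.Hom G' φ) (σ : Ch K 3 X) (g : Cn G X) (a b : (Tw G)ˣ) :
    T.W σ (mp h g) (um h a) (um h b) = φ (T.W σ g a b) := by
  rw [W, W, map_add, CS_mp, ← T.cap_mp h, map_sub, map_one, val_um]

omit [Fact ((p : O) = 0)] [Fact ((p : O') = 0)] in
theorem Bc.mp {T : To K X} (e : T.Bc g a b) (h : G.Hom G' φ) : T.Bc (mp h g) (um h a) (um h b) :=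
  fun s hs => by rw [← g_mp, Cs.mp, Cs.mp, e s hs]

end map

/-- gauge transformations which are trivial on the torus -/
theorem W_gag (hI : G.Id I) {hH : G.Id H} {u : Sx 0 X → (Tw G)ˣ} (h : CU P hH u)
    (h1 : ∀ v ∈ T.P.S 0, u v = 1) (f : CI P I (cur g)) (hσ : σ ∈ P.ch K 3) (hb : bd K σ = T.t)
    (a b : (Tw G)ˣ) : T.W σ (gag u g) a b - T.W σ g a b ∈ H * (I * I) := by
  have := CS_gag hI h f hσ
  rwa [hb, TH_zero h1 g T.ht, add_zero, ← add_sub_add_right_eq_sub _ _ (T.cap a (b - 1))] at this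

/-- variation of the capped potential; `E` contains `a' - a` -/
theorem W_var {hm : G.Id m} (hI : G.Id I) (hH : G.Id H) (hJ : G.Id J) (hNa : G.Id Na)
    (hNb : G.Id Nb) (hE : G.Id E) (hHm : H ≤ m) (am : Na ≤ m) (bm : Nb ≤ m) (h : CU P hm g)
    (f : CI P I (cur g)) (k : CI P H (dif g' g)) (j : CI P J (cob K (dif g' g)))
    (hσ : σ ∈ P.ch K 3) (hb : bd K σ = T.t) (e : T.Bc g a b) (e' : T.Bc g' a' b') (ha : a ∈ U hNa)
    (hb' : b ∈ U hNb) (d : In H (a'.val - a.val)) (d' : In H (b'.val - b.val))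
    (d'' : In E (a'.val - a.val)) :
    T.W σ g' a' b' - T.W σ g a b - ev K (cup (lq G) 3 (dif g' g) (cur g)) σ + (T.CC a' b - T.CC a b) ∈
      m * (H * (I ⊔ H)) ⊔ J * (I ⊔ H) ⊔ Na * Nb * H ⊔ E * H := by
  have e1 := CS_var_q hI hH hJ hHm h f k j hσ
  rw [hb, BK_congr e e' T.ht] at e1
  have l : Na * Nb * H ⊔ m * (H * H) ⊔ E * H ≤
      m * (H * (I ⊔ H)) ⊔ J * (I ⊔ H) ⊔ Na * Nb * H ⊔ E * H :=
    sup_le_sup_right (sup_le le_sup_right (le_sup_of_le_left (le_sup_of_le_left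
      (Ideal.mul_mono_right (Ideal.mul_mono_right le_sup_right))))) _
  convert add_mem (Ideal.mem_sup_left (Ideal.mem_sup_left e1))
    (l (T.cap_var hm hNa hNb hH hE am bm ha hb' d d' d'')) using 1
  simp only [W]; abel

/-- derivative of the capped potential -/
theorem W_der (hδ : G.Dg γ δ) {hm : G.Id m} (hI : G.Id I) (hNa : G.Id Na) (hNb : G.Id Nb)
    (h : CU P hm g) (f : CI P I (cur g)) {κ : Co K 1 X} (hκ : κ ∈ P.Z K K 1)
    (k : ∀ σ ∈ P.S 1, δ (o G (g σ)) - algebraMap K O (κ σ) ∈ m) (hσ : σ ∈ P.ch K 3)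
    (hb : bd K σ = T.t) (e : T.Bc g a b) (ha : a ∈ U hNa) (hb' : b ∈ U hNb) :
    δ (T.W σ g a b) + T.dC hδ a b - sg γ (g0 p - γ) • G.pr (g0 p - γ)
      (o G (ev K (cup (LinearMap.lsmul K (Tw G)) 3 κ (cur g)) σ)) ∈ m * I ⊔ Na * Nb := by
  have e1 := CS_der hδ hI h f hκ k hσ
  rw [hb, BD_congr hδ e T.ht] at e1
  convert add_mem (Ideal.mem_sup_left e1) (Ideal.mem_sup_right (T.cap_der hδ hNa hNb ha hb')) using 1
  simp only [W, map_add]; abel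

/-- (T3) derivative in a direction which fixes `a` -/
theorem W_der_x (hδ : G.Dg γ δ) {hm : G.Id m} (hI : G.Id I) (hNa : G.Id Na) (hNb : G.Id Nb)
    (h : CU P hm g) (f : CI P I (cur g)) {κ : Co K 1 X} (hκ : κ ∈ P.Z K K 1)
    (k : ∀ σ ∈ P.S 1, δ (o G (g σ)) - algebraMap K O (κ σ) ∈ m) (hσ : σ ∈ P.ch K 3)
    (hb : bd K σ = T.t) (e : T.Bc g a b) (ha : a ∈ U hNa) (hb' : b ∈ U hNb) (z : δ (o G a) = 0) :
    δ (T.W σ g a b) - sg γ (g0 p - γ) • G.pr (g0 p - γ)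
      (o G (ev K (cup (LinearMap.lsmul K (Tw G)) 3 κ (cur g)) σ)) ∈ m * I ⊔ Na * Nb := by
  simpa only [T.dC_zero hδ z, add_zero] using T.W_der hδ hI hNa hNb h f hκ k hσ hb e ha hb'

theorem W_der0 (hδ : G.Dg γ δ) {hm : G.Id m} (hI : G.Id I) (hNa : G.Id Na) (hNb : G.Id Nb)
    (h : CU P hm g) (f : CI P I (cur g)) (hσ : σ ∈ P.ch K 3) (hb : bd K σ = T.t) (e : T.Bc g a b)
    (ha : a ∈ U hNa) (hb' : b ∈ U hNb) : δ (T.W σ g a b) + T.dC hδ a b ∈ I ⊔ Na * Nb := by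
  have e1 := CS_der0 hδ hI h f hσ
  rw [hb, BD_congr hδ e T.ht] at e1
  convert add_mem (Ideal.mem_sup_left e1) (Ideal.mem_sup_right (T.cap_der hδ hNa hNb ha hb')) using 1
  simp only [W, map_add]; abel

theorem dC_lead (hδ : G.Dg γ δ) (hm : G.Id m) (hNb : G.Id Nb) (bm : Nb ≤ m) (ha : a ∈ U hm)
    (hb : b ∈ U hNb) {c : K} (hc : δ (o G a) - algebraMap K O c ∈ m) : T.dC hδ a b +
      T.s • sg γ (g0 p - γ) • c • G.pr (g0 p - γ) (o G ((b : Tw G) - 1)) ∈ m * Nb := by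
  simpa only [dC_one, sub_zero, Units.val_one] using
    T.dC_two hδ hm hNb ha (one_mem _) (bm hb) hc hb

/-- the derivative in a boundary direction detects `b - 1` -/
theorem W_der_y (hδ : G.Dg γ δ) {hm : G.Id m} (hI : G.Id I) (hNb : G.Id Nb) (bm : Nb ≤ m)
    (h : CU P hm g) (f : CI P I (cur g)) (hσ : σ ∈ P.ch K 3) (hb : bd K σ = T.t) (e : T.Bc g a b)
    (ha : a ∈ U hm) (hb' : b ∈ U hNb) {c : K} (hc : δ (o G a) - algebraMap K O c ∈ m) :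
    δ (T.W σ g a b) - T.s • sg γ (g0 p - γ) • c • G.pr (g0 p - γ) (o G ((b : Tw G) - 1)) ∈
      I ⊔ m * Nb := by
  convert sub_mem (T.W_der0 hδ hI hm hNb h f hσ hb e ha hb')
    (Ideal.mem_sup_right (T.dC_lead hδ hm hNb bm ha hb' hc)) using 1
  abel

/-- (T4) the derivative in a boundary direction after a substitution, compared with `x` -/
theorem W_der_mp {O' : Type} [CommRing O'] [Algebra K O'] [Fact ((p : O') = 0)]
    {G' : Gr (Gm p) K O'} {φ : O →ₐ[K] O'} (hφ : G.Hom G' φ) {δ' : Derivation K O' O'}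
    (hδ : G.Dg γ δ) (hδ' : G'.Dg γ δ') {hm : G.Id m} (hI : G.Id I) (h : CU P hm g)
    (f : CI P I (cur g)) {κ : Co K 1 X} (hκ : κ ∈ P.Z K K 1)
    (k : ∀ σ ∈ P.S 1, δ (o G (g σ)) - algebraMap K O (κ σ) ∈ m) (hσ : σ ∈ P.ch K 3)
    (hb : bd K σ = T.t) (e : T.Bc g a b) {m' L A B : Ideal O'} (hm' : G'.Id m') (hL : G'.Id L)
    (hA : G'.Id A) (hB : G'.Id B) (am : A ≤ m') (bm : B ≤ m') (ha : um hφ a ∈ U hA)
    (hb' : um hφ b ∈ U hB) {x : (Tw G')ˣ} (hx : x ∈ U hm') (d : In L ((um hφ b).val - x.val))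
    (z : δ' (o G' x) = 0) (z' : φ (δ (o G a)) = δ' (φ (o G a))) {c : K}
    (hc : δ' (φ (o G a)) - algebraMap K O' c ∈ m') :
    φ (δ (T.W σ g a b)) + δ' (T.CC (um hφ a) x) - φ (sg γ (g0 p - γ) • G.pr (g0 p - γ)
      (o G (ev K (cup (LinearMap.lsmul K (Tw G)) 3 κ (cur g)) σ))) - T.s • sg γ (g0 p - γ) • c •
        G'.pr (g0 p - γ) (o G' ((um hφ b).val - x.val)) ∈ (m * I).map φ ⊔ m' * L ⊔ A * B := by
  have q : ∀ {u : (Tw G)ˣ} {A : Ideal O'} (hA : G'.Id A), um hφ u ∈ U hA → u ∈ U (hφ.comap hA) :=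
    fun hA hu => by
      rw [mem_U, Ideal.mem_comap, ← o_map hφ, map_sub, map_one]; exact hu
  have e1 := Ideal.mem_map_of_mem φ (T.W_der hδ hI _ _ h f hκ k hσ hb e (q hA ha) (q hB hb'))
  rw [Ideal.map_sup, map_sub, map_add, ← T.dC_mp hφ hδ hδ' z'] at e1
  have l : (m * I).map φ ⊔ (A.comap φ * B.comap φ).map φ ≤ (m * I).map φ ⊔ m' * L ⊔ A * B :=
    sup_le (le_sup_of_le_left le_sup_left) (le_sup_of_le_right (by
      rw [Ideal.map_mul]; exact Ideal.mul_mono Ideal.map_comap_le Ideal.map_comap_le))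
  convert sub_mem (l e1) (Ideal.mem_sup_left (Ideal.mem_sup_right
    (T.dC_two hδ' hm' hL (am ha) hx (bm hb') hc d))) using 1
  rw [T.dC_eq hδ' _ z]; abel

end To

end Crest.Agent.N255.Cs

end
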