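import Crest.Agent.N255.Cs.Mem

/-!
# Row 255 (helper31): derivatives of the Chern-Simons cochain
-/

set_option autoImplicit false
open Finset

noncomputable section

namespace Crest.Agent.N255.Cs

open Tw TrivSqZeroExt

section congr

variable {R A V V' : Type*} [Ring R] [AddCommGroup A] (T : TD R A) {g g' : V → V → Rˣ}
  {k k' : V' → V' → Rˣ} {a b c d e : V} {a' b' c' d' e' : V'}

theorem fc_congr (h1 : g a b = k a' b') (h2 : g b c = k b' c') (h3 : g a c = k a' c') :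
    fc g a b c = fc k a' b' c' := by simp only [fc, h1, h2, h3]

theorem TD.cs_congr (h1 : g a b = k a' b') (h2 : g b c = k b' c') (h3 : g c d = k c' d')
    (h4 : g b d = k b' d') (h5 : g a d = k a' d') : T.cs g a b c d = T.cs k a' b' c' d' := by
  simp only [TD.cs, fc, h1, h2, h3, h4, h5]

theorem TD.cs_flat (h : g b c * g c d = g b d) : T.cs g a b c d = 0 := by
  simp [TD.cs, fc, ← h]

theorem TD.cs_one (h : g a b = 1) : T.cs g a b c d = 0 := by
  simp [TD.cs, h, T.D_one]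

end congr

variable {p : ℕ} [hpp : Fact p.Prime] {K O V : Type*} [CommRing K] [CommRing O] [Algebra K O]
  {G : Gr (Gm p) K O}

theorem bk_congr [Fact ((p : O) = 0)] {V' : Type*} {g g' : V → V → (Tw G)ˣ}
    {k k' : V' → V' → (Tw G)ˣ} {a b c : V} {a' b' c' : V'} (h1 : g a b = k a' b')
    (h2 : g b c = k b' c') (h3 : g a c = k a' c') (h2' : g' b c = k' b' c')
    (h3' : g' a c = k' a' c') : bk g' g a b c = bk k' k a' b' c' := by
  simp only [bk, TD.be, TD.ka, df, fc, h1, h2, h3, h2', h3']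

section gen

variable {Γ : Type*} [AddCommGroup Γ] [Fintype Γ] [DecidableEq Γ] (G : Gr Γ K O)

/-- dual numbers with `ε` of degree `γ` -/
def Gr.dual (γ : Γ) : Gr Γ K (TrivSqZeroExt O O) where
  pr a := (G.pr a).prodMap (G.pr (a - γ))
  sum x := by
    refine TrivSqZeroExt.ext ?_ ?_
    · rw [fst_sum]; exact G.sum _
    · rw [snd_sum]
      exact ((Equiv.subRight γ).sum_comp fun a => G.pr a x.snd).trans (G.sum _)
  idem a b x := by
    refine TrivSqZeroExt.ext ?_ ?_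
    · change G.pr a (G.pr b x.fst) = _
      rw [G.idem]; split_ifs <;> rfl
    · change G.pr (a - γ) (G.pr (b - γ) x.snd) = _
      rw [G.idem]
      simp only [sub_left_inj]
      split_ifs <;> rfl
  mul a b x y := by
    refine TrivSqZeroExt.ext (G.mul a b x.fst y.fst) ?_
    change G.Hg (a + b - γ) (G.pr a x.fst * G.pr (b - γ) y.snd + G.pr (a - γ) x.snd * G.pr b y.fst)
    exact (((G.hg_pr _ _).mul (G.hg_pr _ _)).cast (by abel)).add
      (((G.hg_pr _ _).mul (G.hg_pr _ _)).cast (by abel))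
  one := TrivSqZeroExt.ext G.one (map_zero (G.pr (0 - γ)))

theorem Gr.dual_fst (γ a : Γ) (x : TrivSqZeroExt O O) :
    ((G.dual γ).pr a x).fst = G.pr a x.fst := rfl

theorem Gr.dual_snd (γ a : Γ) (x : TrivSqZeroExt O O) :
    ((G.dual γ).pr a x).snd = G.pr (a - γ) x.snd := rfl

/-- a derivation of degree `-γ` -/
def Gr.Dg (γ : Γ) (δ : Derivation K O O) : Prop := ∀ a x, G.Hg a x → G.Hg (a - γ) (δ x)

variable {G}

theorem Gr.Dg.pr {γ : Γ} {δ : Derivation K O O} (h : G.Dg γ δ) (a : Γ) (x : O) :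
    δ (G.pr a x) = G.pr (a - γ) (δ x) := by
  conv_rhs => rw [← G.sum x, map_sum, map_sum]
  rw [sum_eq_single a (fun b _ hb => (h b _ (G.hg_pr b x)).ne (by simpa using hb.symm)) (by simp)]
  exact (h a _ (G.hg_pr a x)).symm

/-- `x ↦ x + ε δ x` -/
def jet (δ : Derivation K O O) : O →ₐ[K] TrivSqZeroExt O O :=
  AlgHom.ofLinearMap (LinearMap.prod LinearMap.id δ.toLinearMap)
    (TrivSqZeroExt.ext rfl δ.map_one_eq_zero) fun x y => TrivSqZeroExt.ext rfl (by
      change δ (x * y) = x * δ y + δ x * y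
      rw [δ.leibniz, smul_eq_mul, smul_eq_mul, mul_comm y])

theorem hom_jet {γ : Γ} {δ : Derivation K O O} (h : G.Dg γ δ) : G.Hom (G.dual γ) (jet δ) :=
  fun a x => TrivSqZeroExt.ext rfl (h.pr a x)

theorem hom_inl (G : Gr Γ K O) (γ : Γ) : G.Hom (G.dual γ) (inlAlgHom K O O) :=
  fun a _ => TrivSqZeroExt.ext rfl (map_zero (G.pr (a - γ))).symm

/-- the ideal `I + ε J` -/
def pid (I J : Ideal O) (h : I ≤ J) : Ideal (TrivSqZeroExt O O) where
  carrier := {x | x.fst ∈ I ∧ x.snd ∈ J}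
  zero_mem' := ⟨zero_mem _, zero_mem _⟩
  add_mem' hx hy := ⟨add_mem hx.1 hy.1, add_mem hx.2 hy.2⟩
  smul_mem' _ _ hx := ⟨Ideal.mul_mem_left _ _ hx.1,
    add_mem (Ideal.mul_mem_left _ _ hx.2) (Ideal.mul_mem_left _ _ (h hx.1))⟩

theorem id_pid {I J : Ideal O} (h : I ≤ J) (hI : G.Id I) (hJ : G.Id J) (γ : Γ) :
    (G.dual γ).Id (pid I J h) := fun _ _ hx => ⟨hI _ _ hx.1, hJ _ _ hx.2⟩

theorem pid_mul {I J I' J' I'' J'' : Ideal O} {h : I ≤ J} {h' : I' ≤ J'} (h'' : I'' ≤ J'')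
    (e1 : I * I' ≤ I'') (e2 : I * J' ≤ J'') (e3 : J * I' ≤ J'') :
    pid I J h * pid I' J' h' ≤ pid I'' J'' h'' :=
  Ideal.mul_le.2 fun _ hx _ hy => ⟨e1 (Ideal.mul_mem_mul hx.1 hy.1),
    add_mem (e2 (Ideal.mul_mem_mul hx.1 hy.2)) (e3 (Ideal.mul_mem_mul hx.2 hy.1))⟩

theorem pid_mono {I J I' J' : Ideal O} {h : I ≤ J} (h' : I' ≤ J') (e1 : I ≤ I') (e2 : J ≤ J') :
    pid I J h ≤ pid I' J' h' := fun _ hx => ⟨e1 hx.1, e2 hx.2⟩

end gen

instance [h : Fact ((p : O) = 0)] : Fact ((p : TrivSqZeroExt O O) = 0) :=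
  ⟨by rw [← map_natCast (inlHom O O), h.out, map_zero]⟩

variable [Fact ((p : O) = 0)] {γ : Gm p} {δ : Derivation K O O}

/-- the boundary term of the derivative -/
def bD (h : G.Dg γ δ) (g : V → V → (Tw G)ˣ) (a b c : V) : O :=
  (bk (fun x y => um (hom_jet h) (g x y)) (fun x y => um (hom_inl G γ) (g x y)) a b c).snd

theorem bD_congr (h : G.Dg γ δ) {V' : Type*} {g : V → V → (Tw G)ˣ} {k : V' → V' → (Tw G)ˣ}
    {a b c : V} {a' b' c' : V'} (h1 : g a b = k a' b') (h2 : g b c = k b' c')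
    (h3 : g a c = k a' c') : bD h g a b c = bD h k a' b' c' := by
  unfold bD
  rw [bk_congr (k := fun x y => um (hom_inl G γ) (k x y)) (k' := fun x y => um (hom_jet h) (k x y))
    (a' := a') (b' := b') (c' := c')] <;> simp only [h1, h2, h3]

theorem bD_zero (h : G.Dg γ δ) {g : V → V → (Tw G)ˣ} {a b c : V} (h1 : δ (o G (g b c)) = 0)
    (h2 : δ (o G (g a c)) = 0) : bD h g a b c = 0 := by
  unfold bD
  have k : ∀ {u : (Tw G)ˣ}, δ (o G u) = 0 → um (hom_jet h) u = um (hom_inl G γ) u := fun h1 =>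
    Units.ext (TrivSqZeroExt.ext rfl h1)
  rw [bk_zero (k h1) (k h2)]
  rfl

omit [Fact ((p : O) = 0)] in
/-- the pairing with `ε c` -/
theorem lam_eps (c : K) (x : Tw (G.dual γ)) (hx : o _ x = inr (algebraMap K O c)) (y : Tw G) :
    (lam (G.dual γ) (x * Tw.map (hom_inl G γ) y)).snd =
      sg γ (g0 p - γ) • c • G.pr (g0 p - γ) (o G y) := by
  have hh : (G.dual γ).Hg γ (o _ x) := by
    rw [hx]
    refine TrivSqZeroExt.ext (map_zero (G.pr γ)) ?_
    rw [Gr.dual_snd, sub_self]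
    exact G.hg_alg c
  rw [lam_mul, sum_eq_single γ (fun b _ hb => by rw [hh.ne hb, zero_mul, smul_zero]) (by simp), hh,
    o_map, ← hom_inl G γ, hx, snd_smul, inlAlgHom_apply, inr_mul_inl, Algebra.smul_def c]
  rfl

/-- the derivative of `cs` in a direction whose leading term is the cocycle `κ` -/
theorem der_cs (h : G.Dg γ δ) {m I : Ideal O} (hm : G.Id m) (hI : G.Id I) {g : V → V → (Tw G)ˣ}
    {a b c d : V} {κ : V → V → K} (h1 : g a b ∈ U hm) (h2 : g b c ∈ U hm) (h3 : g a d ∈ U hm)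
    (h5 : g c d ∈ U hm) (f0 : In I (fc g a b c)) (f1 : In I (fc g b c d))
    (f2 : In I (fc g a b d)) (f3 : In I (fc g a c d))
    (k : ∀ x ∈ [(a, b), (b, c), (c, d), (a, c), (a, d), (b, d)],
      δ (o G (g x.1 x.2)) - algebraMap K O (κ x.1 x.2) ∈ m)
    (j1 : d1 κ a b d = 0) (j2 : d1 κ a c d = 0) (j3 : d1 κ b c d = 0) :
    δ ((td G).cs g a b c d) + d2 (bD h g) a b c d
      - sg γ (g0 p - γ) • κ a b • G.pr (g0 p - γ) (o G (fc g b c d)) ∈ m * I := by
  set g' : V → V → (Tw (G.dual γ))ˣ := fun x y => um (hom_jet h) (g x y) with hg'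
  set g0' : V → V → (Tw (G.dual γ))ˣ := fun x y => um (hom_inl G γ) (g x y) with hg0
  have hm' := id_pid (le_top (a := m)) hm G.id_top γ
  have hI' := id_pid le_rfl hI hI γ
  have hH' := id_pid (le_top (a := ⊥)) G.id_bot G.id_top γ
  have hJ' := id_pid (bot_le (a := m)) G.id_bot hm γ
  have u : ∀ {x y}, g x y ∈ U hm → g0' x y ∈ U hm' := fun hx =>
    um_mem (hom_inl G γ) hm hm' (fun _ hz => ⟨hz, trivial⟩) hx
  have f : ∀ {x y z}, In I (fc g x y z) → In (pid I I le_rfl) (fc g0' x y z) := fun hx => by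
    rw [hg0, fc_um]; exact ⟨hx, zero_mem _⟩
  have kf : ∀ x y, (o _ (df g' g0' x y)).fst = 0 := fun x y => sub_self (o G (g x y))
  have ks : ∀ x y, (o _ (df g' g0' x y)).snd = δ (o G (g x y)) := fun x y => sub_zero _
  have kk : ∀ x y, In (pid ⊥ ⊤ le_top) (df g' g0' x y) := fun x y => ⟨kf x y, trivial⟩
  have j : ∀ {x y z}, δ (o G (g x y)) - algebraMap K O (κ x y) ∈ m →
      δ (o G (g y z)) - algebraMap K O (κ y z) ∈ m → δ (o G (g x z)) - algebraMap K O (κ x z) ∈ m →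
      d1 κ x y z = 0 → In (pid ⊥ m bot_le) (d1 (df g' g0') x y z) := by
    intro x y z e1 e2 e3 e4
    refine ⟨?_, ?_⟩
    · simp only [d1, map_add, map_sub, fst_add, fst_sub, kf]; simp
    · simp only [d1, map_add, map_sub, snd_add, snd_sub, ks]
      have := congrArg (algebraMap K O) e4
      simp only [d1, map_add, map_sub, map_zero] at this
      convert add_mem (sub_mem e2 e3) e1 using 1
      linear_combination this
  have kab := k (a, b) (by simp)
  have e := var_q hm' hI' hH' hJ' (pid_mono _ bot_le le_rfl) (u h1) (u h2) (u h3) (u h5) (f f0) (f f1)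
    (f f2) (f f3) (kk _ _) (kk _ _) (kk _ _) (kk _ _) (kk _ _)
    (j kab (k (b, d) (by simp)) (k (a, d) (by simp)) j1)
    (j (k (a, c) (by simp)) (k (c, d) (by simp)) (k (a, d) (by simp)) j2)
    (j (k (b, c) (by simp)) (k (c, d) (by simp)) (k (b, d) (by simp)) j3)
  have l0 : pid I I le_rfl ⊔ pid ⊥ ⊤ le_top ≤ pid I ⊤ le_top :=
    sup_le (pid_mono _ le_rfl le_top) (pid_mono _ bot_le le_rfl)
  have l1 : pid m ⊤ le_top * (pid ⊥ ⊤ le_top * (pid I I le_rfl ⊔ pid ⊥ ⊤ le_top)) ⊔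
      pid ⊥ m bot_le * (pid I I le_rfl ⊔ pid ⊥ ⊤ le_top) ≤ pid ⊥ (m * I) bot_le := by
    refine sup_le ((Ideal.mul_mono_right ((Ideal.mul_mono_right l0).trans
      (pid_mul (I'' := ⊥) (J'' := I) bot_le (by simp) (by simp) (by simp)))).trans
      (pid_mul _ (by simp) le_rfl (by simp))) ((Ideal.mul_mono_right l0).trans
      (pid_mul _ (by simp) (by simp) le_rfl))
  have e1 := (l1 e).2
  let x : Tw (G.dual γ) := up _ (inr (algebraMap K O (κ a b)))
  have e2 : lam (G.dual γ) ((df g' g0' a b - x) * fc g0' b c d) ∈ pid ⊥ (m * I) bot_le := by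
    refine pid_mul (I := ⊥) (J := m) (I' := I) (J' := I) (h := bot_le) (h' := le_rfl) _ (by simp)
      (by simp) le_rfl (lam_mem (hJ'.mul hI') (o_mul_mem hJ' hI' ⟨?_, ?_⟩ (f f1)))
    · rw [map_sub, fst_sub, kf]; simp [x]
    · rw [map_sub, snd_sub, ks]; exact kab
  have e3 := lam_eps (G := G) (γ := γ) (κ a b) x rfl (fc g b c d)
  rw [hg', hg0, cs_um, cs_um] at e1
  rw [sub_mul, map_sub] at e2
  rw [← fc_um, ← hg0] at e3
  convert add_mem e1 e2.2 using 1
  simp only [snd_sub, snd_add, d2, e3, bD, ← hg', ← hg0]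
  have : (jet δ ((td G).cs g a b c d)).snd = δ ((td G).cs g a b c d) := rfl
  rw [this, inlAlgHom_apply, snd_inl]
  abel

end Crest.Agent.N255.Cs

end
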