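import Crest.Agent.N255.Cs.CapW

/-!
# Row 255 (helper31): the standard connection on the end and the three tori
-/

set_option autoImplicit false
open Finset

noncomputable section

namespace Crest.Agent.N255.Cs

open Tw Tp

variable {X : Type} [TopologicalSpace X] {K : Type} [CommRing K] {p : ℕ} [hpp : Fact p.Prime]
  {O : Type} [CommRing O] [Algebra K O] {G : Gr (Gm p) K O} {m I J H L N : Ideal O}

theorem In.sum {ι : Type*} {s : Finset ι} {f : ι → Tw G} (h : ∀ i ∈ s, In I (f i)) :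
    In I (∑ i ∈ s, f i) := by rw [In, map_sum]; exact sum_mem h

theorem inv_sub_in (hJ : G.Id J) {u v : (Tw G)ˣ} (h : In J (u.val - v.val)) :
    In J ((u⁻¹).val - (v⁻¹).val) := by simpa only [zpow_one] using zinv_sub hJ h 1

theorem zpow_one_lin (hN : G.Id N) {x : (Tw G)ˣ} (hx : x ∈ U hN) (n : ℤ) :
    In (N * N) ((x ^ n).val - 1 - n • (x.val - 1)) := by
  simpa only [one_zpow, Units.val_one] using zpow_lin' hN hN (a := 1) hx (one_mem _) hx n

theorem zpow_quad (hN : G.Id N) {x : (Tw G)ˣ} (hx : x ∈ U hN) (n : ℤ) : In (N * N * N)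
    ((x ^ n).val - 1 - n • (x.val - 1) - (n * (n - 1) / 2) • ((x.val - 1) * (x.val - 1))) := by
  have := in_lin (I := N * N * N) (fun n : ℤ => (x ^ n).val - 1 - n • (x.val - 1) -
    (n * (n - 1) / 2) • ((x.val - 1) * (x.val - 1))) 0 (by simp) (fun n => ?_) n
  · simpa only [smul_zero, sub_zero] using this
  have e : (n + 1) * (n + 1 - 1) / 2 = n * (n - 1) / 2 + n := by
    rw [show (n + 1) * (n + 1 - 1) = n * (n - 1) + n * 2 by ring, Int.add_mul_ediv_right _ _ two_ne_zero]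
  refine In.eq (o_mul_mem (hN.mul hN) hN (zpow_one_lin hN hx n) hx) ?_
  simp only [e, zpow_add_one, Units.val_mul, add_smul, one_smul, sub_mul, smul_mul_assoc]
  noncomm_ring

/-- Magnus labels modulo degree three -/
structure Mg (ι X : Type) [TopologicalSpace X] where
  P : Sb X
  x : ι → Co ℤ 1 X
  y : ι → ι → Co ℤ 1 X
  hx : ∀ i, x i ∈ P.Z ℤ ℤ 1
  hy : ∀ i j, ∀ σ ∈ P.S 2, y i j (e2 σ 0 2) =
    y i j (e2 σ 0 1) + y i j (e2 σ 1 2) + x i (e2 σ 0 1) * x j (e2 σ 1 2)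

namespace Mg

variable {ι : Type} [Fintype ι] (M : Mg ι X) {μ : ι → Tw G}

/-- the standard label minus one -/
def v (μ : ι → Tw G) (e : Sx 1 X) : Tw G := ∑ i, M.x i e • μ i + ∑ i, ∑ j, M.y i j e • (μ i * μ j)

theorem v_in (hN : G.Id N) (h : ∀ i, In N (μ i)) (e : Sx 1 X) : In N (M.v μ e) :=
  In.add (In.sum fun i _ => (h i).zsmul _)
    (In.sum fun _ _ => In.sum fun j _ => In.zsmul (mem_left hN _ (h j)) _)

/-- the standard connection -/
def gst (hm : G.Id m) (hn : IsNilpotent m) (h : ∀ i, In m (μ i)) : Cn G X :=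
  fun e => un hm hn (M.v μ e) (M.v_in hm h e)

theorem val_gst (hm : G.Id m) (hn : IsNilpotent m) (h : ∀ i, In m (μ i)) (e : Sx 1 X) :
    (M.gst hm hn h e).val = 1 + M.v μ e := val_un _ _ _ _

theorem gst_U (hm : G.Id m) (hn : IsNilpotent m) (h : ∀ i, In m (μ i)) (hN : G.Id N)
    (h' : ∀ i, In N (μ i)) (e : Sx 1 X) : M.gst hm hn h e ∈ U hN :=
  un_mem _ _ _ _ hN (M.v_in hN h' e)

theorem cur_gst (hm : G.Id m) (hn : IsNilpotent m) (h : ∀ i, In m (μ i)) (hN : G.Id N)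
    (h' : ∀ i, In N (μ i)) : CI M.P (N * N * N) (cur (M.gst hm hn h)) := fun σ hσ => by
  have a : ∀ e, In N (∑ i, M.x i e • μ i) := fun e => In.sum fun i _ => (h' i).zsmul _
  have b : ∀ e, In (N * N) (∑ i, ∑ j, M.y i j e • (μ i * μ j)) := fun e =>
    In.sum fun i _ => In.sum fun j _ => In.zsmul (o_mul_mem hN hN (h' i) (h' j)) _
  have e1 := o_mul_mem hN (hN.mul hN) (a (e2 σ 0 1)) (b (e2 σ 1 2))
  rw [← mul_assoc] at e1
  refine In.eq (In.add e1 (o_mul_mem (hN.mul hN) hN (b (e2 σ 0 1)) (M.v_in hN h' (e2 σ 1 2)))) ?_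
  have q : (∑ i, M.x i (e2 σ 0 1) • μ i) * ∑ i, M.x i (e2 σ 1 2) • μ i =
      ∑ i, ∑ j, (M.x i (e2 σ 0 1) * M.x j (e2 σ 1 2)) • (μ i * μ j) := by
    simp only [sum_mul_sum, smul_mul_smul_comm]
  simp only [cur, fc, gs, val_gst, v, z_add (M.hx _) hσ, M.hy _ _ σ hσ, add_smul, sum_add_distrib, ← q]
  noncomm_ring

omit [Fintype ι] in
/-- the triple Massey cocycle -/
theorem massey (i j k : ι) {c : Ch K 3 X} (hc : c ∈ M.P.ch K 3) :
    pz (M.y i j) (M.x k) (bd K c) + pz (M.x i) (M.y j k) (bd K c) = 0 := by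
  rw [pz, pz, ← ev_add, ev_bd]
  refine M.P.ev_eq_zero (fun σ hσ => ?_) hc
  have hx := fun i a b c h1 h2 => z_add (M.hx i) (e3_mem M.P hσ (a := a) (b := b) (c := c) h1 h2)
  have hy := fun i j a b c h1 h2 => M.hy i j _ (e3_mem M.P hσ (a := a) (b := b) (c := c) h1 h2)
  simp only [e2_sub] at hx hy
  have h1 := hx i 0 1 2 (by decide) (by decide)
  have h2 := hx k 1 2 3 (by decide) (by decide)
  have h3 := hy i j 0 1 2 (by decide) (by decide)
  have h4 := hy j k 1 2 3 (by decide) (by decide)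
  simp only [cob_d2, d2, Pi.add_apply, e2_sub]
  simp only [Matrix.cons_val_zero, Matrix.cons_val_one, Matrix.cons_val] at h1 h2 h3 h4 ⊢
  rw [h1, h2, h3, h4]
  push_cast
  ring

end Mg

theorem pz_congr {P : Sb X} {α β α' β' : Co ℤ 1 X} (r : ℤ) (h : ∀ σ ∈ P.S 2,
    α (e2 σ 0 1) * β (e2 σ 1 2) = r * (α' (e2 σ 0 1) * β' (e2 σ 1 2))) {t : Ch K 2 X}
    (ht : t ∈ P.ch K 2) : pz α β t = r • pz α' β' t := by
  rw [pz, pz, ← Int.cast_smul_eq_zsmul K, ← ev_smul]
  exact P.ev_congr (fun σ hσ => by rw [Pi.sub_apply, h σ hσ]; simp) ht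

variable [Fact ((p : O) = 0)] {P : Sb X} {g g₀ g₁ : Cn G X}

theorem BE_shift {hm : G.Id m} (hJ : G.Id J) (h : CU P hm g) (h₀ : CU P hm g₀) (h₁ : CU P hm g₁)
    (k : CI P J (dif g₁ g₀)) {c : Ch K 2 X} (hc : c ∈ P.ch K 2) :
    ev K (BE g₁ (dif g g₁)) c - ev K (BE g₀ (dif g g₀)) c ∈ m * J := by
  rw [← ev_sub]
  refine ev_ideal (fun σ hσ => ?_) hc
  have l : J * m ≤ m * J := (mul_comm J m).le
  have d0 := D_mem_U hm (h₀.gs hσ 0 1)
  have e1 := in2 hJ hm l (D_mem hJ (k.df hσ 0 1)) (U_sub hm (h.gs hσ 1 2) (h₁.gs hσ 1 2)) 1 1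
    (gs g₁ σ 0 2)⁻¹.val
  have e2 := in2 hm hJ le_rfl d0 (k.df hσ 1 2) 1 1 (gs g₁ σ 0 2)⁻¹.val
  have e3 := in2 hm hJ le_rfl d0 (inv_sub_in hJ (k.df hσ 0 2)) 1 (df (gs g σ) (gs g₀ σ) 1 2) 1
  change lam G _ - lam G _ ∈ _
  rw [← map_sub]
  refine lam_mem (hm.mul hJ) (In.eq (In.add (In.sub e1 e2) e3) ?_)
  simp only [td_D, df, dif, gs, map_sub]
  noncomm_ring

theorem BE_congr (g₀ : Cn G X) (h : ∀ σ ∈ P.S 1, g σ = g₁ σ) {c : Ch K 2 X} (hc : c ∈ P.ch K 2) :
    ev K (BE g₀ (dif g g₀)) c = ev K (BE g₀ (dif g₁ g₀)) c :=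
  P.ev_congr (fun σ hσ => by
    simp only [Pi.sub_apply, BE, TD.be, dif, h _ (e2_mem P hσ (a := 1) (b := 2) (by decide)),
      sub_self]) hc

namespace To

variable (T : To K X) {a b x l : (Tw G)ˣ}

/-- (T1) a slot read from the meridian side -/
theorem slotM (hm : G.Id m) (hN : G.Id N) (hL : G.Id L) (Nm : N ≤ m) (Lm : L ≤ m) (hx : x ∈ U hN)
    (hl : l ∈ U (hN.mul hN)) (h : In L (b.val - l.val)) :
    ev K (BE (T.g x l) (dif (T.g x b) (T.g x l))) T.t - (T.cap x (b.val - 1) -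
      T.s • lam G (D G (x.val - 1) * (l.val - 1))) ∈ L * L ⊔ m * (N * N * N) := by
  have e1 := T.BE_g hm hN (hN.mul hN) hL Nm (Ideal.mul_le_left.trans Nm) hx hl (a' := x)
    (by simpa using in_zero) h
  have e2 := T.cap_two hN hN (hN.mul hN) (one_mem _) hx hx hl
  have l1 : N * (N * N) * L ⊔ m * (L * L) ≤ L * L ⊔ m * (N * N * N) :=
    sup_le (le_sup_of_le_right (by rw [mul_comm, mul_assoc N]; exact Ideal.mul_mono_left Lm))
      (le_sup_of_le_left Ideal.mul_le_right)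
  have l2 : N * N * (N * N) ≤ m * (N * N * N) := by
    rw [mul_assoc, ← mul_assoc N N N]; exact Ideal.mul_mono_left Nm
  convert sub_mem (l1 e1) (Ideal.mem_sup_right (l2 e2)) using 1
  simp only [cap_sub, cap_one, Units.val_one]
  abel

/-- (T2) a slot read from the longitude side -/
theorem slotL (hm : G.Id m) (hN : G.Id N) (hL : G.Id L) (Nm : N ≤ m) (Lm : L ≤ m) (hx : x ∈ U hN)
    (hl : l ∈ U (hN.mul hN)) (h : In L (a.val - l.val)) (h' : In L (b.val - x.val)) :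
    ev K (BE (T.g l x) (dif (T.g a b) (T.g l x))) T.t - (T.cap a (b.val - 1) + T.CC a x +
      T.s • lam G (D G (x.val - 1) * (l.val - 1))) ∈ L * L ⊔ m * (N * N * N) := by
  have NN : N * N ≤ N := Ideal.mul_le_left
  have e1 := T.BE_g hm (hN.mul hN) hN hL (NN.trans Nm) Nm hl hx h h'
  have e2 := T.cap_two hN (hN.mul hN) hN (one_mem _) (NN hl) hl hx
  have e3 := T.CC_q hN (hN.mul hN) hN NN le_rfl hl hx
  have e4 := T.cap_sub_mem hL hL h h'
  have e5 := (td G).lam_DD (l.val - 1) (x.val - 1)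
  have l1 : N * N * N * L ⊔ m * (L * L) ≤ L * L ⊔ m * (N * N * N) :=
    sup_le (le_sup_of_le_right (by rw [mul_comm]; exact Ideal.mul_mono_left Lm))
      (le_sup_of_le_left Ideal.mul_le_right)
  have l2 : N * (N * N) * N ≤ m * (N * N * N) := by rw [mul_assoc]; exact Ideal.mul_mono_left Nm
  simp only [td_D, td_lam] at e5
  rw [lam_comm (x := D G (x.val - 1))]
  convert sub_mem (sub_mem (l1 e1) (Ideal.mem_sup_right (l2 (add_mem e2 e3))))
    (Ideal.mem_sup_left e4) using 1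
  simp only [CC, cap_sub, cap_one, Units.val_one, ← e5, smul_add]
  abel

omit hpp [Fact ((p : O) = 0)]

/-- the meridian cocycle seen from the side `b` -/
def mer (b : Bool) : Co ℤ 1 X := if b then T.al else T.be

/-- the longitude cocycle seen from the side `b` -/
def lon (b : Bool) : Co ℤ 1 X := if b then T.be else T.al

theorem mer_lon (b : Bool) : pz (T.mer b) (T.lon b) (if b then T.t else -T.t) = T.s := by
  cases b
  · simp [mer, lon, ba]
  · rfl

theorem lon_mer (b : Bool) : pz (T.lon b) (T.mer b) (if b then T.t else -T.t) = -T.s := by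
  cases b
  · simp [mer, lon, s]
  · exact T.ba

end To

end Crest.Agent.N255.Cs

end
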