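import Crest.Agent.N255.Cs.OnO
import Crest.Agent.N255.Sl.Loc

/-!
# Row 255 (helper31): the vertex identity with located curvature
-/

set_option autoImplicit false
open Finset

noncomputable section

namespace N255.Sl.Zn

variable {A : Type*} [CommRing A] {κ α ι : Type*} (Z : Zn A κ α ι)

/-- one more macroscopic zone with ideal `X`, generators corrected by `r` -/
def adj (X : Ideal A) (e : ι) (r : α → A) : Zn A (Option κ) α ι :=
  { Z with
    pos := fun k => k.elim 0 Z.pos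
    sl := fun k => k.elim e Z.sl
    I := fun k => k.elim X Z.I
    E' := fun k => k.elim X Z.E'
    E := fun a => Z.E a + r a }

/-- the ideal of the pure macroscopic generators -/
def Pu : Ideal A := ⨆ (a) (_ : Z.ε a = 0 ∧ Z.pa a = 0), Ideal.span {Z.E a}

variable {Z} {X : Ideal A} {e : ι} {r : α → A}

theorem adj_Qd : Z.Qd ⊔ X * X ≤ (Z.adj X e r).Qd :=
  sup_le (iSup_le fun k => le_iSup_of_le (some k) le_rfl) (le_iSup_of_le none le_sup_left)

theorem adj_Eps : (Z.adj X e r).Eps = Z.Eps := rfl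

theorem Ok.adj (h : Z.Ok) (hX : X ≤ Z.Pu) (e : ι) (hr : ∀ a, r a ∈ X) (h0 : ∀ a, Z.ε a = 0 → r a = 0) :
    (Z.adj X e r).Ok := by
  have x1 : ∀ n, X ≤ ⨆ (a) (_ : Z.pa a ≤ n), Ideal.span {Z.E a + r a} := fun n =>
    hX.trans (iSup₂_le fun a ha => le_iSup₂_of_le a (by omega) (by rw [h0 a ha.1, add_zero]))
  refine ⟨h.fl, h.nil, h.mle, h.gap, ?_, ?_, ?_⟩
  · rintro (_ | k)
    exacts [le_sup_left, h.hI k]
  · rintro (_ | k)
    · exact le_sup_of_le_left (x1 _)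
    refine (h.hE1 k).trans (sup_le_sup (le_trans (iSup₂_le fun a ha => ?_) (le_refl
      (⨆ (a) (_ : Z.pa a ≤ Z.pos k + Z.γ), Ideal.span {Z.E a + r a})))
      (Ideal.mul_mono_right (iSup₂_le fun k' hk => le_iSup₂_of_le (some k') hk le_rfl)))
    rw [Ideal.span_singleton_le_iff_mem]
    simpa using sub_mem (Ideal.mem_iSup_of_mem a (Ideal.mem_iSup_of_mem ha
      (Ideal.mem_span_singleton_self (Z.E a + r a)))) (x1 _ (hr a))
  · rintro (_ | k) hk
    · exact absurd hk (Nat.not_lt_zero _)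
    refine (h.hE2 k hk).trans (sup_le_sup_left (Ideal.mul_mono_right (iSup₂_le fun k' hk' => ?_)) _)
    refine le_iSup₂_of_le (some k') ?_ le_rfl
    exact hk'

/-- the square of `X + (ε)` -/
theorem sq_split [Fintype α] (Z : Zn A κ α ι) (X : Ideal A) {f : A}
    (hf : f ∈ (X ⊔ Z.Eps) * (X ⊔ Z.Eps)) : ∃ r : α → A, (∀ a, r a ∈ X) ∧ (∀ a, Z.ε a = 0 → r a = 0) ∧
      f - ∑ a, Z.ε a * r a ∈ X * X ⊔ Z.Eps * Z.Eps := by
  classical
  have h1 : (X ⊔ Z.Eps) * (X ⊔ Z.Eps) ≤ (X * X ⊔ Z.Eps * Z.Eps) ⊔ X • Z.Eps := by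
    rw [Ideal.sup_mul, Ideal.mul_sup, Ideal.mul_sup, mul_comm Z.Eps X]
    exact sup_le (sup_le (le_sup_of_le_left le_sup_left) le_sup_right)
      (sup_le le_sup_right (le_sup_of_le_left le_sup_right))
  obtain ⟨u, hu, v, hv, rfl⟩ := Submodule.mem_sup.1 (h1 hf)
  obtain ⟨c, hc, rfl⟩ := (Submodule.mem_ideal_smul_span_iff_exists_sum X Z.ε v).1 hv
  refine ⟨fun a => if Z.ε a = 0 then 0 else c a, fun a => ?_, fun a ha => if_pos ha, ?_⟩
  · dsimp only
    split_ifs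
    exacts [zero_mem _, hc a]
  · have : ∀ a, Z.ε a * (if Z.ε a = 0 then 0 else c a) = c a • Z.ε a := fun a => by
      split_ifs with ha
      · simp [ha]
      · rw [smul_eq_mul, mul_comm]
    rw [Finsupp.sum_fintype _ _ (by simp)]
    simpa only [this, add_sub_cancel_right] using hu

/-- absorbing the end term -/
theorem Ok.absorb [Fintype α] (h : Z.Ok) (hX : X ≤ Z.Pu) (e : ι) {H : Ideal A} {Φ P : A}
    (h1 : Φ - P ∈ (X ⊔ Z.Eps) * (X ⊔ Z.Eps) ⊔ H)
    (h2 : P - ∑ a, Z.ε a * Z.E a ∈ Z.Qd ⊔ Z.Eps * Z.Eps ⊔ H) :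
    ∃ r : α → A, (∀ a, r a ∈ X) ∧ (∀ a, Z.ε a = 0 → r a = 0) ∧ (Z.adj X e r).Ok ∧
      Φ - ∑ a, Z.ε a * (Z.E a + r a) ∈ (Z.adj X e r).Qd ⊔ Z.Eps * Z.Eps ⊔ H := by
  obtain ⟨u, hu, v, hv, e1⟩ := Submodule.mem_sup.1 h1
  obtain ⟨r, r1, r2, r3⟩ := Z.sq_split X hu
  refine ⟨r, r1, r2, h.adj hX e r1 r2, ?_⟩
  have q := adj_Qd (Z := Z) (X := X) (e := e) (r := r)
  convert add_mem (add_mem (Ideal.mem_sup_left (sup_le_sup_right (le_sup_right.trans q) _ r3))
    (Ideal.mem_sup_right hv)) (sup_le_sup_right (sup_le_sup_right (le_sup_left.trans q) _) _ h2) using 1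
  simp only [mul_add, sum_add_distrib]
  linear_combination -e1

end N255.Sl.Zn

namespace Crest.Agent.N255.Cs

open Tw Tp

variable {X : Type} [TopologicalSpace X] {K : Type} [CommRing K] {p : ℕ} [hpp : Fact p.Prime]
  {O : Type} [CommRing O] [Algebra K O] {G : Gr (Gm p) K O} {m I J H L N : Ideal O}
  [Fact ((p : O) = 0)] {P : Sb X} {g g' : Cn G X}

omit [Fact ((p : O) = 0)] in
theorem CU.cur {hm : G.Id m} (h : CU P hm g) : CI P m (cur g) :=
  fun _ hτ => fc_mem_of_U hm (h.gs hτ 0 1) (h.gs hτ 1 2) (h.gs hτ 0 2)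

omit [Fact ((p : O) = 0)] in
theorem CU.dif {hm : G.Id m} (h : CU P hm g) (Jm : J ≤ m) (k : CI P J (dif g' g)) : CU P hm g' :=
  fun s hs => by
    rw [mem_U, ← sub_add_sub_cancel (g' s).val (g s).val 1]
    exact In.add (Jm (k s hs)) (h s hs)

/-- close connections have close Chern-Simons terms -/
theorem CS_sub_mem {hm : G.Id m} (hJ : G.Id J) (Jm : J ≤ m) (h : CU P hm g) (k : CI P J (dif g' g))
    {c : Ch K 3 X} (hc : c ∈ P.ch K 3) : ev K (CS g') c - ev K (CS g) c ∈ m * J := by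
  have h' := h.dif Jm k
  have e1 := CS_var hm hJ h h' h.cur h'.cur k hc
  have e2 : ev K (cup (lB G) 3 (dif g' g) (cur g')) c ∈ m * J := ev_ideal (fun σ hσ => by
    rw [cup12, lB_apply, mul_comm m]
    exact lam_mem (hJ.mul hm) (o_mul_mem hJ hm (D_mem hJ (k.df hσ 0 1))
      (h'.cur _ (e3_mem _ hσ (by decide) (by decide))))) hc
  have e3 : ev K (cup (lB G) 3 (cur g) (dif g' g)) c ∈ m * J := ev_ideal (fun σ hσ => by
    rw [cup21, lB_apply]
    exact lam_mem (hm.mul hJ) (o_mul_mem hm hJ (D_mem hm (h.cur _ (e3_mem _ hσ (by decide)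
      (by decide)))) (k.df hσ 2 3))) hc
  convert sub_mem (add_mem (Ideal.mul_mono_right Ideal.mul_le_left e1) (add_mem e2 e3))
    (BE_mem hJ h k (P.bd_mem hc)) using 1
  abel

theorem To.W_sub (T : To K X) {hm : G.Id m} (hJ : G.Id J) (Jm : J ≤ m) (h : CU P hm g)
    (k : CI P J (dif g' g)) {σ : Ch K 3 X} (hσ : σ ∈ P.ch K 3) (a b : (Tw G)ˣ) :
    T.W σ g' a b - T.W σ g a b ∈ m * J := by
  rw [To.W, To.W, add_sub_add_right_eq_sub]
  exact CS_sub_mem hJ Jm h k hσ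

/-- the potential of a wall family read at the vertex -/
theorem To.W_io (T : To K X) {O' : Type} [CommRing O'] [Algebra K O'] [Fact ((p : O') = 0)]
    {G' : Gr (Gm p) K O'} {φ : O' →ₐ[K] O} (hφ : G'.Hom G φ) {hm : G.Id m} (hJ : G.Id J) (Jm : J ≤ m)
    (h : CU P hm g) {k : Cn G' X} (hk : CI P J (dif (mp hφ k) g)) {σ : Ch K 3 X} (hσ : σ ∈ P.ch K 3)
    (a b : (Tw G')ˣ) : φ (T.W σ k a b) - T.W σ g (um hφ a) (um hφ b) ∈ m * J :=
  T.W_mp hφ σ k a b ▸ T.W_sub hJ Jm h hk hσ _ _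

namespace Vt

variable {t : Fin 3 → Bool} (V : Vt K X t) {x a b : Fin 3 → (Tw G)ˣ}

/-- the vertex identity; `L` only controls the end -/
theorem ident (hm : G.Id m) (hn : IsNilpotent m) (hN : G.Id N) (hL : G.Id L) (Nm : N ≤ m)
    (Lm : L ≤ m) (NL : N * N * N ≤ L) (hx : ∀ j, x j ∈ U hN) (hM : ∀ j, t j = true → a j = x j)
    (ha : ∀ j, t j = false → In L ((a j).val - (1 + V.la x j)))
    (hb : ∀ j, In L ((b j).val - if t j then 1 + V.la x j else (x j).val))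
    (h : ∀ s ∈ V.M.P.S 1, In L ((g s).val - (1 + V.M.v (fun i => (x i).val - 1) s)))
    (e : ∀ j, (V.T j).Bc g (a j) (b j)) {r : Ch K 4 X} {σ : Fin 3 → Ch K 3 X}
    (hσ : bd K r = V.c + ∑ j, if t j then σ j else -σ j) :
    (∑ j, if t j then (V.T j).W (σ j) g (a j) (b j) else -(V.T j).W (σ j) g (a j) (b j)) + V.A x a -
      ev K (PP g) r ∈ L * L ⊔ m * (N * N * N) := by
  rw [← CS_bd, hσ, map_add, map_sum]
  convert neg_mem (V.end_eq hm hn hN hL Nm Lm NL hx hM ha hb h e) using 1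
  have : ∀ j, (if t j then (V.T j).W (σ j) g (a j) (b j) else -(V.T j).W (σ j) g (a j) (b j)) =
      ev K (CS g) (if t j then σ j else -σ j) + if t j then (V.T j).cap (a j) ((b j).val - 1) else
        -(V.T j).cap (a j) ((b j).val - 1) := fun j => by
    split_ifs
    · rfl
    · rw [map_neg, To.W, neg_add]
  simp only [this, sum_add_distrib]
  abel

/-- the vertex identity for the potentials `W j` of the walls -/
theorem phi (hm : G.Id m) (hn : IsNilpotent m) (hN : G.Id N) (hL : G.Id L) (Nm : N ≤ m)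
    (Lm : L ≤ m) (NL : N * N * N ≤ L) (hx : ∀ j, x j ∈ U hN) (hM : ∀ j, t j = true → a j = x j)
    (ha : ∀ j, t j = false → In L ((a j).val - (1 + V.la x j)))
    (hb : ∀ j, In L ((b j).val - if t j then 1 + V.la x j else (x j).val))
    (h : ∀ s ∈ V.M.P.S 1, In L ((g s).val - (1 + V.M.v (fun i => (x i).val - 1) s)))
    (e : ∀ j, (V.T j).Bc g (a j) (b j)) {r : Ch K 4 X} {σ : Fin 3 → Ch K 3 X}
    (hσ : bd K r = V.c + ∑ j, if t j then σ j else -σ j) {W : Fin 3 → O}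
    (hW : ∀ j, W j - (V.T j).W (σ j) g (a j) (b j) ∈ H) :
    (∑ j, if t j then W j else -W j) + V.A x a - ev K (PP g) r ∈ L * L ⊔ (m * (N * N * N) ⊔ H) := by
  have e1 : ∑ j, ((if t j then W j else -W j) - if t j then (V.T j).W (σ j) g (a j) (b j) else
      -(V.T j).W (σ j) g (a j) (b j)) ∈ H := sum_mem fun j _ => by
    split_ifs
    exacts [hW j, by simpa [neg_add_eq_sub] using neg_mem (hW j)]
  rw [← sup_assoc]
  convert Submodule.add_mem_sup (V.ident hm hn hN hL Nm Lm NL hx hM ha hb h e hσ) e1 using 1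
  rw [sum_sub_distrib]
  abel

end Vt

end Crest.Agent.N255.Cs

end
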