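import Crest.Agent.N255.Cs.Id
import Crest.Agent.N255.Sl.Neu

/-!
# Row 255 (helper31): change of rings for located data, change of the meridians in the action
-/

set_option autoImplicit false
open Finset

noncomputable section

namespace N255.Sl.Zn

variable {A A' : Type*} [CommRing A] [CommRing A'] {κ α β ι : Type*} (Z : Zn A κ α ι)

/-- the image of located data -/
def map (φ : A →+* A') : Zn A' κ α ι where
  Wt n := (Z.Wt n).map φ
  m := Z.m.map φ
  μ := Z.μ
  γ := Z.γ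
  pos := Z.pos
  pa := Z.pa
  sl := Z.sl
  I k := (Z.I k).map φ
  E' k := (Z.E' k).map φ
  IK e := (Z.IK e).map φ
  ε a := φ (Z.ε a)
  E a := φ (Z.E a)

/-- new macroscopic generators -/
def ad (e : β → A) : Zn A κ (α ⊕ β) ι :=
  { Z with pa := Sum.elim Z.pa 0, ε := Sum.elim Z.ε 0, E := Sum.elim Z.E e }

variable {Z}

theorem map_one' (φ : A →+* A') (x : A) : (Ideal.span {x}).map φ = Ideal.span {φ x} := by
  rw [Ideal.map_span, Set.image_singleton]

theorem Ok.map (h : Z.Ok) (φ : A →+* A') : (Z.map φ).Ok where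
  fl := ⟨by simp [Zn.map, h.fl.zero, Ideal.map_top], fun e => Ideal.map_mono (h.fl.anti e),
    fun a b => (Ideal.map_mul φ _ _).ge.trans (Ideal.map_mono (h.fl.mul a b))⟩
  nil := by
    obtain ⟨n, hn⟩ := h.nil
    exact ⟨n, by simp [Zn.map, ← Ideal.map_pow, hn]⟩
  mle := Ideal.map_mono h.mle
  gap := h.gap
  hI k := by
    simpa only [Zn.map, Ideal.map_sup, Ideal.map_iSup, map_one'] using Ideal.map_mono (f := φ) (h.hI k)
  hE1 k := by
    simpa only [Zn.map, Ideal.map_sup, Ideal.map_iSup, Ideal.map_mul, map_one'] using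
      Ideal.map_mono (f := φ) (h.hE1 k)
  hE2 k hk := by
    simpa only [Zn.map, Ideal.map_sup, Ideal.map_iSup, Ideal.map_mul] using
      Ideal.map_mono (f := φ) (h.hE2 k hk)

theorem map_Eps (φ : A →+* A') : (Z.map φ).Eps = Z.Eps.map φ := by
  rw [Eps, Eps, Ideal.map_span, ← Set.range_comp]; rfl

theorem map_Loc (φ : A →+* A') : (Z.map φ).Loc = Z.Loc.map φ := by
  simp only [Loc, M, Cb, Ideal.map_iSup, Ideal.map_mul, map_one']; rfl

theorem map_Rs (φ : A →+* A') : (Z.map φ).Rs = Z.Rs.map φ := by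
  simp only [Rs, map_Eps, map_Loc, At, Cb, Ideal.map_sup, Ideal.map_iSup, Ideal.map_mul, map_one']; rfl

theorem Ok.ad (h : Z.Ok) (e : β → A) : (Z.ad e).Ok := by
  refine ⟨h.fl, h.nil, h.mle, h.gap, fun k => (h.hI k).trans (sup_le_sup_left ?_ _),
    fun k => (h.hE1 k).trans (sup_le_sup_right ?_ _), h.hE2⟩
  · exact iSup₂_le fun a ha => le_iSup₂_of_le (Sum.inl a) ha le_rfl
  · exact iSup₂_le fun a ha => le_iSup₂_of_le (Sum.inl a) ha le_rfl

theorem Loc_ad (e : β → A) : Z.Loc ≤ (Z.ad e).Loc :=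
  iSup_le fun a => le_iSup_of_le (Sum.inl a) le_rfl

theorem Rs_ad (e : β → A) : Z.Rs ≤ (Z.ad e).Rs := by
  have h : Z.Eps ≤ (Z.ad e).Eps := Ideal.span_mono (by rintro _ ⟨a, rfl⟩; exact ⟨Sum.inl a, rfl⟩)
  refine sup_le_sup (sup_le_sup (iSup_le fun a => le_iSup_of_le (Sum.inl a) ?_)
    (Ideal.mul_mono (Loc_ad e) (Loc_ad e))) (Ideal.mul_mono h h)
  exact Ideal.mul_mono_right (iSup_le fun b => le_iSup_of_le (Sum.inl b) le_rfl)

theorem Ok.E_mem_Loc (h : Z.Ok) {a : α} (ha : Z.pa a ≤ 3 * Z.γ) : Z.E a ∈ Z.Loc :=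
  h.fl.span_le_Cb (g := fun a => Z.pa a - (2 * Z.γ + Z.γ)) (x := Z.E) (by omega)
    (Ideal.mem_span_singleton_self _)

theorem Ok.Pu_le (h : Z.Ok) : Z.Pu ≤ Z.Loc := iSup₂_le fun a ha =>
  (Ideal.span_singleton_le_iff_mem _).2 (h.E_mem_Loc (by omega))

theorem Ok.ad_le (h : Z.Ok) (e : β → A) : Ideal.span (Set.range e) ≤ (Z.ad e).Loc :=
  Ideal.span_le.2 (by
    rintro _ ⟨b, rfl⟩
    exact (h.ad e).E_mem_Loc (a := Sum.inr b) (Nat.zero_le _))

theorem sum_ad [Fintype α] [Fintype β] (e : β → A) :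
    ∑ a, (Z.ad e).ε a * (Z.ad e).E a = ∑ a, Z.ε a * Z.E a := by
  simp [ad, Fintype.sum_sum_type]

theorem Pu_adj {X : Ideal A} {e : ι} {r : α → A} (h0 : ∀ a, Z.ε a = 0 → r a = 0) :
    (Z.adj X e r).Pu = Z.Pu :=
  iSup_congr fun a => iSup_congr_Prop Iff.rfl fun ha => by
    rw [show (Z.adj X e r).E a = Z.E a + r a from rfl, h0 a ha.1, add_zero]

end N255.Sl.Zn

namespace Crest.Agent.N255.Cs

open Tw Tp

variable {X : Type} [TopologicalSpace X] {K : Type} [CommRing K] {p : ℕ} [hpp : Fact p.Prime]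
  {O : Type} [CommRing O] [Algebra K O] {G : Gr (Gm p) K O} {m N Y Ξ : Ideal O}

namespace Vt

variable {t : Fin 3 → Bool} (V : Vt K X t) {x x' a : Fin 3 → (Tw G)ˣ}

theorem la_sub (hm : G.Id m) (hΞ : G.Id Ξ) (hx : ∀ j, x j ∈ U hm) (hx' : ∀ j, x' j ∈ U hm)
    (h : ∀ j, In Ξ ((x j).val - (x' j).val)) (j : Fin 3) : In (m * Ξ) (V.la x j - V.la x' j) := by
  have k : ∀ i i', In (m * Ξ) (((x i).val - 1) * ((x i').val - 1) -
      ((x' i).val - 1) * ((x' i').val - 1)) := fun i i' =>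
    In.eq (In.add (o_mul_mem hm hΞ (hx i) (h i')) (mul_comm Ξ m ▸ o_mul_mem hΞ hm (h i) (hx' i')))
      (by noncomm_ring)
  rw [la, la, ← smul_sub]
  exact In.zsmul (In.eq (In.sub (k (j + 1) (j + 2)) (k (j + 2) (j + 1))) (by abel)) _

theorem S_upd (x : Fin 3 → (Tw G)ˣ) (j : Fin 3) (y : (Tw G)ˣ) :
    V.S x - V.S (Function.update x j y) = (V.T j).s • lam G (((x j).val - y.val) * V.la x j) := by
  have : V.la (Function.update x j y) j = V.la x j := by
    rw [la, la, Function.update_of_ne (by fin_cases j <;> decide),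
      Function.update_of_ne (by fin_cases j <;> decide)]
  rw [V.S_eq x j, V.S_eq _ j, this, Function.update_self, ← smul_sub, ← map_sub, ← sub_mul,
    sub_sub_sub_cancel_right]

theorem S_sub (hm : G.Id m) (hΞ : G.Id Ξ) (hx : ∀ j, x j ∈ U hm) (hx' : ∀ j, x' j ∈ U hm)
    (h : ∀ j, In Ξ ((x j).val - (x' j).val)) :
    V.S x - V.S x' - ∑ j, (V.T j).s • lam G (((x j).val - (x' j).val) * V.la x j) ∈ Ξ * Ξ := by
  let y := Function.update x 0 (x' 0)
  let u := Function.update y 1 (x' 1)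
  have e : Function.update u 2 (x' 2) = x' := funext fun j => by fin_cases j <;> rfl
  have k : ∀ v : Fin 3 → (Tw G)ˣ, (∀ i, v i = x i ∨ v i = x' i) → ∀ j,
      (V.T j).s • lam G (((x j).val - (x' j).val) * V.la v j) -
        (V.T j).s • lam G (((x j).val - (x' j).val) * V.la x j) ∈ Ξ * Ξ := fun v hv j => by
    rw [← smul_sub, ← map_sub, ← mul_sub]
    refine Submodule.smul_of_tower_mem _ _ (lam_mem (hΞ.mul hΞ) (o_mul_mem hΞ hΞ (h j)
      (Ideal.mul_le_right (V.la_sub hm hΞ (fun i => ?_) hx (fun i => ?_) j))))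
    · rcases hv i with e | e <;> rw [e]
      exacts [hx i, hx' i]
    · rcases hv i with e | e <;> rw [e]
      exacts [by rw [sub_self]; exact in_zero, In.eq (In.neg (h i)) (by abel)]
  have e0 := V.S_upd x 0 (x' 0)
  have e1 := V.S_upd y 1 (x' 1)
  have e2 := V.S_upd u 2 (x' 2)
  rw [e] at e2
  convert add_mem (k y (fun i => by fin_cases i <;> simp [y]) 1)
    (k u (fun i => by fin_cases i <;> simp [u, y]) 2) using 1
  rw [Fin.sum_univ_three, ← e0]
  change _ = (V.T 1).s • lam G (((y 1).val - _) * _) - _ + ((V.T 2).s • lam G (((u 2).val - _) * _) - _)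
  rw [← e1, ← e2]
  abel

variable [Fact ((p : O) = 0)]

/-- changing the meridians of the `L` slots -/
theorem A_sub (hm : G.Id m) (hN : G.Id N) (hY : G.Id Y) (hΞ : G.Id Ξ) (Nm : N ≤ m)
    (hx : ∀ j, x j ∈ U hN) (hx' : ∀ j, x' j ∈ U hm) (ha : ∀ j, t j = false → a j ∈ U hm)
    (h : ∀ j, In Ξ ((x j).val - (x' j).val)) (hM : ∀ j, t j = true → x j = x' j)
    (hy : ∀ j, t j = false → In Y ((a j).val - (1 + V.la x j))) :
    V.A x a - V.A x' a ∈ Ξ * (Ξ ⊔ Y ⊔ m * (N * N)) := by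
  have hI := hY.sup (hN.mul hN)
  have e1 : ∀ j, (if t j then 0 else (V.T j).CC (a j) (x j)) -
      (if t j then 0 else (V.T j).CC (a j) (x' j)) +
        (V.T j).s • lam G (((x j).val - (x' j).val) * V.la x j) ∈ Ξ * (Ξ ⊔ Y ⊔ m * (N * N)) :=
    fun j => by
    rcases ht : t j with _ | _
    swap
    · simp [hM j ht]
    have h1 := (V.T j).CC_two hm hI hΞ (a := 1) (a' := a j) (one_mem _) (ha j ht) (hx' j) (Nm (hx j))
      (In.eq (In.add (Ideal.mem_sup_left (hy j ht)) (Ideal.mem_sup_right (V.la_in hN hx j)))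
        (by rw [Units.val_one]; abel)) (h j)
    have h2 := Submodule.smul_of_tower_mem _ (V.T j).s (lam_mem (hΞ.mul hY) (o_mul_mem hΞ hY (h j)
      (hy j ht)))
    have l1 : m * (Y ⊔ N * N) * Ξ ≤ Ξ * (Ξ ⊔ Y ⊔ m * (N * N)) := by
      rw [mul_comm, Ideal.mul_sup]
      exact Ideal.mul_mono_right (sup_le_sup_right (le_sup_of_le_right Ideal.mul_le_right) _)
    convert sub_mem (l1 h1) (Ideal.mul_mono_right (le_sup_of_le_left le_sup_right) h2) using 1
    simp only [To.one_CC, Units.val_one, Bool.false_eq_true, if_false]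
    rw [lam_comm (x := (a j).val - 1), show (a j).val - (1 + V.la x j) = (a j).val - 1 - V.la x j by abel,
      mul_sub ((x j).val - (x' j).val) _ (V.la x j), map_sub, smul_sub]
    abel
  have e2 := sum_mem fun j (_ : j ∈ univ) => e1 j
  rw [sum_add_distrib, sum_sub_distrib] at e2
  convert neg_mem (add_mem e2 (Ideal.mul_mono_right (le_sup_of_le_left le_sup_left)
    (V.S_sub hm hΞ (fun j => Nm (hx j)) hx' h))) using 1
  rw [A, A]; abel

end Vt

end Crest.Agent.N255.Cs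

end
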