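import Crest.Agent.N255.Cs.IdA
import Crest.Agent.N255.Tg.PZ
import Crest.Agent.N255.Wt.Vb

/-!
# Row 255 (helper31): from the ring without the variables `m` to the ring of the vertex
-/

set_option autoImplicit false
set_option linter.unusedSectionVars false
open Finset Sum

noncomputable section

namespace Crest.Agent.N255.Cs

open Tw Tp _root_.N255.Dr _root_.N255.Dr.O _root_.N255.Core
open _root_.N255.Sl (Zn)
open Tg (Xm GA Ga Wm grO grO_z hom_of_z id_mx)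

variable {p : ℕ} [Fact p.Prime] {s : Fin 3 → Type} [∀ i, Fintype (s i)]
  {w : ∀ i, Wall p (Gm p) (g0 p) (s i)} {t : Fin 3 → Bool} {V B U : Type} [Fintype V] [Fintype B]
  [Fintype U] {X : Type} [TopologicalSpace X]

namespace Gv

variable (g : Gv w t V) (dB : B → Gm p)

/-- the graded variables together with the far variables -/
def ext : Gv w t (V ⊕ B) where
  em q := inl (g.em q)
  inj _ h _ h' e := g.inj h h' (inl_injective e)
  G := grO p (ZMod p) (Sum.elim g.d dB)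
  d := Sum.elim g.d dB
  hO := grO_z _
  dy := g.dy
  dm := g.dm

theorem hom_inl : g.G.Hom (g.ext dB).G (rn inl) :=
  hom_of_z g.hO fun v => by rw [rn_z]; exact (g.ext dB).hO (inl v)

theorem hom_pz : (g.ext dB).G.Hom g.G (Tg.pz p V B) :=
  hom_of_z (g.ext dB).hO (by
    rintro (v | b)
    · rw [Tg.pz_inl]; exact g.hO v
    · rw [Tg.pz_inr]; exact g.G.hg_zero _)

theorem inl_a (i : Fin 3) : um (g.hom_inl dB) (g.a i) = (g.ext dB).a i :=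
  uz_mp _ _ _ fun _ _ => rn_z _ _

theorem inl_x (i : Fin 3) : um (g.hom_inl dB) (g.x i) = (g.ext dB).x i :=
  uz_mp _ _ _ fun _ _ => rn_z _ _

theorem pz_a (i : Fin 3) : um (g.hom_pz dB) ((g.ext dB).a i) = g.a i :=
  uz_mp _ _ _ fun _ _ => Tg.pz_inl _

theorem pz_x (i : Fin 3) : um (g.hom_pz dB) ((g.ext dB).x i) = g.x i :=
  uz_mp _ _ _ fun _ _ => Tg.pz_inl _

theorem pz_N {f : O p (ZMod p) (V ⊕ B)} (hf : f ∈ (g.ext dB).N) : Tg.pz p V B f ∈ g.N :=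
  (g.ext dB).N_le (I := g.N.comap (Tg.pz p V B)) (fun q h1 h2 => by
    rw [Ideal.mem_comap, show (g.ext dB).em q = inl (g.em q) from rfl, Tg.pz_inl]
    exact Ideal.subset_span ⟨q, h1, h2, rfl⟩) hf

variable (T : Vt (ZMod p) X t)

theorem A_eq' : T.A g.x g.a = Ga w t (c w T) (fun q => z (g.em q)) + g.Ps T := g.A_eq T

theorem rn_Ga : rn inl (Ga w t (c w T) fun q => (z (g.em q) : O p (ZMod p) V)) =
    Ga w t (c w T) fun q => (z (inl (g.em q)) : O p (ZMod p) (V ⊕ B)) := by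
  simp only [Ga, map_sum, apply_ite (rn inl), map_smul, map_mul, rn_z, map_zero]

theorem A_ext : T.A (g.ext dB).x (g.ext dB).a =
    Ga w t (c w T) (fun q => z (inl (g.em q))) + rn inl (g.Ps T) := by
  rw [← g.rn_Ga T, ← map_add, ← g.A_eq' T, ← T.A_mp (g.hom_inl dB)]
  simp only [inl_a, inl_x]

/-- the ideal of the `y - l` -/
def Yl : Ideal (O p (ZMod p) V) := g.G.sp {f | ∃ j, t j = false ∧ f = o g.G ((g.a j).val - (1 + T.la g.x j))}

/-- the rows `∂ / ∂ m` detect the `y - l` -/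
theorem Yl_le (sur : ∀ i γ, ∃ y, (w i).kd y = none ∧ (w i).deg y = γ) (he : T.e * T.e = 1)
    (hs : (T.T 0).s ≠ 0) {J : Ideal (O p (ZMod p) V)}
    (hJ : ∀ q : Xm w t, pd (g.em q.1.1) (T.A g.x g.a) ∈ J) (h3 : mx * (g.N * g.N) ≤ J) :
    g.Yl T ≤ J := by
  refine Tg.nak Tg.mx_nil (Ideal.span_le.2 ?_)
  rintro _ ⟨γ, _, ⟨j, hj, rfl⟩, rfl⟩
  obtain ⟨y, hy, rfl⟩ := sur j γ
  have hq : Ok w t (⟨j, y⟩, true) := Or.inr ⟨rfl, hj, hy⟩
  have hY := ((g.G.id_sp _).sup (g.id_N.mul g.id_N) : g.G.Id (g.Yl T ⊔ g.N * g.N)).inf g.id_N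
  have h1 := T.der_A_m (dg_pd g.hO (g.em (⟨j, y⟩, true))) j hj (c := 1)
    (fun i hi => g.pd_x hq i (Or.inl hi.symm)) (fun i _ => g.pd_a hq i (Or.inr (Or.inl rfl)))
    (by simpa [hj] using g.pd_x_one hy) g.id_N hY inf_le_right
    ⟨In.eq (In.add (Ideal.mem_sup_left (Gr.mem_sp ⟨j, hj, rfl⟩))
      (Ideal.mem_sup_right (T.la_in g.id_N g.x_N j))) (by abel), g.a_N j⟩ (g.x_N j)
  have l1 : g.N * ((g.Yl T ⊔ g.N * g.N) ⊓ g.N) ≤ J ⊔ mx * g.Yl T := by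
    refine (Ideal.mul_mono g.N_mx inf_le_left).trans ?_
    rw [Ideal.mul_sup, sup_comm]
    exact sup_le_sup_right h3 _
  have h2 := sub_mem (Ideal.mem_sup_left (hJ ⟨⟨(⟨j, y⟩, true), hj, hy⟩, rfl⟩)) (l1 h1)
  rw [sub_sub_cancel, g.dm j y hj hy, sub_sub_cancel, one_smul, smul_comm, ← smul_assoc,
    sg_symm (by simp [g0])] at h2
  simpa only [SetLike.mem_coe, smul_smul, inv_mul_cancel₀ (c_ne (w := w) T he hs j y), one_smul] using
    Submodule.smul_of_tower_mem _ (c w T j y)⁻¹ (show c w T j y • _ ∈ _ from h2)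

end Gv

/-- graded variables without `m`; `b j` is the second boundary datum of the slot `j` -/
structure Gu (p : ℕ) [Fact p.Prime] (s : Fin 3 → Type) (t : Fin 3 → Bool) (U : Type) [Fintype U] where
  ys : ∀ i, Finset (s i)
  cu : ∀ i, s i → U
  G : Gr (Gm p) (ZMod p) (O p (ZMod p) U)
  d : U → Gm p
  hO : ∀ v, G.Hg (d v) (z v)
  b : Fin 3 → (Tw G)ˣ
  hb : ∀ j, b j ∈ Tw.U (id_mx hO)

namespace Gu

variable (u : Gu p s t U) (T : Vt (ZMod p) X t)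

/-- the first boundary datum `1 + y` -/
def a (i : Fin 3) : (Tw u.G)ˣ := uz u.hO (u.ys i) (u.cu i)

/-- the meridian -/
def x (i : Fin 3) : (Tw u.G)ˣ := if t i then u.a i else u.b i

/-- the ideal of the meridians -/
def N : Ideal (O p (ZMod p) U) := u.G.sp {f | ∃ j, f = o u.G ((u.x j).val - 1)}

/-- the ideal of the end -/
def XI : Ideal (O p (ZMod p) U) :=
  u.G.sp {f | ∃ j, t j = false ∧ f = o u.G ((u.a j).val - (1 + T.la u.x j))} ⊔ u.N * u.N * u.N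

theorem id_N : u.G.Id u.N := u.G.id_sp _

theorem id_XI : u.G.Id (u.XI T) := (u.G.id_sp _).sup ((u.id_N.mul u.id_N).mul u.id_N)

theorem a_mx (i : Fin 3) : u.a i ∈ Tw.U (id_mx u.hO) := uz_mem _ _ fun _ _ => z_mem _

theorem x_mx (i : Fin 3) : u.x i ∈ Tw.U (id_mx u.hO) := by
  unfold x; split_ifs; exacts [u.a_mx i, u.hb i]

theorem x_N (i : Fin 3) : u.x i ∈ Tw.U u.id_N := Gr.mem_sp ⟨i, rfl⟩

theorem N_mx : u.N ≤ mx := (id_mx u.hO).sp_le.2 (by rintro _ ⟨j, rfl⟩; exact u.x_mx j)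

theorem x_M {i : Fin 3} (h : t i = true) : u.x i = u.a i := if_pos h

theorem x_L {i : Fin 3} (h : t i = false) : u.x i = u.b i := if_neg (by simp [h])

theorem a_XI {j : Fin 3} (h : t j = false) : In (u.XI T) ((u.a j).val - (1 + T.la u.x j)) :=
  Ideal.mem_sup_left (Gr.mem_sp ⟨j, h, rfl⟩)

theorem XI_mx : u.XI T ≤ mx := sup_le ((id_mx u.hO).sp_le.2 (by
  rintro _ ⟨j, -, rfl⟩
  exact In.eq (In.sub (u.a_mx j) ((Ideal.mul_le_left.trans u.N_mx) (T.la_in u.id_N u.x_N j)))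
    (by abel))) (Ideal.mul_le_right.trans u.N_mx)

end Gu

variable (B) in
/-- the passage to the variables of the vertex -/
structure Pg (u : Gu p s t U) (g : Gv w t V) where
  hys : ∀ i, u.ys i = ys (w i)
  dB : B → Gm p
  inc : U → V ⊕ B
  inj : Function.Injective inc
  hd : ∀ v, Sum.elim g.d dB (inc v) = u.d v
  nm : ∀ q : Xm w t, inl (g.em q.1.1) ∉ Set.range inc
  hy : ∀ i y, (w i).kd y = none → inc (u.cu i y) = inl (g.em (⟨i, y⟩, false))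
  sur : ∀ i γ, ∃ y, (w i).kd y = none ∧ (w i).deg y = γ

variable (w t) in
/-- the variables `y` and `m` -/
def Qn : Type := {q // Ok w t q ∧ (w q.1.1).kd q.1.2 = none}

instance : Fintype (Qn w t) := @Fintype.ofFinite _ Subtype.finite

instance : Fintype (Xm w t) := Fintype.ofFinite _

variable (w t V B) in
/-- the new generators -/
abbrev Ad : Type := Xm w t ⊕ (V ⊕ B) × Qn w t × Qn w t

namespace Pg

variable {u : Gu p s t U} {g : Gv w t V} (P : Pg B u g) (T : Vt (ZMod p) X t)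

/-- the change of rings -/
abbrev ka : O p (ZMod p) U →ₐ[ZMod p] O p (ZMod p) (V ⊕ B) := rn P.inc

/-- the variables at the vertex -/
abbrev S : Gv w t (V ⊕ B) := g.ext P.dB

theorem hom : u.G.Hom P.S.G P.ka :=
  hom_of_z u.hO fun v => by rw [rn_z, ← P.hd]; exact P.S.hO _

theorem um_a (i : Fin 3) : um P.hom (u.a i) = P.S.a i := by
  rw [Gu.a, P.hys]
  exact uz_mp _ _ _ fun y hy => by rw [rn_z, P.hy i y (mem_ys.1 hy)]; rfl

/-- the generators `m - w` -/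
def xi (q : Xm w t) : O p (ZMod p) (V ⊕ B) :=
  P.S.G.pr (g0 p - (w q.1.1.1.1).deg q.1.1.1.2)
    (o _ ((P.S.x q.1.1.1.1).val - (um P.hom (u.x q.1.1.1.1)).val))

/-- the new generators -/
def gen : Ad w t V B → O p (ZMod p) (V ⊕ B) :=
  Sum.elim P.xi fun q => z q.1 * (z (P.S.em q.2.1.1) * z (P.S.em q.2.2.1))

/-- the located data at the vertex -/
def zn {κ α ι : Type*} (Z : Zn (O p (ZMod p) U) κ α ι) :
    Zn (O p (ZMod p) (V ⊕ B)) κ (α ⊕ Ad w t V B) ι := (Z.map P.ka.toRingHom).ad P.gen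

/-- the ideal of the `m - w` -/
def Xi : Ideal (O p (ZMod p) (V ⊕ B)) := Ideal.span (Set.range P.xi)

theorem id_Xi : P.S.G.Id P.Xi := P.S.G.id_span_hg (by rintro _ ⟨q, rfl⟩; exact ⟨_, Gr.hg_pr _ _ _⟩)

theorem x_M {j : Fin 3} (h : t j = true) : P.S.x j = um P.hom (u.x j) := by
  rw [u.x_M h, um_a, P.S.a_eq j h]

theorem x_Xi (j : Fin 3) : In P.Xi ((P.S.x j).val - (um P.hom (u.x j)).val) := by
  rcases ht : t j with _ | _
  · refine Gr.mem_of_pr (G := P.S.G) fun γ => ?_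
    obtain ⟨y, hy, e⟩ := P.sur j (g0 p - γ)
    refine Ideal.subset_span ⟨⟨⟨(⟨j, y⟩, true), ht, hy⟩, rfl⟩, ?_⟩
    simp only [xi, e, sub_sub_cancel]
  · rw [P.x_M ht, sub_self]; exact in_zero

theorem x_mx (j : Fin 3) : um P.hom (u.x j) ∈ Tw.U (id_mx P.S.hO) :=
  um_mem _ _ _ (fun _ => Tg.rn_mem _) (u.x_mx j)

theorem Xi_mx : P.Xi ≤ mx := Ideal.span_le.2 (by
  rintro _ ⟨q, rfl⟩
  exact id_mx P.S.hO _ _ (U_sub _ (P.S.N_mx (P.S.x_N _)) (P.x_mx _)))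

theorem N_le : u.N.map P.ka ≤ P.S.N ⊔ P.Xi :=
  Ideal.map_le_iff_le_comap.2 ((P.hom.comap (P.S.id_N.sup P.id_Xi)).sp_le.2 (by
    rintro _ ⟨j, rfl⟩
    rw [Ideal.mem_comap, ← o_map P.hom, map_sub, map_one, ← val_um]
    exact In.eq (In.sub (Ideal.mem_sup_left (P.S.x_N j)) (Ideal.mem_sup_right (P.x_Xi j))) (by abel)))

theorem N3_le : (u.N * u.N * u.N).map P.ka ≤ P.S.N * P.S.N * P.S.N ⊔
    P.Xi * (P.Xi ⊔ P.S.N * P.S.N) := by
  rw [Ideal.map_mul, Ideal.map_mul]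
  refine (Ideal.mul_mono (Ideal.mul_mono P.N_le P.N_le) P.N_le).trans ?_
  have h1 : ∀ J, P.Xi * P.Xi * J ≤ P.S.N * P.S.N * P.S.N ⊔ P.Xi * (P.Xi ⊔ P.S.N * P.S.N) := fun J =>
    le_sup_of_le_right (Ideal.mul_le_left.trans (Ideal.mul_mono_right le_sup_left))
  have h2 : P.Xi * (P.S.N * P.S.N) ≤ P.S.N * P.S.N * P.S.N ⊔ P.Xi * (P.Xi ⊔ P.S.N * P.S.N) :=
    le_sup_of_le_right (Ideal.mul_mono_right le_sup_right)
  have h0 : P.S.N * P.S.N * P.S.N ≤ P.S.N * P.S.N * P.S.N ⊔ P.Xi * (P.Xi ⊔ P.S.N * P.S.N) := le_sup_left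
  generalize P.S.N * P.S.N * P.S.N ⊔ P.Xi * (P.Xi ⊔ P.S.N * P.S.N) = R at *
  simp only [Ideal.sup_mul, Ideal.mul_sup, sup_le_iff]
  refine ⟨⟨⟨h0, ?_⟩, ?_, ?_⟩, ⟨?_, ?_⟩, ?_, h1 _⟩
  all_goals first | exact le_of_eq_of_le (by ring1) h2 | exact le_of_eq_of_le (by ring1) (h1 P.S.N)

/-- the `y - l` computed with the meridians `w` -/
theorem a_XI {j : Fin 3} (h : t j = false) :
    In ((u.XI T).map P.ka) ((P.S.a j).val - (1 + T.la (fun i => um P.hom (u.x i)) j)) := by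
  have := Ideal.mem_map_of_mem P.ka (u.a_XI T h)
  rwa [← o_map P.hom, map_sub, map_add, map_one, ← val_um, um_a, ← T.la_mp] at this

theorem la_sub (j : Fin 3) : In (mx * P.Xi) (T.la P.S.x j - T.la (fun i => um P.hom (u.x i)) j) :=
  T.la_sub (id_mx P.S.hO) P.id_Xi (fun j => P.S.N_mx (P.S.x_N j)) P.x_mx P.x_Xi j

theorem mNN_le : mx * (P.S.N * P.S.N) ≤ Ideal.span (Set.range P.gen) := by
  rw [Gv.N, mx, Ideal.span_mul_span', Ideal.span_mul_span']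
  refine Ideal.span_mono ?_
  rintro _ ⟨_, ⟨v, rfl⟩, _, ⟨_, ⟨q, h1, h2, rfl⟩, _, ⟨q', h1', h2', rfl⟩, rfl⟩, rfl⟩
  exact ⟨inr (v, ⟨q, h1, h2⟩, ⟨q', h1', h2'⟩), rfl⟩

theorem Xi_le : P.Xi ≤ Ideal.span (Set.range P.gen) :=
  Ideal.span_mono (by rintro _ ⟨q, rfl⟩; exact ⟨inl q, rfl⟩)

variable {κ α ι : Type*} {Z : Zn (O p (ZMod p) U) κ α ι}

theorem ok (h : Z.Ok) : (P.zn Z).Ok := (h.map _).ad _

theorem GA_eq (jo : ∀ i, O p (ZMod p) (s i) →ₐ[ZMod p] O p (ZMod p) U) (Ps : O p (ZMod p) V) :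
    GA w t (fun i => P.ka.comp (jo i)) Ps =
      P.ka (∑ i, if t i = true then jo i (w i).W else -jo i (w i).W) + rn inl Ps := by
  simp only [GA, map_sum, apply_ite P.ka, map_neg, AlgHom.comp_apply]

/-- the potential at the vertex -/
abbrev Phi (jo : ∀ i, O p (ZMod p) (s i) →ₐ[ZMod p] O p (ZMod p) U) : O p (ZMod p) (V ⊕ B) :=
  Ga w t (Gv.c w T) (fun q => z (inl (g.em q))) + GA w t (fun i => P.ka.comp (jo i)) (g.Ps T)

/-- **the identity at the vertex** -/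
theorem ident [Fintype α] (h : Z.Ok) (hX : u.XI T ≤ Z.Loc)
    {jo : ∀ i, O p (ZMod p) (s i) →ₐ[ZMod p] O p (ZMod p) U} {H : Ideal (O p (ZMod p) U)}
    {HS : Ideal (O p (ZMod p) (V ⊕ B))} (hH : H.map P.ka ≤ HS) (h3 : mx * (P.S.N * P.S.N * P.S.N) ≤ HS)
    (e : ∑ i, (if t i = true then jo i (w i).W else -jo i (w i).W) + T.A u.x u.a -
      ∑ a, Z.ε a * Z.E a ∈ Z.Rs ⊔ (mx * (u.N * u.N * u.N) ⊔ H)) :
    P.Phi T jo - ∑ a, (P.zn Z).ε a * (P.zn Z).E a ∈ (P.zn Z).Rs ⊔ HS := by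
  have l0 := (h.map P.ka.toRingHom).ad_le P.gen
  have l1 : P.Xi ≤ (P.zn Z).Loc := P.Xi_le.trans l0
  have l2 : mx * (P.S.N * P.S.N) ≤ (P.zn Z).Loc := P.mNN_le.trans l0
  have l3 : (u.XI T).map P.ka ≤ (P.zn Z).Loc :=
    (Ideal.map_mono hX).trans ((Zn.map_Loc (Z := Z) _).ge.trans (Zn.Loc_ad _))
  have hm := id_mx P.S.hO
  have e1 := T.A_sub hm P.S.id_N ((P.hom.map (u.id_XI T)).sup (hm.mul P.id_Xi)) P.id_Xi P.S.N_mx
    P.S.x_N P.x_mx (fun j _ => P.S.N_mx (P.S.a_N j)) P.x_Xi (fun _ => P.x_M) fun j hj =>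
      In.eq (In.sub (Ideal.mem_sup_left (P.a_XI T hj)) (Ideal.mem_sup_right (P.la_sub T j))) (by abel)
  have e2 := Ideal.mem_map_of_mem P.ka e
  have l4 : ((Z.Rs ⊔ (mx * (u.N * u.N * u.N) ⊔ H)).map P.ka) ≤ (P.zn Z).Rs ⊔ HS := by
    rw [Ideal.map_sup, Ideal.map_sup, Ideal.map_mul]
    refine sup_le (le_sup_of_le_left ((Zn.map_Rs (Z := Z) _).ge.trans (Zn.Rs_ad _)))
      (sup_le ((Ideal.mul_mono (Ideal.map_le_iff_le_comap.2 fun _ h => Tg.rn_mem _ h :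
        _ ≤ mx) P.N3_le).trans ?_)
        (le_sup_of_le_right hH))
    rw [Ideal.mul_sup, mul_left_comm mx P.Xi, Ideal.mul_sup mx]
    exact sup_le (le_sup_of_le_right h3) (le_sup_of_le_left ((Ideal.mul_mono l1
      (sup_le (Ideal.mul_le_right.trans l1) l2)).trans Zn.Loc_sq))
  convert add_mem (l4 e2) (Ideal.mem_sup_left (((Ideal.mul_mono l1 (sup_le (sup_le l1 (sup_le l3
    (Ideal.mul_le_right.trans l1))) l2)).trans Zn.Loc_sq) e1)) using 1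
  rw [Phi, GA_eq, map_sub, map_add, ← T.A_mp P.hom, Gv.A_ext, zn, Zn.sum_ad, map_sum _ _ (univ : Finset α)]
  simp only [um_a, map_mul]
  change _ - ∑ a, P.ka (Z.ε a) * P.ka (Z.E a) = _
  abel

theorem pd_m (q : Xm w t) (f : O p (ZMod p) U) : pd (inl (g.em q.1.1)) (P.ka f) = 0 :=
  Tg.pd_rn_not (P.nm q) f

theorem lin_m (q : Xm w t) (f : O p (ZMod p) U) : lin (g.em q.1.1) (Tg.pz p V B (P.ka f)) = 0 := by
  rw [lin, Tg.pd_pz, pd_m, map_zero, map_zero]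

theorem hGm (jo : ∀ i, O p (ZMod p) (s i) →ₐ[ZMod p] O p (ZMod p) U) (q : Xm w t) :
    pd (inl (g.em q.1.1)) (GA w t (fun i => P.ka.comp (jo i)) (g.Ps T)) ∈ mx ^ 2 := by
  rw [GA_eq, map_add, pd_m, zero_add, Tg.pd_rn inl_injective]
  refine Tg.rn_mem_pow _ (_root_.N255.Wt.pd_mem_pow ?_ _)
  rw [pow_succ, sq]
  exact Ideal.mul_mono (Ideal.mul_mono g.N_mx g.N_mx) g.N_mx (g.Ps_N T)

theorem pz_pd_m (jo : ∀ i, O p (ZMod p) (s i) →ₐ[ZMod p] O p (ZMod p) U) (q : Xm w t) :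
    Tg.pz p V B (pd (inl (g.em q.1.1)) (P.Phi T jo)) = pd (g.em q.1.1) (T.A g.x g.a) := by
  rw [Phi, GA_eq, add_left_comm, map_add, pd_m, zero_add, ← g.rn_Ga T, ← map_add, ← g.A_eq' T, ← Tg.pd_pz,
    Tg.map_rn_inl Tg.pz_inl]

theorem pz_gen (q : (V ⊕ B) × Qn w t × Qn w t) : Tg.pz p V B (P.gen (inr q)) ∈ mx * (g.N * g.N) := by
  simp only [gen, Sum.elim_inr, map_mul]
  exact Ideal.mul_mem_mul (Tg.pz_mx _) (Ideal.mul_mem_mul
    (g.pz_N P.dB (Ideal.subset_span ⟨_, q.2.1.2.1, q.2.1.2.2, rfl⟩))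
    (g.pz_N P.dB (Ideal.subset_span ⟨_, q.2.2.2.1, q.2.2.2.2, rfl⟩)))

theorem pz_mXi (hμ : 0 < Z.μ) (a : α ⊕ Ad w t V B) {f : O p (ZMod p) (V ⊕ B)} (hf : f ∈ mx * P.Xi) :
    Tg.pz p V B f ∈ (P.zn Z).At0 (Tg.pz p V B) (Wm p (ZMod p) V Z.μ) a := by
  have : (mx * P.Xi).map (Tg.pz p V B) ≤ (P.zn Z).At0 (Tg.pz p V B) (Wm p (ZMod p) V Z.μ) a := by
    rw [Ideal.map_mul, Xi, Ideal.map_span, ← Set.range_comp, _root_.N255.Sl.span_range_eq,
      Ideal.mul_iSup]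
    refine iSup_le fun q => le_iSup_of_le (inr (inl q)) (Ideal.mul_mono_left ?_)
    refine (Ideal.map_le_iff_le_comap.2 fun _ => map_mx _ Tg.pz_mx).trans
      ((Tg.mx_le_Wm Z.μ).trans ((Tg.fl_Wm _).anti ?_))
    change 0 - _ + 1 ≤ _
    omega
  exact this (Ideal.mem_map_of_mem _ hf)

/-- the rows of the end ideal -/
theorem row (he : T.e * T.e = 1) (hs : (T.T 0).s ≠ 0) (hμ : 0 < Z.μ)
    (jo : ∀ i, O p (ZMod p) (s i) →ₐ[ZMod p] O p (ZMod p) U) {K : Ideal (O p (ZMod p) V)}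
    (hK : mx * (g.N * g.N) ≤ K) (a : α ⊕ Ad w t V B) {f : O p (ZMod p) U} (hf : f ∈ u.XI T) :
    Tg.pz p V B (P.ka f) ∈ (Tg.sp fun q : _root_.N255.Core.Xi w t => Tg.pz p V B (pd (inl (g.em q.1))
      (P.Phi T jo))) ⊔
        K ⊔ (P.zn Z).At0 (Tg.pz p V B) (Wm p (ZMod p) V Z.μ) a := by
  set J := _ ⊔ K ⊔ (P.zn Z).At0 (Tg.pz p V B) (Wm p (ZMod p) V Z.μ) a
  have k1 : K ≤ J := le_sup_of_le_left le_sup_right
  have k2 : ∀ f ∈ mx * P.Xi, Tg.pz p V B f ∈ J := fun f hf => Ideal.mem_sup_right (P.pz_mXi hμ a hf)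
  have k3 : g.Yl T ≤ J := g.Yl_le T P.sur he hs (fun q => by
    rw [← P.pz_pd_m T jo q]
    exact Ideal.mem_sup_left (Ideal.mem_sup_left (Tg.mem_sp _ q.1))) (hK.trans k1)
  have hm := id_mx P.S.hO
  have hY := (P.S.G.id_sp {f | ∃ j, t j = false ∧ f = o _ ((P.S.a j).val - (1 + T.la P.S.x j))}).sup
    (hm.mul P.id_Xi)
  have k4 : u.XI T ≤ (_ ⊔ mx * (P.S.N * P.S.N)).comap P.ka := sup_le
    ((P.hom.comap (hY.sup (hm.mul (P.S.id_N.mul P.S.id_N)))).sp_le.2 (by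
      rintro _ ⟨j, hj, rfl⟩
      rw [Ideal.mem_comap, ← o_map P.hom, map_sub, map_add, map_one, ← val_um, um_a, ← T.la_mp]
      exact Ideal.mem_sup_left (In.eq (In.add (Ideal.mem_sup_left (Gr.mem_sp ⟨j, hj, rfl⟩))
        (Ideal.mem_sup_right (P.la_sub T j))) (by abel))))
    (Ideal.map_le_iff_le_comap.1 (P.N3_le.trans (sup_le
      (le_sup_of_le_right (by rw [mul_assoc]; exact Ideal.mul_mono_left P.S.N_mx))
      (le_sup_of_le_left (le_sup_of_le_right (by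
        rw [mul_comm]
        exact Ideal.mul_mono_left (sup_le P.Xi_mx (Ideal.mul_le_left.trans P.S.N_mx))))))))
  refine (sup_le (sup_le (Ideal.span_le.2 ?_) k2) ?_ : _ ≤ J.comap (Tg.pz p V B)) (k4 hf)
  · rintro _ ⟨γ, _, ⟨j, hj, rfl⟩, rfl⟩
    rw [SetLike.mem_coe, Ideal.mem_comap, g.hom_pz P.dB, ← o_map (g.hom_pz P.dB), map_sub, map_add,
      map_one, ← val_um, g.pz_a, ← T.la_mp]
    simp only [g.pz_x]
    exact k3 (Ideal.subset_span ⟨γ, _, ⟨j, hj, rfl⟩, rfl⟩)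
  · rw [← Ideal.map_le_iff_le_comap, Ideal.map_mul, Ideal.map_mul]
    have : P.S.N.map (Tg.pz p V B) ≤ g.N := Ideal.map_le_iff_le_comap.2 fun f hf => g.pz_N P.dB hf
    exact (Ideal.mul_mono (Ideal.map_le_iff_le_comap.2 fun _ => map_mx _ Tg.pz_mx)
      (Ideal.mul_mono this this)).trans (hK.trans k1)

theorem hE_gen (a : Ad w t V B) : P.gen a ∈ mx := by
  rcases a with q | q
  exacts [P.Xi_mx (Ideal.subset_span ⟨q, rfl⟩), Ideal.mul_mem_right _ _ (z_mem _)]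

theorem gen_cub (q : (V ⊕ B) × Qn w t × Qn w t) : P.gen (inr q) ∈ mx ^ 2 :=
  sq (mx : Ideal (O p (ZMod p) (V ⊕ B))) ▸ Ideal.mul_mem_mul (z_mem _)
    (Ideal.mul_mem_right _ _ (z_mem _))

theorem pd_ka {v : V ⊕ B} {f : O p (ZMod p) U} (h : ∀ x, P.inc x = v → pd x f ∈ mx) :
    pd v (P.ka f) ∈ mx := by
  by_cases hv : v ∈ Set.range P.inc
  · obtain ⟨x, rfl⟩ := hv
    rw [ka, Tg.pd_rn P.inj]; exact Tg.rn_mem _ (h x rfl)
  · exact (Tg.pd_rn_not hv f).symm ▸ zero_mem _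

theorem DE_gen (h : ∀ j, t j = false → ∀ x b, P.inc x = inr b → pd x (o u.G (u.b j)) ∈ mx) (b : B)
    (a : Ad w t V B) : pd (inr b) (P.gen a) ∈ mx := by
  rcases a with q | q
  · simp only [gen, Sum.elim_inl, xi]
    rw [(dg_pd P.S.hO (inr b)).pr, map_sub, map_sub, Gv.x, pd_uz_zero _ fun _ _ => by simp [Gv.ext],
      zero_sub, val_um, o_map, u.x_L q.1.2.1]
    exact id_mx P.S.hO _ _ (neg_mem (P.pd_ka fun x => h _ q.1.2.1 x b))
  · exact Tg.pd_sq (P.gen_cub q) _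

theorem lin_gen (v : V) (q : (V ⊕ B) × Qn w t × Qn w t) : lin v (Tg.pz p V B (P.gen (inr q))) = 0 :=
  mem_mx.1 (Tg.pd_sq (map_mx_pow _ Tg.pz_mx (P.gen_cub q)) _)

end Pg

end Crest.Agent.N255.Cs

end
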