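import Crest.Agent.N255.Cs.Tw
import Crest.Agent.N255.Cs.Alg

/-!
# Row 255 (helper31): the Chern-Simons cochain of the twisted ring, ideal control
-/

set_option autoImplicit false
open Finset

noncomputable section

namespace Crest.Agent.N255.Cs

open Tw

variable {p : ℕ} [hpp : Fact p.Prime] {K O V : Type*} [CommRing K] [CommRing O] [Algebra K O]
  {G : Gr (Gm p) K O}

/-- membership of an element of the twisted ring in an ideal of `O` -/
abbrev In (I : Ideal O) (x : Tw G) : Prop := o G x ∈ I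

/-- the derivation and the trace of the twisted ring -/
def td (G : Gr (Gm p) K O) [h : Fact ((p : O) = 0)] : TD (Tw G) O where
  D := (D G).toAddMonoidHom
  lam := (lam G).toAddMonoidHom
  D_mul := D_mul h.out
  lam_comm := lam_comm
  lam_D := lam_D

variable [Fact ((p : O) = 0)]

theorem td_D (x : Tw G) : (td G).D x = D G x := rfl

theorem td_lam (x : Tw G) : (td G).lam x = lam G x := rfl

variable {m I J H : Ideal O} {g g' γ' : V → V → (Tw G)ˣ} {a b c d e : V}

omit [Fact ((p : O) = 0)] in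
theorem lam2 (hI : G.Id I) (hJ : G.Id J) {x y : Tw G} (hx : In I x) (hy : In J y) (u : Tw G) :
    lam G (x * y * u) ∈ I * J :=
  lam_mem (hI.mul hJ) (mem_right (hI.mul hJ) u (o_mul_mem hI hJ hx hy))

omit [Fact ((p : O) = 0)] in
theorem lam3 (hI : G.Id I) (hJ : G.Id J) (hH : G.Id H) {x y z : Tw G} (hx : In I x) (hy : In J y)
    (hz : In H z) : lam G (x * y * z) ∈ I * J * H :=
  lam_mem ((hI.mul hJ).mul hH) (o_mul_mem (hI.mul hJ) hH (o_mul_mem hI hJ hx hy) hz)

omit [Fact ((p : O) = 0)] in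
theorem in_conj (hI : G.Id I) {x : Tw G} (hx : In I x) (u v : Tw G) : In I (u * x * v) :=
  mem_right hI v (mem_left hI u hx)

omit [Fact ((p : O) = 0)] in
theorem In.add {x y : Tw G} (hx : In I x) (hy : In I y) : In I (x + y) := by
  rw [In, map_add]; exact add_mem hx hy

omit [Fact ((p : O) = 0)] in
theorem In.sub {x y : Tw G} (hx : In I x) (hy : In I y) : In I (x - y) := by
  rw [In, map_sub]; exact sub_mem hx hy

omit [Fact ((p : O) = 0)] in
theorem In.neg {x : Tw G} (hx : In I x) : In I (-x) := by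
  rw [In, map_neg]; exact neg_mem hx

omit [Fact ((p : O) = 0)] in
theorem In.mono {x : Tw G} (hx : In I x) (h : I ≤ J) : In J x := h hx

omit [Fact ((p : O) = 0)] in
theorem lam_unit (hm : G.Id m) (hI : G.Id I) {x : Tw G} (hx : In I x) {u : (Tw G)ˣ}
    (hu : u ∈ U hm) : lam G (x * ↑u⁻¹) - lam G x ∈ m * I := by
  have : x * ↑u⁻¹ - x = x * (↑u⁻¹ - 1) := by rw [mul_sub, mul_one]
  rw [← map_sub, this, mul_comm m]
  exact lam_mem (hI.mul hm) (o_mul_mem hI hm hx (inv_mem hu))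

omit [Fact ((p : O) = 0)] in
theorem fc_mem_of_U (hI : G.Id I) (h1 : g a b ∈ U hI) (h2 : g b c ∈ U hI) (h3 : g a c ∈ U hI) :
    In I (fc g a b c) := by
  rw [fc_eq, d1]
  exact In.add (In.add (In.sub h2 h3) h1) (mem_right hI _ h1)

omit [Fact ((p : O) = 0)] in
/-- Bianchi: the curvature is a cocycle modulo `m I` -/
theorem d2_fc_mem (hm : G.Id m) (hI : G.Id I) (h1 : g a b ∈ U hm) (h2 : g c d ∈ U hm)
    (f1 : In I (fc g a b c)) (f2 : In I (fc g b c d)) : In (m * I) (d2 (fc g) a b c d) := by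
  rw [d2_fc]
  exact In.sub (mul_comm I m ▸ o_mul_mem hI hm f1 h2) (o_mul_mem hm hI h1 f2)

omit [Fact ((p : O) = 0)] in
theorem fc_sub_mem (hm : G.Id m) (hH : G.Id H) (h1 : g a b ∈ U hm) (h2 : g b c ∈ U hm)
    (k1 : In H (df g' g a b)) (k2 : In H (df g' g b c)) :
    In (m * H ⊔ H * H) (fc g' a b c - fc g a b c - d1 (df g' g) a b c) := by
  have : fc g' a b c - fc g a b c - d1 (df g' g) a b c = df g' g a b * (g b c - 1) +
      (g a b - 1) * df g' g b c + df g' g a b * df g' g b c := by rw [fc_sub g' g, dg_eq]; abel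
  rw [this]
  exact In.add (In.mono (In.add (mul_comm H m ▸ o_mul_mem hH hm k1 h2) (o_mul_mem hm hH h1 k2))
    le_sup_left) (In.mono (o_mul_mem hH hH k1 k2) le_sup_right)

omit [Fact ((p : O) = 0)] in
theorem fc_sub_mem' (hH : G.Id H) (k1 : In H (df g' g a b)) (k2 : In H (df g' g b c))
    (k3 : In H (df g' g a c)) : In H (fc g' a b c - fc g a b c) := by
  have : fc g' a b c - fc g a b c = df g' g a b * g b c + g a b * df g' g b c - df g' g a c +
      df g' g a b * df g' g b c := by rw [fc_sub g' g, dg]; abel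
  rw [this]
  exact In.add (In.sub (In.add (mem_right hH _ k1) (mem_left hH _ k2)) k3) (mem_left hH _ k2)

theorem cs_hg (g : V → V → (Tw G)ˣ) (a b c d : V) : G.Hg (g0 p) ((td G).cs g a b c d) := lam_hg _

theorem be_hg (g : V → V → (Tw G)ˣ) (h : V → V → Tw G) (a b c : V) :
    G.Hg (g0 p) ((td G).be g h a b c) := lam_hg _

theorem cs_mem (hm : G.Id m) (hI : G.Id I) (h : g a b ∈ U hm) (f : In I (fc g b c d)) :
    (td G).cs g a b c d ∈ m * I := lam2 hm hI (D_mem_U hm h) f _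

theorem be_mem (hm : G.Id m) (hH : G.Id H) (h : g a b ∈ U hm) {k : V → V → Tw G}
    (f : In H (k b c)) : (td G).be g k a b c ∈ m * H := lam2 hm hH (D_mem_U hm h) f _

theorem ka_mem (hI : G.Id I) (hH : G.Id H) {f : V → V → V → Tw G} {k : V → V → Tw G}
    (h1 : In I (f a b c)) (h2 : In H (k a c)) : (td G).ka f k a b c ∈ H * I :=
  lam_mem (hH.mul hI) (o_mul_mem hH hI h2 (D_mem hI h1))

theorem th_mem (hI : G.Id I) (hH : G.Id H) {γ : V → (Tw G)ˣ} (h : γ a ∈ U hH)
    (f : In I (fc g a b c)) : (td G).th γ g a b c ∈ H * I :=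
  lam2 hH hI (mem_left hH _ (D_mem_U hH h)) f _

/-- (P): `δ cs ∈ I²` -/
theorem P_mem (hI : G.Id I) (f1 : In I (fc g a b c)) (f2 : In I (fc g c d e))
    (f3 : In I (fc g b c d)) (f4 : In I (fc g a d e)) (f5 : In I (fc g a b e)) :
    (td G).P g a b c d e ∈ I * I := by
  refine sub_mem (sub_mem (lam2 hI hI (D_mem hI f1) f2 _) ?_) ?_
  · simpa [td_D, td_lam] using lam3 G.id_top hI hI (x := D G (g a b)) trivial f3 (in_conj hI f4 _ _)
  · simpa [td_D, td_lam] using lam3 G.id_top hI hI (x := D G (g b c)) trivial f2 (in_conj hI f5 _ _)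

/-- the symbol of `P` -/
theorem P_sym (hm : G.Id m) (hI : G.Id I) (h1 : g a b ∈ U hm) (h2 : g b c ∈ U hm)
    (h3 : g a e ∈ U hm) (f1 : In I (fc g a b c)) (f2 : In I (fc g c d e))
    (f3 : In I (fc g b c d)) (f4 : In I (fc g a d e)) (f5 : In I (fc g a b e)) :
    (td G).P g a b c d e - lam G (D G (fc g a b c) * fc g c d e) ∈ m * (I * I) := by
  have h := lam_unit hm (hI.mul hI) (o_mul_mem hI hI (D_mem hI f1) f2) h3
  have k1 := lam3 hm hI hI (D_mem_U hm h1) f3 (in_conj hI f4 ↑(g a d)⁻¹ ↑(g a e)⁻¹)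
  have k2 := lam3 hm hI hI (D_mem_U hm h2) f2 (in_conj hI f5 ↑(g a e)⁻¹ ↑(g b e)⁻¹)
  rw [mul_assoc m] at k1 k2
  convert sub_mem (sub_mem h k1) k2 using 1
  simp only [TD.P, td_D, td_lam]
  abel

/-- (G): gauge invariance modulo `H I²` -/
theorem Ge_mem (hI : G.Id I) (hH : G.Id H) {γ : V → (Tw G)ˣ} (h1 : γ a ∈ U hH) (h2 : γ b ∈ U hH)
    (f1 : In I (fc g a b c)) (f2 : In I (fc g a c d)) (f3 : In I (fc g b c d))
    (f4 : In I (fc g a b d)) : (td G).Ge γ g a b c d ∈ H * (I * I) := by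
  rw [← mul_assoc]
  exact sub_mem (lam3 hH hI hI (mem_left hH _ (D_mem_U hH h1)) f1 (in_conj hI f2 _ _))
    (lam3 hH hI hI (mem_left hH _ (D_mem_U hH h2)) f3 (in_conj hI f4 _ _))

/-- the error of (V); `I` contains the curvature of `g` and of `g'` -/
theorem Ve_mem (hm : G.Id m) (hI : G.Id I) (hH : G.Id H) (h1 : g a b ∈ U hm) (h2 : g b c ∈ U hm)
    (f1 : In I (fc g' b c d)) (f2 : In I (fc g a b d)) (f3 : In I (fc g a c d))
    (k1 : In H (df g' g b c)) (k2 : In H (df g' g c d)) (k3 : In H (df g' g a d)) :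
    (td G).Ve g' g a b c d ∈ m * (H * (I ⊔ H)) := by
  have l1 : m * H * I ≤ m * (H * (I ⊔ H)) := by
    rw [mul_assoc]; exact Ideal.mul_mono_right (Ideal.mul_mono_right le_sup_left)
  have l2 : m * I * H ≤ m * (H * (I ⊔ H)) := by rwa [mul_right_comm]
  refine add_mem (sub_mem (sub_mem ?_ (l2 ?_)) (l1 ?_)) (l1 ?_)
  · exact Ideal.mul_mono_right (Ideal.mul_mono_right le_sup_right)
      (lam2 hm (hH.mul hH) (D_mem_U hm h1) (o_mul_mem hH hH k1 k2) _)
  · exact lam3 hm hI hH (D_mem_U hm h1) f1 (in_conj hH k3 _ _)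
  · exact lam3 hm hH hI (D_mem_U hm h2) k2 (in_conj hI f2 _ _)
  · exact lam3 hm hH hI (D_mem_U hm h1) k1 (in_conj hI f3 _ _)

/-- (V), first form -/
theorem var_mem (hm : G.Id m) (hI : G.Id I) (hH : G.Id H) (h1 : g a b ∈ U hm) (h2 : g b c ∈ U hm)
    (h3 : g a d ∈ U hm) (h4 : g' a d ∈ U hm) (f0 : In I (fc g a b c))
    (f1 : In I (fc g' b c d)) (f2 : In I (fc g a b d)) (f3 : In I (fc g a c d))
    (k0 : In H (df g' g a b)) (k1 : In H (df g' g b c)) (k2 : In H (df g' g c d))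
    (k3 : In H (df g' g a d)) :
    (td G).cs g' a b c d - (td G).cs g a b c d + d2 ((td G).be g (df g' g)) a b c d
      - (lam G (D G (df g' g a b) * fc g' b c d) + lam G (D G (fc g a b c) * df g' g c d)) ∈
      m * (H * (I ⊔ H)) := by
  have l1 : m * (H * I) ≤ m * (H * (I ⊔ H)) :=
    Ideal.mul_mono_right (Ideal.mul_mono_right le_sup_left)
  have e1 := l1 (lam_unit hm (hH.mul hI) (o_mul_mem hH hI (D_mem hH k0) f1) h4)
  have e2 := lam_unit hm (hI.mul hH) (o_mul_mem hI hH (D_mem hI f0) k2) h3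
  rw [mul_comm I] at e2
  rw [TD.var]
  convert add_mem (add_mem e1 (l1 e2)) (Ve_mem hm hI hH h1 h2 f1 f2 f3 k1 k2 k3) using 1
  simp only [td_D, td_lam]
  abel

/-- the boundary term of (V), second form -/
def bk (g' g : V → V → (Tw G)ˣ) (a b c : V) : O :=
  (td G).be g (df g' g) a b c - (td G).ka (fc g) (df g' g) a b c

theorem bk_mem (hm : G.Id m) (hI : G.Id I) (hH : G.Id H) (h : g a b ∈ U hm)
    (f : In I (fc g a b c)) (k1 : In H (df g' g b c)) (k2 : In H (df g' g a c)) :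
    bk g' g a b c ∈ H * (m ⊔ I) :=
  sub_mem (Ideal.mul_mono_right le_sup_left (mul_comm m H ▸ be_mem hm hH h k1))
    (Ideal.mul_mono_right le_sup_right (ka_mem hI hH f k2))

theorem bk_zero (k1 : g' b c = g b c) (k2 : g' a c = g a c) : bk g' g a b c = 0 := by
  simp [bk, TD.be, TD.ka, df, k1, k2]

/-- (V), second form: `J` contains the plain coboundary of the variation -/
theorem var_q (hm : G.Id m) (hI : G.Id I) (hH : G.Id H) (hJ : G.Id J) (hHm : H ≤ m)
    (h1 : g a b ∈ U hm) (h2 : g b c ∈ U hm) (h3 : g a d ∈ U hm) (h5 : g c d ∈ U hm)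
    (f0 : In I (fc g a b c)) (f1 : In I (fc g b c d)) (f2 : In I (fc g a b d))
    (f3 : In I (fc g a c d)) (k0 : In H (df g' g a b)) (k1 : In H (df g' g b c))
    (k2 : In H (df g' g c d)) (k3 : In H (df g' g a d)) (k4 : In H (df g' g b d))
    (j1 : In J (d1 (df g' g) a b d)) (j2 : In J (d1 (df g' g) a c d))
    (j3 : In J (d1 (df g' g) b c d)) :
    (td G).cs g' a b c d - (td G).cs g a b c d + d2 (bk g' g) a b c d
      - lam G (df g' g a b * fc g b c d) ∈ m * (H * (I ⊔ H)) ⊔ J * (I ⊔ H) := by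
  have hIH := hI.sup hH
  have h4 : g' a d ∈ U hm := by
    have : (g' a d : Tw G) - 1 = df g' g a d + (g a d - 1) := by rw [df]; abel
    rw [mem_U, this]
    exact In.add (hHm k3) h3
  have f1' : In (I ⊔ H) (fc g' b c d) := by
    rw [← sub_add_cancel (fc g' b c d) (fc g b c d)]
    exact In.add (In.mono (fc_sub_mem' hH k1 k2 k4) le_sup_right) (In.mono f1 le_sup_left)
  have e0 := var_mem hm hIH hH h1 h2 h3 h4 (In.mono f0 le_sup_left) f1' (In.mono f2 le_sup_left)
    (In.mono f3 le_sup_left) k0 k1 k2 k3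
  rw [sup_assoc, sup_idem] at e0
  have e1 : lam G (D G (df g' g a b) * (fc g' b c d - fc g b c d - d1 (df g' g) b c d)) ∈
      m * (H * (I ⊔ H)) := by
    have := lam_mem (hH.mul ((hm.mul hH).sup (hH.mul hH)))
      (o_mul_mem hH ((hm.mul hH).sup (hH.mul hH)) (D_mem hH k0) (fc_sub_mem hm hH h2 h5 k1 k2))
    have l : H * (m * H ⊔ H * H) ≤ m * (H * (I ⊔ H)) := by
      refine (Ideal.mul_mono_right (sup_le le_rfl (Ideal.mul_mono_left hHm))).trans ?_
      rw [mul_left_comm]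
      exact Ideal.mul_mono_right (Ideal.mul_mono_right le_sup_right)
    exact l this
  have e2 : lam G (D G (df g' g a b) * d1 (df g' g) b c d) ∈ J * (I ⊔ H) :=
    Ideal.mul_mono_right le_sup_right
      (mul_comm H J ▸ lam_mem (hH.mul hJ) (o_mul_mem hH hJ (D_mem hH k0) j3))
  have e3 : lam G (d1 (df g' g) a b d * D G (fc g b c d)) ∈ J * (I ⊔ H) :=
    Ideal.mul_mono_right le_sup_left (lam_mem (hJ.mul hI) (o_mul_mem hJ hI j1 (D_mem hI f1)))
  have e4 : lam G (d1 (df g' g) a c d * D G (fc g a b c)) ∈ J * (I ⊔ H) :=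
    Ideal.mul_mono_right le_sup_left (lam_mem (hJ.mul hI) (o_mul_mem hJ hI j2 (D_mem hI f0)))
  have e5 : lam G (df g' g a d * D G (d2 (fc g) a b c d)) ∈ m * (H * (I ⊔ H)) := by
    have := lam_mem (hH.mul (hm.mul hI)) (o_mul_mem hH (hm.mul hI) k3
      (D_mem (hm.mul hI) (d2_fc_mem hm hI h1 h5 f0 f1)))
    rw [mul_left_comm] at this
    exact Ideal.mul_mono_right (Ideal.mul_mono_right le_sup_left) this
  have hs := (td G).swap (fc g) (df g' g) a b c d
  simp only [td_D, td_lam] at hs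
  have e6 : d2 (bk g' g) a b c d = d2 ((td G).be g (df g' g)) a b c d -
      d2 ((td G).ka (fc g) (df g' g)) a b c d := by simp only [d2, bk]; abel
  convert add_mem (Ideal.mem_sup_left (sub_mem (add_mem e0 e1) e5))
    (Ideal.mem_sup_right (add_mem (sub_mem e2 e3) e4)) using 1
  rw [e6]
  simp only [mul_sub, map_sub]
  linear_combination hs

section map

variable {O' : Type*} [CommRing O'] [Algebra K O'] [Fact ((p : O') = 0)] {G' : Gr (Gm p) K O'}
  {φ : O →ₐ[K] O'}

/-- push forward of units -/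
def um (h : G.Hom G' φ) : (Tw G)ˣ →* (Tw G')ˣ := Units.map (Tw.map h : Tw G →* Tw G')

omit [Fact ((p : O) = 0)] [Fact ((p : O') = 0)] in
@[simp] theorem val_um (h : G.Hom G' φ) (u : (Tw G)ˣ) : (um h u : Tw G') = Tw.map h u := rfl

omit [Fact ((p : O) = 0)] [Fact ((p : O') = 0)] in
theorem val_um_inv (h : G.Hom G' φ) (u : (Tw G)ˣ) :
    (↑(um h u)⁻¹ : Tw G') = Tw.map h ↑u⁻¹ := rfl

omit [Fact ((p : O) = 0)] [Fact ((p : O') = 0)] in
theorem um_mem (h : G.Hom G' φ) (hI : G.Id I) {I' : Ideal O'} (hI' : G'.Id I')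
    (hφ : ∀ x ∈ I, φ x ∈ I') {u : (Tw G)ˣ} (hu : u ∈ U hI) : um h u ∈ U hI' := by
  have := hφ _ hu
  rwa [← o_map h, map_sub, map_one] at this

omit [Fact ((p : O) = 0)] [Fact ((p : O') = 0)] in
theorem fc_um (h : G.Hom G' φ) (g : V → V → (Tw G)ˣ) (a b c : V) :
    fc (fun x y => um h (g x y)) a b c = Tw.map h (fc g a b c) := by simp [fc]

theorem cs_um (h : G.Hom G' φ) (g : V → V → (Tw G)ˣ) (a b c d : V) :
    (td G').cs (fun x y => um h (g x y)) a b c d = φ ((td G).cs g a b c d) := by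
  simp only [TD.cs, td_D, td_lam, fc_um, val_um, val_um_inv, ← map_D, ← map_mul, lam_map]

theorem be_um (h : G.Hom G' φ) (g : V → V → (Tw G)ˣ) (k : V → V → Tw G) (a b c : V) :
    (td G').be (fun x y => um h (g x y)) (fun x y => Tw.map h (k x y)) a b c =
      φ ((td G).be g k a b c) := by
  simp only [TD.be, td_D, td_lam, val_um, val_um_inv, ← map_D, ← map_mul, lam_map]

end map

end Crest.Agent.N255.Cs

end
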