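import Crest.Agent.N255.Cs.Act
import Crest.Agent.N255.Tg.OnO
import Crest.Agent.N255.Core.CG

/-!
# Row 255 (helper31): the boundary action in the variables of three walls
-/

set_option autoImplicit false
open Finset

noncomputable section

namespace Crest.Agent.N255.Cs

open Tw Tp _root_.N255.Dr _root_.N255.Dr.O _root_.N255.Core

section uz

variable {p : ℕ} [Fact p.Prime] {K : Type} [CommRing K] {σ ι : Type} [Fintype σ]
  {GO : Gr (Gm p) K (O p K σ)} {d : σ → Gm p} (hO : ∀ i, GO.Hg (d i) (z i))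

/-- the unit `1 + ∑ z (v i)` -/
def uz (s : Finset ι) (v : ι → σ) : (Tw GO)ˣ :=
  un (Tg.id_mx hO) Tg.mx_nil (up GO (∑ i ∈ s, z (v i))) (sum_mem fun i _ => z_mem (v i))

theorem val_uz (s : Finset ι) (v : ι → σ) : (uz hO s v).val = 1 + up GO (∑ i ∈ s, z (v i)) :=
  val_un _ _ _ _

theorem uz_sub (s : Finset ι) (v : ι → σ) : (uz hO s v).val - 1 = up GO (∑ i ∈ s, z (v i)) := by
  rw [val_uz, add_sub_cancel_left]

theorem o_uz (s : Finset ι) (v : ι → σ) : o GO (uz hO s v) = 1 + ∑ i ∈ s, z (v i) := by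
  rw [val_uz, map_add, o_one]; rfl

theorem uz_mem {I : Ideal (O p K σ)} (hI : GO.Id I) {s : Finset ι} {v : ι → σ}
    (h : ∀ i ∈ s, z (v i) ∈ I) : uz hO s v ∈ U hI := by
  rw [mem_U, uz_sub]; exact sum_mem h

theorem uz_mp {τ : Type} [Fintype τ] {G' : Gr (Gm p) K (O p K τ)} {d' : τ → Gm p}
    (hO' : ∀ i, G'.Hg (d' i) (z i)) {φ : O p K σ →ₐ[K] O p K τ} (h : GO.Hom G' φ) {s : Finset ι}
    {v : ι → σ} {v' : ι → τ} (e : ∀ i ∈ s, φ (z (v i)) = z (v' i)) :
    um h (uz hO s v) = uz hO' s v' :=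
  Units.ext ((o G').injective (by
    rw [val_um, o_map, o_uz, o_uz, map_add, map_one, map_sum, sum_congr rfl e]))

theorem pr_uz {s : Finset ι} {v : ι → σ} (hd : Set.InjOn (fun i => d (v i)) s) {i : ι} (hi : i ∈ s) :
    GO.pr (d (v i)) (o GO ((uz hO s v).val - 1)) = z (v i) := by
  rw [uz_sub, LinearEquiv.apply_symm_apply, map_sum,
    sum_eq_single i (fun j hj e => (hO _).ne fun e' => e (hd hj hi e'.symm)) fun h => absurd hi h]
  exact hO _

variable [Fact ((p : K) = 0)]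

include hO in
theorem dg_pd (i : σ) : GO.Dg (d i) (pd i) := fun _ _ h => Tg.hg_pd hO h i

theorem pd_uz_zero {s : Finset ι} {v : ι → σ} {u : σ} (h : ∀ i ∈ s, u ≠ v i) :
    pd u (o GO (uz hO s v)) = 0 := by
  rw [o_uz, map_add, Derivation.map_one_eq_zero, zero_add, map_sum]
  exact sum_eq_zero fun i hi => pd_z_ne (h i hi)

theorem pd_uz_one {s : Finset ι} {v : ι → σ} (h : Set.InjOn v s) {i : ι} (hi : i ∈ s) :
    pd (v i) (o GO (uz hO s v)) = 1 := by
  rw [o_uz, map_add, Derivation.map_one_eq_zero, zero_add, map_sum,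
    sum_eq_single i (fun j hj e => pd_z_ne fun e' => e (h hj hi e'.symm)) (fun h => absurd hi h),
    pd_z_self]

end uz

variable {p : ℕ} [Fact p.Prime] {s : Fin 3 → Type} [∀ i, Fintype (s i)]
  (w : ∀ i, Wall p (Gm p) (g0 p) (s i)) (t : Fin 3 → Bool) {V : Type} [Fintype V]

open Classical in
/-- the boundary variables of a wall -/
def ys {s : Type} [Fintype s] (w : Wall p (Gm p) (g0 p) s) : Finset s := {x | w.kd x = none}

theorem mem_ys {s : Type} [Fintype s] {w : Wall p (Gm p) (g0 p) s} {x : s} :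
    x ∈ ys w ↔ w.kd x = none := by simp [ys]

/-- graded variables at a vertex -/
structure Gv (V : Type) [Fintype V] where
  em : (Σ i, s i) × Bool → V
  inj : Set.InjOn em {q | Ok w t q}
  G : Gr (Gm p) (ZMod p) (O p (ZMod p) V)
  d : V → Gm p
  hO : ∀ v, G.Hg (d v) (z v)
  dy : ∀ i x, (w i).kd x = none → d (em (⟨i, x⟩, false)) = (w i).deg x
  dm : ∀ i x, t i = false → (w i).kd x = none → d (em (⟨i, x⟩, true)) = g0 p - (w i).deg x

/-- the quaternion directions of the three slots -/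
def qd : Fin 3 → ZMod 2 × ZMod 2 := ![(1, 0), (0, 1), (1, 1)]

variable {w t}

theorem ok_y {i : Fin 3} {x : s i} (h : (w i).kd x = none) : Ok w t (⟨i, x⟩, false) :=
  Or.inl ⟨rfl, by simp [h]⟩

theorem ok_x {i : Fin 3} {x : s i} (h : (w i).kd x = none) : Ok w t (⟨i, x⟩, !t i) := by
  rcases ht : t i with _ | _
  exacts [Or.inr ⟨rfl, ht, h⟩, ok_y h]

namespace Gv

variable (g : Gv w t V)

/-- the boundary datum `1 + y` -/
def a (i : Fin 3) : (Tw g.G)ˣ := uz g.hO (ys (w i)) fun x => g.em (⟨i, x⟩, false)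

/-- the meridian -/
def x (i : Fin 3) : (Tw g.G)ˣ := uz g.hO (ys (w i)) fun x => g.em (⟨i, x⟩, !t i)

theorem a_eq (i : Fin 3) (h : t i = true) : g.a i = g.x i := by simp only [a, x, h, Bool.not_true]

/-- the ideal of all `y` and `m` -/
def N : Ideal (O p (ZMod p) V) :=
  Ideal.span {f | ∃ q, Ok w t q ∧ (w q.1.1).kd q.1.2 = none ∧ f = z (g.em q)}

theorem id_N : g.G.Id g.N := g.G.id_span_hg fun _ ⟨_, _, _, e⟩ => ⟨_, e ▸ g.hO _⟩

theorem N_le {I : Ideal (O p (ZMod p) V)}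
    (h : ∀ q, Ok w t q → (w q.1.1).kd q.1.2 = none → z (g.em q) ∈ I) : g.N ≤ I :=
  Ideal.span_le.2 fun _ ⟨q, h1, h2, e⟩ => e ▸ h q h1 h2

theorem N_mx : g.N ≤ mx := g.N_le fun _ _ _ => z_mem _

theorem N_Ge (La : ℕ) (FV : V → ℕ) : g.N ≤ Ge (vw w t La g.em FV) La :=
  g.N_le fun q h1 h2 => by
    have := z_mem_Ge (p := p) (FV := vw w t La g.em FV) (g.em q)
    rwa [vw, if_neg] at this
    rintro ⟨i, x, h, e⟩
    obtain rfl := g.inj h1 (Or.inl ⟨rfl, by simp [h]⟩) e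
    simp [h] at h2

theorem a_N (i : Fin 3) : g.a i ∈ U g.id_N :=
  uz_mem _ _ fun _ hx => Ideal.subset_span ⟨_, ok_y (mem_ys.1 hx), mem_ys.1 hx, rfl⟩

theorem x_N (i : Fin 3) : g.x i ∈ U g.id_N :=
  uz_mem _ _ fun _ hx => Ideal.subset_span ⟨_, ok_x (mem_ys.1 hx), mem_ys.1 hx, rfl⟩

theorem pd_a {q : (Σ i, s i) × Bool} (hq : Ok w t q) (i : Fin 3)
    (h : q.1.1 ≠ i ∨ q.2 = true ∨ (w q.1.1).kd q.1.2 ≠ none) : pd (g.em q) (o g.G (g.a i)) = 0 :=
  pd_uz_zero _ fun x hx e => by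
    obtain rfl := g.inj hq (ok_y (mem_ys.1 hx)) e
    simp [mem_ys.1 hx] at h

theorem pd_x {q : (Σ i, s i) × Bool} (hq : Ok w t q) (i : Fin 3)
    (h : q.1.1 ≠ i ∨ q.2 = t i ∨ (w q.1.1).kd q.1.2 ≠ none) : pd (g.em q) (o g.G (g.x i)) = 0 :=
  pd_uz_zero _ fun x hx e => by
    obtain rfl := g.inj hq (ok_x (mem_ys.1 hx)) e
    simp [mem_ys.1 hx] at h

theorem pd_a_one {i : Fin 3} {y : s i} (h : (w i).kd y = none) :
    pd (g.em (⟨i, y⟩, false)) (o g.G (g.a i)) = 1 :=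
  pd_uz_one g.hO (v := fun x => g.em (⟨i, x⟩, false)) (fun _ h1 _ h2 e => by
    simpa using g.inj (ok_y (mem_ys.1 h1)) (ok_y (mem_ys.1 h2)) e) (mem_ys.2 h)

theorem pd_x_one {i : Fin 3} {y : s i} (h : (w i).kd y = none) :
    pd (g.em (⟨i, y⟩, !t i)) (o g.G (g.x i)) = 1 :=
  pd_uz_one g.hO (v := fun x => g.em (⟨i, x⟩, !t i)) (fun _ h1 _ h2 e => by
    simpa using g.inj (ok_x (mem_ys.1 h1)) (ok_x (mem_ys.1 h2)) e) (mem_ys.2 h)

variable {X : Type} [TopologicalSpace X] (T : Vt (ZMod p) X t)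

/-- the coefficients of the Gaussian part -/
def c (w : ∀ i, Wall p (Gm p) (g0 p) (s i)) (T : Vt (ZMod p) X t) (i : Fin 3) (x : s i) : ZMod p :=
  sg ((w i).deg x) (g0 p - (w i).deg x) • (T.T i).s

theorem c_ne (he : T.e * T.e = 1) (hs : (T.T 0).s ≠ 0) (i : Fin 3) (x : s i) : c w T i x ≠ 0 :=
  fun h => hs (by
    have h1 : (T.T i).s = 0 := by
      rw [← one_zsmul (T.T i).s, ← sg_sq ((w i).deg x) (g0 p - (w i).deg x), mul_smul, ← c, h, smul_zero]
    rw [← one_zsmul (T.T 0).s, ← he, mul_smul, ← T.es i, h1, smul_zero, smul_zero])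

/-- the cubic part -/
def Ps : O p (ZMod p) V := T.Ps g.x g.a

open Classical in
theorem A_eq : T.A g.x g.a = ∑ i, ∑ x, (if t i = false ∧ (w i).kd x = none then
    c w T i x • (z (g.em (⟨i, x⟩, false)) * z (g.em (⟨i, x⟩, true))) else 0) + g.Ps T := by
  rw [Ps, Vt.Ps, ← sub_eq_iff_eq_add, sub_sub_cancel, Vt.Q]
  refine sum_congr rfl fun i _ => ?_
  rcases ht : t i with _ | _
  · rw [if_neg (by simp), a, x, uz_sub, uz_sub, lam_sum (d := (w i).deg) _
      (fun _ h1 _ h2 => (w i).inj _ _ (mem_ys.1 h1) (mem_ys.1 h2))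
      (fun y hy => g.dy i y (mem_ys.1 hy) ▸ g.hO _)
      (fun y hy => by rw [ht, ← g.dm i y ht (mem_ys.1 hy)]; exact g.hO _), smul_sum, ys, sum_filter]
    refine sum_congr rfl fun y _ => ?_
    simp only [true_and, ht, Bool.not_false, c, smul_assoc, smul_comm (T.T i).s]
  · simp

theorem Ps_N : g.Ps T ∈ g.N * g.N * g.N := T.Ps_mem g.id_N g.x_N fun i _ => g.a_N i

theorem Ps2 : g.Ps T ∈ (mx : Ideal (O p (ZMod p) V)) ^ 2 :=
  sq (mx : Ideal (O p (ZMod p) V)) ▸ Ideal.mul_mono (Ideal.mul_le_left.trans g.N_mx) g.N_mx (g.Ps_N T)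

theorem hPs (La : ℕ) (FV : V → ℕ) : g.Ps T ∈ Ge (vw w t La g.em FV) (3 * La) := by
  have h := g.N_Ge La FV
  rw [show 3 * La = La + La + La by ring]
  exact Ge_mul (Ideal.mul_mono ((Ideal.mul_mono h h).trans Ge_mul) h (g.Ps_N T))

/-- the trilinear coefficient does not vanish -/
theorem cub_ne (hp : p ≠ 2) (he : T.e * T.e = 1) (hs : (T.T 0).s ≠ 0) {D : ∀ i, ZMod p → s i}
    (hD : ∀ i d, (w i).kd (D i d) = none) (hd : ∀ i d, (w i).deg (D i d) = (qd i, d))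
    (d : Fin 3 → ZMod p) (h : ∑ i, (if t i = true then d i else 1 - d i) = 1) :
    aug (pd (g.em (⟨0, D 0 (d 0)⟩, !t 0)) (pd (g.em (⟨1, D 1 (d 1)⟩, !t 1))
      (pd (g.em (⟨2, D 2 (d 2)⟩, !t 2)) (g.Ps T)))) ≠ 0 := by
  have e : ∀ i, g.d (g.em (⟨i, D i (d i)⟩, !t i)) = (qd i, if t i = true then d i else 1 - d i) :=
    fun i => by
      rcases ht : t i with _ | _
      · rw [Bool.not_false, g.dm i _ ht (hD i _), hd, if_neg (by simp)]
        exact Prod.ext ((by decide : ∀ i, 0 - qd i = qd i) i) rfl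
      · rw [Bool.not_true, g.dy i _ (hD i _), hd, if_pos rfl]
  rw [Ps, T.cub (γ := fun i => g.d (g.em (⟨i, D i (d i)⟩, !t i)))
    (δ := fun i => pd (g.em (⟨i, D i (d i)⟩, !t i))) (fun i => dg_pd g.hO _) ?_
    (fun f => pd_comm _ _ f) (fun i j => ?_) fun i j hj => ?_]
  · rw [map_neg, AlgHom.commutes, neg_ne_zero, sg_anti (a := g.d _) (b := g.d (g.em (⟨1, _⟩, _)))
      (by rw [e]; exact (by decide : qd 0 ≠ 0)) (by rw [e]; exact (by decide : qd 1 ≠ 0))
      (by rw [e, e]; exact (by decide : qd 0 ≠ qd 1)), sub_neg_eq_add, ← two_mul]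
    generalize hu : sg (p := p) _ (_ + _) = u
    generalize hv : sg (p := p) _ _ = v
    have h2 : (2 : ZMod p) ≠ 0 := fun h => hp ((Nat.prime_dvd_prime_iff_eq Fact.out Nat.prime_two).1
      ((ZMod.natCast_eq_zero_iff 2 p).1 h))
    intro h0
    have h1 : (u * u * (v * v) * (T.e * T.e) * 2) • (T.T 0).s = 0 := by
      rw [show u * u * (v * v) * (T.e * T.e) * 2 = u * v * T.e * (u * (2 * v) * T.e) by ring, mul_smul]
      exact (congrArg _ h0).trans (smul_zero _)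
    rw [← hu, ← hv, sg_sq, sg_sq, he, zsmul_eq_mul] at h1
    exact mul_ne_zero h2 hs (by simpa using h1)
  · rw [Fin.sum_univ_three] at h
    simp only [e]
    exact Prod.ext (by decide : qd 0 + qd 1 + qd 2 = 0) h
  · split_ifs with hij
    · subst hij; exact g.pd_x_one (hD i _)
    · exact g.pd_x (ok_x (hD i _)) j (Or.inl hij)
  · refine g.pd_a (ok_x (hD i _)) j ?_
    by_cases hij : i = j
    · exact Or.inr (Or.inl (by simp [hij, hj]))
    · exact Or.inl hij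

end Gv

end Crest.Agent.N255.Cs

end
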