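import Crest.Agent.N255.Ma.Vb

/-!
# Row 255 (helper31): the vertex family with its end gives the algebraic data `VB`
-/

set_option autoImplicit false
set_option linter.unusedSectionVars false
open Finset Sum

noncomputable section

namespace Crest.Agent.N255.Cs

open Tw Tp _root_.N255.Dr _root_.N255.Dr.O _root_.N255.Core _root_.N255.Wt
open _root_.N255.Sl (Zn Wf W0w)
open Tg (Ge id_mx)
open Ma (A2 VB Gs)

variable {p : ℕ} [Fact p.Prime] {s : Fin 3 → Type} [∀ i, Fintype (s i)]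
  {w : ∀ i, Wall p (Gm p) (g0 p) (s i)} {t : Fin 3 → Bool} {X : Type} [TopologicalSpace X]

/-- the elements of `mx` without linear term in `v` -/
def Lz0 {U : Type} [Fintype U] (v : U) : Ideal (O p (ZMod p) U) where
  carrier := {f | f ∈ mx ∧ pd v f ∈ mx}
  zero_mem' := ⟨zero_mem _, by rw [map_zero]; exact zero_mem _⟩
  add_mem' h h' := ⟨add_mem h.1 h'.1, by rw [map_add]; exact add_mem h.2 h'.2⟩
  smul_mem' c f h := ⟨Ideal.mul_mem_left _ c h.1, by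
    rw [smul_eq_mul, Derivation.leibniz]
    exact add_mem (Ideal.mul_mem_left _ _ h.2) (Ideal.mul_mem_right _ _ h.1)⟩

theorem Gu.pd_XI {U : Type} [Fintype U] (u : Gu p s t U) (T : Vt (ZMod p) X t) {v : U}
    (h : ∀ j, ∀ y ∈ u.ys j, v ≠ u.cu j y) {f : O p (ZMod p) U} (hf : f ∈ u.XI T) : pd v f ∈ mx := by
  have k : u.N * u.N ≤ mx ^ 2 := (Ideal.mul_mono u.N_mx u.N_mx).trans (sq _).ge
  refine ((sup_le (Ideal.span_le.2 ?_) fun f hf => ⟨u.XI_mx T (Ideal.mem_sup_right hf),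
    Tg.pd_sq (k (Ideal.mul_le_left hf)) _⟩ : u.XI T ≤ Lz0 v) hf).2
  rintro _ ⟨γ, _, ⟨j, hj, rfl⟩, rfl⟩
  refine ⟨id_mx u.hO _ _ (u.XI_mx T (u.a_XI T hj)), ?_⟩
  rw [(dg_pd u.hO v).pr, map_sub, map_sub, Gu.a, pd_uz_zero _ (h j), zero_sub, map_add, map_add, o_one,
    Derivation.map_one_eq_zero, zero_add]
  exact id_mx u.hO _ _ (neg_mem (Tg.pd_sq (k (T.la_in u.id_N u.x_N j)) _))

/-- **The vertex family with its end**, over the ring of all wall variables. -/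
structure PVxM {c n : ℕ} (T : Ty w c n) (u : Gu p s t (Σ i, s i)) (Tv : Vt (ZMod p) X t)
    (κ α : Type) [Fintype α] where
  /- as in `VB` -/
  f : ∀ i, Wf (w i) (N0 c)
  W0 : ∀ i, W0w (w i)
  hN : ∀ i, (f i).I ≤ Ge p (ZMod p) (fun x => N0 c + (w i).F x) (N1 c)
  hK : ∀ i, (f i).KU ≤ mx ^ 2 ⊓ Ge p (ZMod p) (fun x => N0 c + (w i).F x) (3 * La p c n + 1)
  io : ∀ i, O p (ZMod p) (s i) →ₐ[ZMod p] A2 p s
  hy : ∀ i x, (w i).kd x = none → io i (z x) = z ⟨i, x⟩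
  adm : ∀ i x, (w i).kd x ≠ none → Io.Adm T id i x (io i (z x) - z ⟨i, x⟩)
  Z : Zn (A2 p s) κ α (Fin 3)
  ok : Z.Ok
  hm : Z.m = mx
  hγ : 2 * Z.γ ≤ 3 * c
  be : B w t → α
  be_inj : Function.Injective be
  eps : ∀ b, Z.ε (be b) = z b.1
  eps0 : ∀ a, a ∉ Set.range be → Z.ε a = 0
  pa : ∀ b, (T.σ b.1.1).sc b.1.2 ≤ Z.pa (be b)
  hE : ∀ a, Z.E a ∈ mx
  DE : ∀ (b : B w t) a, pd b.1 (Z.E a) ∈ mx
  hI : ∀ i, Z.IK i ≤ (f i).I.map (io i) ⊔ mx ^ La p c n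
  xi : u.XI Tv ≤ Z.Pu
  row : ∀ a, a ∉ Set.range be → Z.E a ∈ u.XI Tv ∨ La p c n + 3 * Z.γ ≤ Z.pa a
  /- the wall families -/
  GU : ∀ i, Gr (Gm p) (ZMod p) (O p (ZMod p) (s i))
  gU : ∀ i, Cn (GU i) X
  aU : ∀ i, (Tw (GU i))ˣ
  bU : ∀ i, (Tw (GU i))ˣ
  σ : Fin 3 → Ch (ZMod p) 3 X
  hW : ∀ i, (w i).W = (Tv.T i).W (σ i) (gU i) (aU i) (bU i)
  hio : ∀ i, (GU i).Hom u.G (io i)
  b : Fin 3 → (Tw u.G)ˣ
  ioa : ∀ j, um (hio j) (aU j) = u.a j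
  iob : ∀ j, um (hio j) (bU j) = b j
  /- the vertex family -/
  g : Cn u.G X
  PK : Fin 3 → Sb X
  hσ : ∀ i, σ i ∈ (PK i).ch (ZMod p) 3
  hg : ∀ i, CU (PK i) (id_mx u.hO) g
  cmp : ∀ i, CI (PK i) (mx ^ La p c n) (dif g (mp (hio i) (gU i)))
  ρ : Ch (ZMod p) 4 X
  hρ : bd (ZMod p) ρ = Tv.c + ∑ j, if t j then σ j else -σ j
  pp : ev (ZMod p) (PP g) ρ - ∑ a, Z.ε a * Z.E a ∈ Z.Qd ⊔ Z.Eps * Z.Eps
  /- the end -/
  L : Ideal (A2 p s)
  hL : u.G.Id L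
  Lm : L ≤ mx
  XL : u.XI Tv ≤ L
  LX : L ≤ u.XI Tv ⊔ Z.Eps
  hb : ∀ j, In L ((b j).val - if t j then 1 + Tv.la u.x j else (u.x j).val)
  eh : ∀ e ∈ Tv.M.P.S 1, In L ((g e).val - (1 + Tv.M.v (fun i => (u.x i).val - 1) e))
  ee : ∀ j, (Tv.T j).Bc g (u.a j) (b j)

namespace PVxM

variable {c n : ℕ} {T : Ty w c n} {u : Gu p s t (Σ i, s i)} {Tv : Vt (ZMod p) X t} {κ α : Type}
  [Fintype α] (v : PVxM T u Tv κ α)

theorem W_sub (i : Fin 3) :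
    v.io i (w i).W - (Tv.T i).W (v.σ i) v.g (u.a i) (v.b i) ∈ mx ^ La p c n := by
  have hm := id_mx u.hO
  have Jm : (mx : Ideal (A2 p s)) ^ La p c n ≤ mx :=
    Ideal.pow_le_self (by have := N1_lt_La p c n; omega)
  have := (Tv.T i).W_io (v.hio i) (hm.pow _) Jm (v.hg i) (fun e he => In.eq (In.neg (v.cmp i e he))
    (neg_sub _ _).symm) (v.hσ i) (v.aU i) (v.bU i)
  rw [← v.hW, v.ioa, v.iob] at this
  exact Ideal.mul_le_right this

/-- the identity before the absorption -/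
theorem phi : ∑ i, (if t i = true then v.io i (w i).W else -v.io i (w i).W) + Tv.A u.x u.a -
    ev (ZMod p) (PP v.g) v.ρ ∈ (u.XI Tv ⊔ v.Z.Eps) * (u.XI Tv ⊔ v.Z.Eps) ⊔
      (mx * (u.N * u.N * u.N) ⊔ mx ^ La p c n) :=
  SetLike.le_def.1 (sup_le_sup_right (Ideal.mul_mono v.LX v.LX) _)
    (Tv.phi (id_mx u.hO) Tg.mx_nil u.id_N v.hL u.N_mx v.Lm (le_sup_right.trans v.XL) u.x_N
      (fun _ h => (u.x_M h).symm) (fun _ h => v.XL (u.a_XI Tv h)) v.hb v.eh v.ee v.hρ v.W_sub)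

include v in
/-- **the algebraic data at the vertex** -/
theorem toB (r : Gs w u) : Nonempty (VB T u Tv (Option κ) α) := by
  obtain ⟨e, h1, h2, h3, h4⟩ := v.ok.absorb v.xi 0 v.phi (Ideal.mem_sup_left v.pp)
  have hd : ∀ b : B w t, ∀ j, ∀ y ∈ u.ys j, b.1 ≠ u.cu j y := fun b j y hy e => by
    rw [r.hys, mem_ys] at hy
    have := b.2
    rw [r.cu j y hy] at e
    rw [e, hy] at this
    exact absurd this (by simp)
  exact ⟨{ v with
    Z := v.Z.adj (u.XI Tv) 0 e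
    ok := h3
    hE := fun a => add_mem (v.hE a) (u.XI_mx Tv (h1 a))
    DE := fun b a => by
      rw [show (v.Z.adj (u.XI Tv) 0 e).E a = v.Z.E a + e a from rfl, map_add]
      exact add_mem (v.DE b a) (u.pd_XI Tv (hd b) (h1 a))
    xi := (Zn.Pu_adj h2).symm ▸ v.xi
    row := fun a ha => (v.row a ha).imp_left fun h => add_mem h (h1 a)
    id := h4 }⟩

include v in
/-- **the vertex identity with non vanishing cubic term** -/
theorem vx (r : Gs w u) (he : Tv.e * Tv.e = 1) (hs : (Tv.T 0).s ≠ 0) (hp : p ≠ 2)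
    {D : ∀ i, ZMod p → s i} (hD : ∀ i d, (w i).kd (D i d) = none)
    (hd : ∀ i d, (w i).deg (D i d) = (qd i, d)) :
    ∃ (V : Type) (_ : Fintype V) (x : VxH w t (N0 c) (La p c n) V),
      ∀ d : Fin 3 → ZMod p, ∑ i, (if t i = true then d i else 1 - d i) = 1 →
        x.cub (fun i => D i (d i)) ≠ 0 :=
  (v.toB r).elim fun x => x.vx r he hs hp hD hd

end PVxM

end Crest.Agent.N255.Cs

end
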