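import Crest.Agent.N255.Cs.Der
import Crest.Agent.N255.Tp.Basic

/-!
# Row 255 (helper31): off-shell connections on singular simplices
-/

set_option autoImplicit false
open Finset

noncomputable section

namespace Crest.Agent.N255.Cs

open Tw Tp

variable {X Y : Type} [TopologicalSpace X] [TopologicalSpace Y] {n l : ℕ}

/-- families are closed under increasing vertex maps -/
theorem sb_sub (P : Sb X) : ∀ {n l : ℕ} {σ : Sx n X} (_ : σ ∈ P.S n) {v : Fin (l + 1) → Fin (n + 1)}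
    (_ : StrictMono v), sub σ v ∈ P.S l := by
  intro n
  induction n with
  | zero =>
    intro l σ h v hv
    obtain rfl : l = 0 := by simpa using Fintype.card_le_of_injective v hv.injective
    rwa [show v = id from funext fun t => Subsingleton.elim (α := Fin 1) _ _, sub_id]
  | succ n ih =>
    intro l σ h v hv
    by_cases hs : Function.Surjective v
    · obtain rfl : l = n + 1 := by simpa using Fintype.card_of_bijective ⟨hv.injective, hs⟩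
      have : v = id := by
        have := Subsingleton.elim (hv.orderIsoOfSurjective v hs) (OrderIso.refl _)
        funext x
        simpa using DFunLike.congr_fun this x
      rwa [this, sub_id]
    · obtain ⟨i, hi⟩ := not_forall.1 hs
      choose w hw using fun t => Fin.exists_succAbove_eq (x := v t) (y := i) fun e => hi ⟨t, e⟩
      have e : v = i.succAbove ∘ w := funext fun t => (hw t).symm
      rw [e, ← Tp.sub_sub]
      exact ih (P.fc_mem n σ i h) fun a b hab =>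
        (Fin.strictMono_succAbove i).lt_iff_lt.1 (by rw [hw, hw]; exact hv hab)

/-- edge -/
abbrev e2 (σ : Sx n X) (a b : Fin (n + 1)) : Sx 1 X := sub σ ![a, b]

/-- triangle -/
abbrev e3 (σ : Sx n X) (a b c : Fin (n + 1)) : Sx 2 X := sub σ ![a, b, c]

/-- tetrahedron -/
abbrev e4 (σ : Sx n X) (a b c d : Fin (n + 1)) : Sx 3 X := sub σ ![a, b, c, d]

theorem e2_mem (P : Sb X) {σ : Sx n X} (h : σ ∈ P.S n) {a b : Fin (n + 1)} (h1 : a < b) :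
    e2 σ a b ∈ P.S 1 :=
  sb_sub P h (Fin.strictMono_iff_lt_succ.2 fun i => by fin_cases i; exact h1)

theorem e3_mem (P : Sb X) {σ : Sx n X} (h : σ ∈ P.S n) {a b c : Fin (n + 1)} (h1 : a < b)
    (h2 : b < c) : e3 σ a b c ∈ P.S 2 :=
  sb_sub P h (Fin.strictMono_iff_lt_succ.2 fun i => by fin_cases i; exacts [h1, h2])

theorem e2_sub (σ : Sx n X) (v : Fin (l + 1) → Fin (n + 1)) (a b : Fin (l + 1)) :
    e2 (sub σ v) a b = e2 σ (v a) (v b) := by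
  rw [e2, Tp.sub_sub]; congr 1; funext t; fin_cases t <;> rfl

theorem e3_sub (σ : Sx n X) (v : Fin (l + 1) → Fin (n + 1)) (a b c : Fin (l + 1)) :
    e3 (sub σ v) a b c = e3 σ (v a) (v b) (v c) := by
  rw [e3, Tp.sub_sub]; congr 1; funext t; fin_cases t <;> rfl

theorem e2_self (σ : Sx 1 X) : e2 σ 0 1 = σ :=
  (sub_congr σ fun t => by fin_cases t <;> rfl).trans (sub_id σ)

theorem e3_self (σ : Sx 2 X) : e3 σ 0 1 2 = σ :=
  (sub_congr σ fun t => by fin_cases t <;> rfl).trans (sub_id σ)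

section cob

variable (k : Type) [CommRing k] {A : Type} [AddCommGroup A] [Module k A]

theorem cob_d1 (φ : Co A 1 X) (σ : Sx 2 X) : cob k φ σ = d1 (fun a b => φ (e2 σ a b)) 0 1 2 := by
  have h0 : Tp.fc σ 0 = e2 σ 1 2 := sub_congr σ fun t => by fin_cases t <;> rfl
  have h1 : Tp.fc σ 1 = e2 σ 0 2 := sub_congr σ fun t => by fin_cases t <;> rfl
  have h2 : Tp.fc σ 2 = e2 σ 0 1 := sub_congr σ fun t => by fin_cases t <;> rfl
  simp [cob_apply, Fin.sum_univ_three, h0, h1, h2, d1, sub_eq_add_neg]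

theorem cob_e3 (φ : Co A 1 X) (σ : Sx n X) (a b c : Fin (n + 1)) :
    cob k φ (e3 σ a b c) = d1 (fun a b => φ (e2 σ a b)) a b c := by
  simp only [cob_d1, d1, e2_sub]; rfl

theorem cob_d2 (φ : Co A 2 X) (σ : Sx 3 X) :
    cob k φ σ = d2 (fun a b c => φ (e3 σ a b c)) 0 1 2 3 := by
  have h0 : Tp.fc σ 0 = e3 σ 1 2 3 := sub_congr σ fun t => by fin_cases t <;> rfl
  have h1 : Tp.fc σ 1 = e3 σ 0 2 3 := sub_congr σ fun t => by fin_cases t <;> rfl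
  have h2 : Tp.fc σ 2 = e3 σ 0 1 3 := sub_congr σ fun t => by fin_cases t <;> rfl
  have h3 : Tp.fc σ 3 = e3 σ 0 1 2 := sub_congr σ fun t => by fin_cases t <;> rfl
  have e : (-1 : k) ^ 3 = -1 := by norm_num
  simp [cob_apply, Fin.sum_univ_four, h0, h1, h2, h3, d2, sub_eq_add_neg, e]

theorem cob_d3 (φ : Co A 3 X) (σ : Sx 4 X) :
    cob k φ σ = d3 (fun a b c d => φ (e4 σ a b c d)) 0 1 2 3 4 := by
  have h0 : Tp.fc σ 0 = e4 σ 1 2 3 4 := sub_congr σ fun t => by fin_cases t <;> rfl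
  have h1 : Tp.fc σ 1 = e4 σ 0 2 3 4 := sub_congr σ fun t => by fin_cases t <;> rfl
  have h2 : Tp.fc σ 2 = e4 σ 0 1 3 4 := sub_congr σ fun t => by fin_cases t <;> rfl
  have h3 : Tp.fc σ 3 = e4 σ 0 1 2 4 := sub_congr σ fun t => by fin_cases t <;> rfl
  have h4 : Tp.fc σ 4 = e4 σ 0 1 2 3 := sub_congr σ fun t => by fin_cases t <;> rfl
  have e : (-1 : k) ^ 3 = -1 := by norm_num
  have e' : (-1 : k) ^ 4 = 1 := by norm_num
  simp [cob_apply, Fin.sum_univ_five, h0, h1, h2, h3, h4, d3, sub_eq_add_neg, e, e']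

variable {k} {A' A'' : Type} [AddCommGroup A'] [Module k A'] [AddCommGroup A''] [Module k A'']
  (μ : A →ₗ[k] A' →ₗ[k] A'')

theorem cup11 (φ : Co A 1 X) (ψ : Co A' 1 X) (σ : Sx 2 X) :
    cup μ 2 φ ψ σ = μ (φ (e2 σ 0 1)) (ψ (e2 σ 1 2)) := by
  rw [cup, show fr 1 σ = e2 σ 0 1 from sub_congr σ fun t => by fin_cases t <;> rfl,
    show Tp.bk 1 σ = e2 σ 1 2 from sub_congr σ fun t => by fin_cases t <;> rfl]

theorem cup12 (φ : Co A 1 X) (ψ : Co A' 2 X) (σ : Sx 3 X) :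
    cup μ 3 φ ψ σ = μ (φ (e2 σ 0 1)) (ψ (e3 σ 1 2 3)) := by
  rw [cup, show fr 1 σ = e2 σ 0 1 from sub_congr σ fun t => by fin_cases t <;> rfl,
    show Tp.bk 2 σ = e3 σ 1 2 3 from sub_congr σ fun t => by fin_cases t <;> rfl]

theorem cup21 (φ : Co A 2 X) (ψ : Co A' 1 X) (σ : Sx 3 X) :
    cup μ 3 φ ψ σ = μ (φ (e3 σ 0 1 2)) (ψ (e2 σ 2 3)) := by
  rw [cup, show fr 2 σ = e3 σ 0 1 2 from sub_congr σ fun t => by fin_cases t <;> rfl,
    show Tp.bk 1 σ = e2 σ 2 3 from sub_congr σ fun t => by fin_cases t <;> rfl]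

theorem cup22 (φ : Co A 2 X) (ψ : Co A' 2 X) (σ : Sx 4 X) :
    cup μ 4 φ ψ σ = μ (φ (e3 σ 0 1 2)) (ψ (e3 σ 2 3 4)) := by
  rw [cup, show fr 2 σ = e3 σ 0 1 2 from sub_congr σ fun t => by fin_cases t <;> rfl,
    show Tp.bk 2 σ = e3 σ 2 3 4 from sub_congr σ fun t => by fin_cases t <;> rfl]

end cob

section ring

variable {R : Type} [Ring R]

/-- the labels of the edges of a simplex -/
def gs (g : Sx 1 X → Rˣ) (σ : Sx n X) (a b : Fin (n + 1)) : Rˣ := g (e2 σ a b)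

theorem gs_sub (g : Sx 1 X → Rˣ) (σ : Sx n X) (v : Fin (l + 1) → Fin (n + 1))
    (a b : Fin (l + 1)) : gs g (sub σ v) a b = gs g σ (v a) (v b) := by rw [gs, e2_sub, gs]

/-- curvature -/
def cur (g : Sx 1 X → Rˣ) : Co R 2 X := fun σ => fc (gs g σ) 0 1 2

theorem cur_e3 (g : Sx 1 X → Rˣ) (σ : Sx n X) (a b c : Fin (n + 1)) :
    cur g (e3 σ a b c) = fc (gs g σ) a b c :=
  fc_congr (gs_sub _ _ _ _ _) (gs_sub _ _ _ _ _) (gs_sub _ _ _ _ _)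

/-- difference of two connections -/
def dif (g' g : Sx 1 X → Rˣ) : Co R 1 X := fun σ => g' σ - g σ

/-- the vertices -/
abbrev e1 (σ : Sx n X) (a : Fin (n + 1)) : Sx 0 X := sub σ ![a]

/-- gauge transformation -/
def gag (γ : Sx 0 X → Rˣ) (g : Sx 1 X → Rˣ) : Sx 1 X → Rˣ :=
  fun σ => γ (e1 σ 0) * g σ * (γ (e1 σ 1))⁻¹

theorem e1_sub (σ : Sx n X) (v : Fin (l + 1) → Fin (n + 1)) (a : Fin (l + 1)) :
    e1 (sub σ v) a = e1 σ (v a) := by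
  rw [e1, Tp.sub_sub]; congr 1; funext t; fin_cases t; rfl

theorem e1_mem (P : Sb X) {σ : Sx n X} (h : σ ∈ P.S n) (a : Fin (n + 1)) : e1 σ a ∈ P.S 0 :=
  sb_sub P h (Subsingleton.strictMono (α := Fin 1) _)

theorem gs_gag (γ : Sx 0 X → Rˣ) (g : Sx 1 X → Rˣ) (σ : Sx n X) :
    gs (gag γ g) σ = gau (fun a => γ (e1 σ a)) (gs g σ) := by
  funext a b
  simp only [gs, gag, gau, e1_sub]; rfl

theorem cur_gag (γ : Sx 0 X → Rˣ) (g : Sx 1 X → Rˣ) (σ : Sx 2 X) :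
    cur (gag γ g) σ = γ (e1 σ 0) * cur g σ * ↑(γ (e1 σ 2))⁻¹ := by
  rw [cur, gs_gag, fc_gau]; rfl

theorem gs_comp (f : C(X, Y)) (g : Sx 1 Y → Rˣ) (σ : Sx n X) :
    gs (fun τ => g (f.comp τ)) σ = gs g (f.comp σ) := rfl

theorem gs_congr {P : Sb X} {g g' : Sx 1 X → Rˣ} (h : ∀ σ ∈ P.S 1, g σ = g' σ) {σ : Sx n X}
    (hσ : σ ∈ P.S n) {a b : Fin (n + 1)} (h1 : a < b) : gs g σ a b = gs g' σ a b :=
  h _ (e2_mem P hσ h1)

theorem cur_congr {P : Sb X} {g g' : Sx 1 X → Rˣ} (h : ∀ σ ∈ P.S 1, g σ = g' σ) {σ : Sx 2 X}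
    (hσ : σ ∈ P.S 2) : cur g σ = cur g' σ :=
  fc_congr (gs_congr h hσ (by decide)) (gs_congr h hσ (by decide)) (gs_congr h hσ (by decide))

end ring

variable {p : ℕ} [hpp : Fact p.Prime] {K O : Type} [CommRing K] [CommRing O] [Algebra K O]
  {G : Gr (Gm p) K O}

/-- connections -/
abbrev Cn (G : Gr (Gm p) K O) (X : Type) [TopologicalSpace X] : Type := Sx 1 X → (Tw G)ˣ

/-- the values on `P` lie in `I` -/
def CI (P : Sb X) (I : Ideal O) (φ : Co (Tw G) n X) : Prop := ∀ σ ∈ P.S n, In I (φ σ)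

/-- the labels on `P` lie in `1 + m` -/
def CU (P : Sb X) {m : Ideal O} (hm : G.Id m) (g : Sx n X → (Tw G)ˣ) : Prop :=
  ∀ σ ∈ P.S n, g σ ∈ U hm

/-- the symmetric pairing `q` -/
def lq (G : Gr (Gm p) K O) : Tw G →ₗ[K] Tw G →ₗ[K] O := (LinearMap.mul K (Tw G)).compr₂ (lam G)

/-- the pairing `B` -/
def lB (G : Gr (Gm p) K O) : Tw G →ₗ[K] Tw G →ₗ[K] O := lq G ∘ₗ D G

theorem lq_apply (x y : Tw G) : lq G x y = lam G (x * y) := rfl

theorem lB_apply (x y : Tw G) : lB G x y = lam G (D G x * y) := rfl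

variable {P : Sb X} {m I J H : Ideal O} {hm : G.Id m} {g g' : Cn G X}

theorem CU.gs (h : CU P hm g) {σ : Sx n X} (hσ : σ ∈ P.S n) (a b : Fin (n + 1))
    (h1 : a < b := by decide) : gs g σ a b ∈ U hm := h _ (e2_mem P hσ h1)

theorem CI.fc (h : CI P I (cur g)) {σ : Sx n X} (hσ : σ ∈ P.S n) (a b c : Fin (n + 1))
    (h1 : a < b := by decide) (h2 : b < c := by decide) : In I (fc (Cs.gs g σ) a b c) :=
  cur_e3 g σ a b c ▸ h _ (e3_mem P hσ h1 h2)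

theorem CI.df (h : CI P H (dif g' g)) {σ : Sx n X} (hσ : σ ∈ P.S n) (a b : Fin (n + 1))
    (h1 : a < b := by decide) : In H (df (Cs.gs g' σ) (Cs.gs g σ) a b) := h _ (e2_mem P hσ h1)

theorem CI.d1 (h : CI P J (cob K (dif g' g))) {σ : Sx n X} (hσ : σ ∈ P.S n) (a b c : Fin (n + 1))
    (h1 : a < b := by decide) (h2 : b < c := by decide) :
    In J (d1 (Cs.df (Cs.gs g' σ) (Cs.gs g σ)) a b c) := by
  have := h _ (e3_mem P hσ h1 h2)
  rwa [cob_e3] at this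

theorem ev_ideal {φ : Co O n X} (h : ∀ σ ∈ P.S n, φ σ ∈ I) {c : Ch K n X} (hc : c ∈ P.ch K n) :
    ev K φ c ∈ I := P.ev_mem φ (I.restrictScalars K) h hc

theorem CI.ev {φ : Co (Tw G) n X} (h : CI P I φ) {c : Ch K n X} (hc : c ∈ P.ch K n) :
    In I (ev K φ c) := P.ev_mem φ ((I.restrictScalars K).comap (o G).toLinearMap) h hc

/-- Bianchi -/
theorem cob_cur_mem (hI : G.Id I) (h : CU P hm g) (f : CI P I (cur g)) :
    CI P (m * I) (cob K (cur g)) := fun σ hσ => by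
  rw [cob_d2]
  simp only [d2, cur_e3]
  exact d2_fc_mem hm hI (h.gs hσ 0 1) (h.gs hσ 2 3) (f.fc hσ 0 1 2) (f.fc hσ 1 2 3)

theorem cur_sub_mem (hH : G.Id H) (h : CU P hm g) (k : CI P H (dif g' g)) :
    CI P (m * H ⊔ H * H) (cur g' - cur g - cob K (dif g' g)) := fun σ hσ => by
  rw [Pi.sub_apply, cob_d1]
  exact fc_sub_mem hm hH (h.gs hσ 0 1) (h.gs hσ 1 2) (k.df hσ 0 1) (k.df hσ 1 2)

theorem cur_sub_mem' (hH : G.Id H) (k : CI P H (dif g' g)) : CI P H (cur g' - cur g) :=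
  fun _ hσ => fc_sub_mem' hH (k.df hσ 0 1) (k.df hσ 1 2) (k.df hσ 0 2)

variable [Fact ((p : O) = 0)]

/-- the Chern-Simons cochain -/
def CS (g : Cn G X) : Co O 3 X := fun σ => (td G).cs (gs g σ) 0 1 2 3

/-- its coboundary -/
def PP (g : Cn G X) : Co O 4 X := fun σ => (td G).P (gs g σ) 0 1 2 3 4

/-- boundary term of the variation, first form -/
def BE (g : Cn G X) (h : Co (Tw G) 1 X) : Co O 2 X :=
  fun σ => (td G).be (gs g σ) (fun a b => h (e2 σ a b)) 0 1 2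

/-- boundary term of the variation, second form -/
def BK (g' g : Cn G X) : Co O 2 X := fun σ => bk (gs g' σ) (gs g σ) 0 1 2

/-- boundary term of a gauge transformation -/
def TH (γ : Sx 0 X → (Tw G)ˣ) (g : Cn G X) : Co O 2 X :=
  fun σ => (td G).th (fun a => γ (e1 σ a)) (gs g σ) 0 1 2

/-- boundary term of a derivative -/
def BD {γ : Gm p} {δ : Derivation K O O} (h : G.Dg γ δ) (g : Cn G X) : Co O 2 X :=
  fun σ => bD h (gs g σ) 0 1 2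

theorem CS_e4 (g : Cn G X) (σ : Sx n X) (a b c d : Fin (n + 1)) :
    CS g (e4 σ a b c d) = (td G).cs (gs g σ) a b c d :=
  (td G).cs_congr (gs_sub _ _ _ _ _) (gs_sub _ _ _ _ _) (gs_sub _ _ _ _ _) (gs_sub _ _ _ _ _)
    (gs_sub _ _ _ _ _)

theorem cob_CS (g : Cn G X) : cob K (CS g) = PP g := by
  funext σ
  rw [cob_d3, PP, ← TD.d3_cs]
  simp only [d3, CS_e4]

theorem CS_congr (h : ∀ σ ∈ P.S 1, g σ = g' σ) {c : Ch K 3 X} (hc : c ∈ P.ch K 3) :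
    ev K (CS g) c = ev K (CS g') c :=
  P.ev_congr (fun _ hσ => sub_eq_zero.2 ((td G).cs_congr (gs_congr h hσ (by decide))
    (gs_congr h hσ (by decide)) (gs_congr h hσ (by decide)) (gs_congr h hσ (by decide))
    (gs_congr h hσ (by decide)))) hc

theorem CS_push (f : C(X, Y)) (g : Cn G Y) (c : Ch K 3 X) :
    ev K (CS g) (push K f c) = ev K (CS fun τ => g (f.comp τ)) c := ev_push f _ c

theorem CS_hg (g : Cn G X) (c : Ch K 3 X) : G.Hg (g0 p) (ev K (CS g) c) := by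
  rw [Gr.Hg, map_ev]
  exact congrArg (fun φ => ev K φ c) (funext fun σ => cs_hg _ _ _ _ _)

theorem CS_mem (hI : G.Id I) (h : CU P hm g) (f : CI P I (cur g)) {c : Ch K 3 X}
    (hc : c ∈ P.ch K 3) : ev K (CS g) c ∈ m * I :=
  ev_ideal (fun _ hσ => cs_mem hm hI (h.gs hσ 0 1) (f.fc hσ 1 2 3)) hc

theorem PP_mem (hI : G.Id I) (f : CI P I (cur g)) {c : Ch K 4 X} (hc : c ∈ P.ch K 4) :
    ev K (PP g) c ∈ I * I :=
  ev_ideal (fun _ hσ => P_mem hI (f.fc hσ 0 1 2) (f.fc hσ 2 3 4) (f.fc hσ 1 2 3) (f.fc hσ 0 3 4)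
    (f.fc hσ 0 1 4)) hc

/-- Stokes -/
theorem CS_bd (g : Cn G X) (c : Ch K 4 X) : ev K (CS g) (bd K c) = ev K (PP g) c := by
  rw [ev_bd, cob_CS]

theorem CS_bd_mem (hI : G.Id I) (f : CI P I (cur g)) {c : Ch K 4 X} (hc : c ∈ P.ch K 4) :
    ev K (CS g) (bd K c) ∈ I * I := CS_bd g c ▸ PP_mem hI f hc

theorem PP_sym (hI : G.Id I) (h : CU P hm g) (f : CI P I (cur g)) {c : Ch K 4 X}
    (hc : c ∈ P.ch K 4) : ev K (PP g) c - ev K (cup (lB G) 4 (cur g) (cur g)) c ∈ m * (I * I) := by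
  rw [← ev_sub]
  refine ev_ideal (fun σ hσ => ?_) hc
  rw [Pi.sub_apply, cup22, cur_e3, cur_e3]
  exact P_sym hm hI (h.gs hσ 0 1) (h.gs hσ 1 2) (h.gs hσ 0 4) (f.fc hσ 0 1 2) (f.fc hσ 2 3 4)
    (f.fc hσ 1 2 3) (f.fc hσ 0 3 4) (f.fc hσ 0 1 4)

theorem cob_BE (g : Cn G X) (h : Co (Tw G) 1 X) (σ : Sx 3 X) :
    cob K (BE g h) σ = d2 ((td G).be (gs g σ) fun a b => h (e2 σ a b)) 0 1 2 3 := by
  simp only [cob_d2, d2, BE, TD.be, gs_sub, e2_sub]; rfl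

theorem cob_BK (g' g : Cn G X) (σ : Sx 3 X) :
    cob K (BK g' g) σ = d2 (bk (gs g' σ) (gs g σ)) 0 1 2 3 := by
  simp only [cob_d2, d2, BK, bk, TD.be, TD.ka, df, fc, gs_sub]; rfl

/-- (V), first form; `I` contains both curvatures -/
theorem CS_var (hI : G.Id I) (hH : G.Id H) (h : CU P hm g) (h' : CU P hm g') (f : CI P I (cur g))
    (f' : CI P I (cur g')) (k : CI P H (dif g' g)) {c : Ch K 3 X} (hc : c ∈ P.ch K 3) :
    ev K (CS g') c - ev K (CS g) c + ev K (BE g (dif g' g)) (bd K c)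
      - (ev K (cup (lB G) 3 (dif g' g) (cur g')) c + ev K (cup (lB G) 3 (cur g) (dif g' g)) c) ∈
      m * (H * (I ⊔ H)) := by
  rw [ev_bd, ← ev_sub, ← ev_add, ← ev_add, ← ev_sub]
  refine ev_ideal (fun σ hσ => ?_) hc
  simp only [Pi.sub_apply, Pi.add_apply, cob_BE, cup12, cup21, cur_e3]
  exact var_mem hm hI hH (h.gs hσ 0 1) (h.gs hσ 1 2) (h.gs hσ 0 3) (h'.gs hσ 0 3) (f.fc hσ 0 1 2)
    (f'.fc hσ 1 2 3) (f.fc hσ 0 1 3) (f.fc hσ 0 2 3) (k.df hσ 0 1) (k.df hσ 1 2) (k.df hσ 2 3)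
    (k.df hσ 0 3)

/-- (V), second form -/
theorem CS_var_q (hI : G.Id I) (hH : G.Id H) (hJ : G.Id J) (hHm : H ≤ m) (h : CU P hm g)
    (f : CI P I (cur g)) (k : CI P H (dif g' g)) (j : CI P J (cob K (dif g' g))) {c : Ch K 3 X}
    (hc : c ∈ P.ch K 3) :
    ev K (CS g') c - ev K (CS g) c + ev K (BK g' g) (bd K c)
      - ev K (cup (lq G) 3 (dif g' g) (cur g)) c ∈ m * (H * (I ⊔ H)) ⊔ J * (I ⊔ H) := by
  rw [ev_bd, ← ev_sub, ← ev_add, ← ev_sub]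
  refine ev_ideal (fun σ hσ => ?_) hc
  simp only [Pi.sub_apply, Pi.add_apply, cob_BK, cup12, cur_e3]
  exact var_q hm hI hH hJ hHm (h.gs hσ 0 1) (h.gs hσ 1 2) (h.gs hσ 0 3) (h.gs hσ 2 3)
    (f.fc hσ 0 1 2) (f.fc hσ 1 2 3) (f.fc hσ 0 1 3) (f.fc hσ 0 2 3) (k.df hσ 0 1) (k.df hσ 1 2)
    (k.df hσ 2 3) (k.df hσ 0 3) (k.df hσ 1 3) (j.d1 hσ 0 1 3) (j.d1 hσ 0 2 3) (j.d1 hσ 1 2 3)

theorem BE_mem (hH : G.Id H) (h : CU P hm g) {φ : Co (Tw G) 1 X} (k : CI P H φ) {c : Ch K 2 X}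
    (hc : c ∈ P.ch K 2) : ev K (BE g φ) c ∈ m * H :=
  ev_ideal (fun _ hσ => be_mem hm hH (h.gs hσ 0 1) (k _ (e2_mem P hσ (by decide)))) hc

theorem BK_mem (hI : G.Id I) (hH : G.Id H) (h : CU P hm g) (f : CI P I (cur g))
    (k : CI P H (dif g' g)) {c : Ch K 2 X} (hc : c ∈ P.ch K 2) : ev K (BK g' g) c ∈ H * (m ⊔ I) :=
  ev_ideal (fun _ hσ => bk_mem hm hI hH (h.gs hσ 0 1) (f.fc hσ 0 1 2) (k.df hσ 1 2)
    (k.df hσ 0 2)) hc

theorem BK_zero (h : ∀ σ ∈ P.S 1, g' σ = g σ) {c : Ch K 2 X} (hc : c ∈ P.ch K 2) :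
    ev K (BK g' g) c = 0 :=
  P.ev_eq_zero (fun _ hσ => bk_zero (gs_congr h hσ (by decide)) (gs_congr h hσ (by decide))) hc

/-- on flat simplices the two boundary terms agree -/
theorem BK_flat (f : ∀ σ ∈ P.S 2, cur g σ = 0) {c : Ch K 2 X} (hc : c ∈ P.ch K 2) :
    ev K (BK g' g) c = ev K (BE g (dif g' g)) c :=
  P.ev_congr (fun σ hσ => by
    have : fc (gs g σ) 0 1 2 = 0 := f σ hσ
    simp only [Pi.sub_apply, BK, bk, TD.ka, this, map_zero, mul_zero, sub_zero]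
    exact sub_self _) hc

/-- (G) -/
theorem CS_gag (hI : G.Id I) {hH : G.Id H} {γ : Sx 0 X → (Tw G)ˣ} (h : CU P hH γ)
    (f : CI P I (cur g)) {c : Ch K 3 X} (hc : c ∈ P.ch K 3) :
    ev K (CS (gag γ g)) c - ev K (CS g) c + ev K (TH γ g) (bd K c) ∈ H * (I * I) := by
  rw [ev_bd, ← ev_sub, ← ev_add]
  refine ev_ideal (fun σ hσ => ?_) hc
  have e : cob K (TH γ g) σ = d2 ((td G).th (fun a => γ (e1 σ a)) (gs g σ)) 0 1 2 3 := by
    simp only [cob_d2, d2, TH, TD.th, fc, gs_sub, e1_sub]; rfl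
  rw [Pi.add_apply, Pi.sub_apply, e, CS, gs_gag, CS, TD.gauge]
  exact Ge_mem hI hH (h _ (e1_mem P hσ 0)) (h _ (e1_mem P hσ 1)) (f.fc hσ 0 1 2) (f.fc hσ 0 2 3)
    (f.fc hσ 1 2 3) (f.fc hσ 0 1 3)

theorem TH_mem (hI : G.Id I) {hH : G.Id H} {γ : Sx 0 X → (Tw G)ˣ} (h : CU P hH γ)
    (f : CI P I (cur g)) {c : Ch K 2 X} (hc : c ∈ P.ch K 2) : ev K (TH γ g) c ∈ H * I :=
  ev_ideal (fun σ hσ => th_mem (γ := fun a => γ (e1 σ a)) hI hH (h _ (e1_mem P hσ 0))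
    (f.fc hσ 0 1 2)) hc

theorem cob_BD {γ : Gm p} {δ : Derivation K O O} (hδ : G.Dg γ δ) (g : Cn G X) (σ : Sx 3 X) :
    cob K (BD hδ g) σ = d2 (bD hδ (gs g σ)) 0 1 2 3 := by
  have : ∀ a b c, BD hδ g (e3 σ a b c) = bD hδ (gs g σ) a b c := fun a b c =>
    bD_congr hδ (g := gs g (e3 σ a b c)) (k := gs g σ) (a := 0) (b := 1) (c := 2) (a' := a)
      (b' := b) (c' := c) (gs_sub _ _ _ _ _) (gs_sub _ _ _ _ _) (gs_sub _ _ _ _ _)
  rw [cob_d2, d2, this, this, this, this, d2]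

theorem CS_der_pt {γ : Gm p} {δ : Derivation K O O} (hδ : G.Dg γ δ) (hI : G.Id I) (h : CU P hm g)
    (f : CI P I (cur g)) {κ : Co K 1 X} (hκ : κ ∈ P.Z K K 1)
    (k : ∀ σ ∈ P.S 1, δ (o G (g σ)) - algebraMap K O (κ σ) ∈ m) {σ : Sx 3 X} (hσ : σ ∈ P.S 3) :
    δ (CS g σ) + cob K (BD hδ g) σ - sg γ (g0 p - γ) •
      G.pr (g0 p - γ) (o G (cup (LinearMap.lsmul K (Tw G)) 3 κ (cur g) σ)) ∈ m * I := by
  have j : ∀ a b c : Fin 4, a < b → b < c → d1 (fun a b => κ (e2 σ a b)) a b c = 0 :=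
    fun a b c h1 h2 => (cob_e3 K κ σ a b c).symm.trans (hκ _ (e3_mem P hσ h1 h2))
  have lt : ∀ x ∈ [((0 : Fin 4), (1 : Fin 4)), (1, 2), (2, 3), (0, 2), (0, 3), (1, 3)],
      x.1 < x.2 := by decide
  have := der_cs hδ hm hI (κ := fun a b => κ (e2 σ a b)) (h.gs hσ 0 1) (h.gs hσ 1 2) (h.gs hσ 0 3)
    (h.gs hσ 2 3) (f.fc hσ 0 1 2) (f.fc hσ 1 2 3) (f.fc hσ 0 1 3) (f.fc hσ 0 2 3)
    (fun x hx => k _ (e2_mem P hσ (lt x hx))) (j 0 1 3 (by decide) (by decide))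
    (j 0 2 3 (by decide) (by decide)) (j 1 2 3 (by decide) (by decide))
  rwa [cob_BD, cup12, cur_e3, LinearMap.lsmul_apply, map_smul, map_smul]

/-- the derivative of the potential -/
theorem CS_der {γ : Gm p} {δ : Derivation K O O} (hδ : G.Dg γ δ) (hI : G.Id I) (h : CU P hm g)
    (f : CI P I (cur g)) {κ : Co K 1 X} (hκ : κ ∈ P.Z K K 1)
    (k : ∀ σ ∈ P.S 1, δ (o G (g σ)) - algebraMap K O (κ σ) ∈ m) {c : Ch K 3 X}
    (hc : c ∈ P.ch K 3) :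
    δ (ev K (CS g) c) + ev K (BD hδ g) (bd K c) - sg γ (g0 p - γ) •
      G.pr (g0 p - γ) (o G (ev K (cup (LinearMap.lsmul K (Tw G)) 3 κ (cur g)) c)) ∈ m * I := by
  have q1 : δ (ev K (CS g) c) = ev K (fun σ => δ (CS g σ)) c := map_ev δ.toLinearMap _ c
  have q2 : sg γ (g0 p - γ) •
      G.pr (g0 p - γ) (o G (ev K (cup (LinearMap.lsmul K (Tw G)) 3 κ (cur g)) c)) =
      ev K (fun σ => sg γ (g0 p - γ) •
        G.pr (g0 p - γ) (o G (cup (LinearMap.lsmul K (Tw G)) 3 κ (cur g) σ))) c :=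
    map_ev (sg γ (g0 p - γ) • (G.pr (g0 p - γ) ∘ₗ (o G).toLinearMap)) _ c
  rw [q1, q2, ev_bd, ← ev_add, ← ev_sub]
  exact ev_ideal (fun σ hσ => CS_der_pt hδ hI h f hκ k hσ) hc

theorem BD_zero {γ : Gm p} {δ : Derivation K O O} (hδ : G.Dg γ δ)
    (k : ∀ σ ∈ P.S 1, δ (o G (g σ)) = 0) {c : Ch K 2 X} (hc : c ∈ P.ch K 2) :
    ev K (BD hδ g) c = 0 :=
  P.ev_eq_zero (fun _ hσ => bD_zero hδ (k _ (e2_mem P hσ (by decide)))
    (k _ (e2_mem P hσ (by decide)))) hc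

section map

variable {O' : Type} [CommRing O'] [Algebra K O'] [Fact ((p : O') = 0)] {G' : Gr (Gm p) K O'}
  {φ : O →ₐ[K] O'}

/-- substitution in a connection -/
def mp (h : G.Hom G' φ) (g : Sx n X → (Tw G)ˣ) : Sx n X → (Tw G')ˣ := fun σ => um h (g σ)

omit [Fact ((p : O) = 0)] [Fact ((p : O') = 0)] in
theorem cur_mp (h : G.Hom G' φ) (g : Cn G X) (σ : Sx 2 X) :
    cur (mp h g) σ = Tw.map h (cur g σ) := fc_um h (gs g σ) 0 1 2

theorem CS_mp (h : G.Hom G' φ) (g : Cn G X) (c : Ch K 3 X) :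
    ev K (CS (mp h g)) c = φ (ev K (CS g) c) := by
  rw [show φ (ev K (CS g) c) = _ from map_ev φ.toLinearMap _ c]
  exact congrArg (fun φ => ev K φ c) (funext fun σ => cs_um h (gs g σ) 0 1 2 3)

omit [Fact ((p : O) = 0)] [Fact ((p : O') = 0)] in
theorem CU.mp (h : G.Hom G' φ) {m' : Ideal O'} {hm' : G'.Id m'} (hφ : ∀ x ∈ m, φ x ∈ m')
    {g : Sx n X → (Tw G)ˣ} (hg : CU P hm g) : CU P hm' (mp h g) :=
  fun σ hσ => um_mem h hm hm' hφ (hg σ hσ)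

omit [Fact ((p : O) = 0)] [Fact ((p : O') = 0)] in
theorem CI.mp (h : G.Hom G' φ) {I' : Ideal O'} (hφ : ∀ x ∈ I, φ x ∈ I') (f : CI P I (cur g)) :
    CI P I' (cur (Cs.mp h g)) := fun σ hσ => by rw [cur_mp]; exact hφ _ (f σ hσ)

end map

end Crest.Agent.N255.Cs

end
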